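import Vale.Agent.P262S.Defs

/-! P262: the modules fit together. -/

namespace P262S

theorem assembly
    (ban : BanStatement) (tail : TailStatement)
    (mark : BanStatement → MarkStatement)
    (round : MarkStatement → TailStatement → RoundStatement)
    (split : MarkStatement → TailStatement → SplitStatement)
    (cst : CstStatement) (stg : StgStatement) (sum : SumStatement) (tilt : TiltStatement)
    (wt : WtStatement) (mtch : MatchStatement)
    (p1 : RoundStatement → TiltStatement → WtStatement → P1Statement)
    (p2 : SplitStatement → MatchStatement → WtStatement → P2Statement)
    (stepA : P1Statement → WtStatement → StepAStatement)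
    (stepB : P2Statement → WtStatement → StepBStatement)
    (core : CstStatement → StgStatement → SumStatement → WtStatement → StepAStatement →
      StepBStatement → CoreStatement)
    (top : CoreStatement → TopStatement) : TopStatement :=
  top (core cst stg sum wt (stepA (p1 (round (mark ban) tail) tilt wt) wt)
    (stepB (p2 (split (mark ban) tail) mtch wt) wt))

end P262S
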