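import Vale.Agent.P074.PLn

/-!
# A Banaszczyk step from the Prekopa-Leindler inequality
-/

open MeasureTheory Set
open scoped ENNReal NNReal Pointwise

namespace P262SBan

open Vale.Agent.P074 (E)

/-- Gaussian mass (not normalised). -/
noncomputable def gam {n : ℕ} (A : Set (EuclideanSpace ℝ (Fin n))) : ENNReal :=
  ∫⁻ x in A, ENNReal.ofReal (Real.exp (-‖x‖ ^ 2 / 2))

variable {n : ℕ}

/-- The density. -/
noncomputable def rho (x : E n) : ENNReal := ENNReal.ofReal (Real.exp (-‖x‖ ^ 2 / 2))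

theorem measurable_rho : Measurable (rho : E n → ℝ≥0∞) := by
  unfold rho
  fun_prop

theorem gam_eq {A : Set (E n)} (hA : MeasurableSet A) : gam A = ∫⁻ x, A.indicator rho x :=
  (lintegral_indicator hA _).symm

theorem gam_mono {A B : Set (E n)} (h : A ⊆ B) : gam A ≤ gam B := lintegral_mono_set h

theorem gam_univ_lt_top : gam (univ : Set (E n)) < ∞ := by
  have h := GaussianFourier.integrable_cexp_neg_mul_sq_norm_add (V := E n) (b := (1 / 2 : ℂ))
    (by norm_num) 0 0
  have h2 := h.norm.lintegral_lt_top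
  unfold gam
  rw [setLIntegral_univ]
  refine lt_of_le_of_lt (lintegral_mono fun x => ?_) h2
  apply ENNReal.ofReal_le_ofReal
  rw [Complex.norm_exp]
  apply le_of_eq
  congr 1
  simp
  norm_cast
  ring

theorem gam_lt_top (A : Set (E n)) : gam A < ∞ :=
  lt_of_le_of_lt (gam_mono (subset_univ A)) gam_univ_lt_top

theorem gam_union {A B : Set (E n)} (hB : MeasurableSet B) (h : Disjoint A B) :
    gam (A ∪ B) = gam A + gam B := lintegral_union hB h

/-- Comparison of masses under a shift. -/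
theorem shift {A B : Set (E n)} (hA : MeasurableSet A) (hB : MeasurableSet B) (v : E n)
    (h : ∀ z ∈ A, z + v ∈ B ∧ ‖z + v‖ ^ 2 ≤ ‖z‖ ^ 2 + 1) :
    gam A ≤ ENNReal.ofReal (Real.exp (1 / 2)) * gam B := by
  rw [gam_eq hA, gam_eq hB, ← lintegral_add_right_eq_self (B.indicator rho) v,
    ← lintegral_const_mul' _ _ ENNReal.ofReal_ne_top]
  refine lintegral_mono fun z => ?_
  by_cases hz : z ∈ A
  · rw [indicator_of_mem hz, indicator_of_mem (h z hz).1, rho, rho,
      ← ENNReal.ofReal_mul (Real.exp_nonneg _), ← Real.exp_add]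
    apply ENNReal.ofReal_le_ofReal
    apply Real.exp_le_exp.mpr
    have := (h z hz).2
    linarith
  · rw [indicator_of_notMem hz]
    exact bot_le

/-- Lines parallel to `u` whose section with `V` has length at least `t` (in units of `u`). -/
def Lam (V : Set (E n)) (u : E n) (t : ℝ) : Set (E n) :=
  {x | ∃ s : ℝ, x + s • u ∈ V ∧ x + (s + t) • u ∈ V}

/-- Points to the right of `V`. -/
def Rt (V : Set (E n)) (u : E n) : Set (E n) := {x | ∃ s : ℝ, 0 ≤ s ∧ x - s • u ∈ V}

theorem seg {V : Set (E n)} (hc : Convex ℝ V) {x u : E n} {a b c : ℝ} (ha : x + a • u ∈ V)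
    (hb : x + b • u ∈ V) (h1 : a ≤ c) (h2 : c ≤ b) : x + c • u ∈ V := by
  rcases eq_or_lt_of_le (h1.trans h2) with hab | hab
  · have : c = a := le_antisymm (hab ▸ h2) h1
    rw [this]; exact ha
  · have h3 : 0 < b - a := sub_pos.mpr hab
    have key := hc ha hb (a := (b - c) / (b - a)) (b := (c - a) / (b - a))
      (div_nonneg (sub_nonneg.mpr h2) h3.le) (div_nonneg (sub_nonneg.mpr h1) h3.le)
      (by field_simp; ring)
    have e : ((b - c) / (b - a)) • (x + a • u) + ((c - a) / (b - a)) • (x + b • u) =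
        ((b - c) / (b - a) + (c - a) / (b - a)) • x +
          ((b - c) / (b - a) * a + (c - a) / (b - a) * b) • u := by
      module
    rw [e] at key
    have e1 : (b - c) / (b - a) + (c - a) / (b - a) = 1 := by field_simp; ring
    have e2 : (b - c) / (b - a) * a + (c - a) / (b - a) * b = c := by field_simp; ring
    rwa [e1, e2, one_smul] at key

theorem isClosed_Lam {V : Set (E n)} (hV : IsCompact V) (u : E n) (t : ℝ) :
    IsClosed (Lam V u t) := by
  have h1 : IsCompact (V ∩ (fun x => x + t • u) ⁻¹' V) :=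
    hV.inter_right (hV.isClosed.preimage (by fun_prop))
  have h2 : IsClosed ((Submodule.span ℝ {u} : Submodule ℝ (E n)) : Set (E n)) :=
    Submodule.closed_of_finiteDimensional _
  have h3 : Lam V u t = ((Submodule.span ℝ {u} : Submodule ℝ (E n)) : Set (E n)) +
      (V ∩ (fun x => x + t • u) ⁻¹' V) := by
    ext x
    simp only [Lam, mem_ofPred_eq, Set.mem_add, SetLike.mem_coe, Submodule.mem_span_singleton]
    constructor
    · rintro ⟨s, h4, h5⟩
      refine ⟨(-s) • u, ⟨-s, rfl⟩, x + s • u, ⟨h4, ?_⟩, by module⟩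
      simp only [mem_preimage]
      rwa [show x + s • u + t • u = x + (s + t) • u by module]
    · rintro ⟨_, ⟨a, rfl⟩, y, ⟨h4, h5⟩, rfl⟩
      simp only [mem_preimage] at h5
      refine ⟨-a, ?_, ?_⟩
      · rwa [show a • u + y + -a • u = y by module]
      · rwa [show a • u + y + (-a + t) • u = y + t • u by module]
  rw [h3]
  exact h2.add_right_of_isCompact h1

theorem isClosed_Rt {V : Set (E n)} (hV : IsCompact V) {u : E n} (hu : u ≠ 0) :
    IsClosed (Rt V u) := by
  have h2 : IsClosed ((Submodule.span ℝ {u} : Submodule ℝ (E n)) : Set (E n)) :=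
    Submodule.closed_of_finiteDimensional _
  have h2' : IsClosed (((Submodule.span ℝ {u} : Submodule ℝ (E n)) : Set (E n)) ∩
      {x | 0 ≤ inner ℝ x u}) := h2.inter (isClosed_le (by fun_prop) (by fun_prop))
  have h3 : Rt V u = (((Submodule.span ℝ {u} : Submodule ℝ (E n)) : Set (E n)) ∩
      {x | 0 ≤ inner ℝ x u}) + V := by
    ext x
    simp only [Rt, mem_ofPred_eq, Set.mem_add, SetLike.mem_coe, Submodule.mem_span_singleton,
      mem_inter_iff]
    constructor
    · rintro ⟨s, h4, h5⟩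
      refine ⟨s • u, ⟨⟨s, rfl⟩, ?_⟩, x - s • u, h5, by module⟩
      rw [real_inner_smul_left, real_inner_self_eq_norm_sq]
      positivity
    · rintro ⟨_, ⟨⟨a, rfl⟩, h5⟩, y, h4, rfl⟩
      refine ⟨a, ?_, ?_⟩
      · rw [real_inner_smul_left, real_inner_self_eq_norm_sq] at h5
        have : 0 < ‖u‖ ^ 2 := by positivity
        exact nonneg_of_mul_nonneg_left h5 this
      · rwa [show a • u + y - a • u = y by module]
  rw [h3]
  exact h2'.add_right_of_isCompact hV

theorem Lam_anti {V : Set (E n)} (hc : Convex ℝ V) (u : E n) {t t' : ℝ} (h0 : 0 ≤ t)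
    (h : t ≤ t') : Lam V u t' ⊆ Lam V u t := by
  rintro x ⟨s, h1, h2⟩
  exact ⟨s, h1, seg hc h1 h2 (by linarith) (by linarith)⟩

theorem mem_Lam_shift {V : Set (E n)} {u x : E n} {t r : ℝ} :
    x + r • u ∈ Lam V u t ↔ x ∈ Lam V u t := by
  constructor
  · rintro ⟨s, h1, h2⟩
    refine ⟨r + s, ?_, ?_⟩
    · rwa [show x + (r + s) • u = x + r • u + s • u by module]
    · rwa [show x + (r + s + t) • u = x + r • u + (s + t) • u by module]
  · rintro ⟨s, h1, h2⟩
    refine ⟨s - r, ?_, ?_⟩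
    · rwa [show x + r • u + (s - r) • u = x + s • u by module]
    · rwa [show x + r • u + (s - r + t) • u = x + (s + t) • u by module]

theorem Lam_neg {V : Set (E n)} (u : E n) (t : ℝ) : Lam V (-u) t = Lam V u t := by
  have key : ∀ w : E n, Lam V w t ⊆ Lam V (-w) t := by
    rintro w x ⟨s, h1, h2⟩
    refine ⟨-(s + t), ?_, ?_⟩
    · rwa [show x + -(s + t) • -w = x + (s + t) • w by module]
    · rwa [show x + (-(s + t) + t) • -w = x + s • w by module]
  refine Subset.antisymm ?_ (key u)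
  have := key (-u)
  rwa [neg_neg] at this

/-- Midpoints. -/
def Wset (V : Set (E n)) (u : E n) : Set (E n) := {w | w + u ∈ V ∧ w - u ∈ V}

/-- The new body. -/
def Vp (V : Set (E n)) (u : E n) : Set (E n) :=
  Wset V u + (fun τ : ℝ => τ • u) '' Icc (-2) 2

theorem mem_Vp {V : Set (E n)} {u x : E n} : x ∈ Vp V u ↔
    ∃ τ : ℝ, -2 ≤ τ ∧ τ ≤ 2 ∧ x - τ • u + u ∈ V ∧ x - τ • u - u ∈ V := by
  simp only [Vp, Wset, Set.mem_add, mem_ofPred_eq, mem_image, mem_Icc]
  constructor
  · rintro ⟨w, ⟨h1, h2⟩, _, ⟨τ, ⟨h3, h4⟩, rfl⟩, rfl⟩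
    refine ⟨τ, h3, h4, ?_, ?_⟩
    · rwa [show w + τ • u - τ • u + u = w + u by module]
    · rwa [show w + τ • u - τ • u - u = w - u by module]
  · rintro ⟨τ, h3, h4, h1, h2⟩
    exact ⟨x - τ • u, ⟨h1, h2⟩, τ • u, ⟨τ, ⟨h3, h4⟩, rfl⟩, by module⟩

theorem Vp_neg {V : Set (E n)} (u : E n) : Vp V (-u) = Vp V u := by
  ext x
  rw [mem_Vp, mem_Vp]
  constructor
  · rintro ⟨τ, h1, h2, h3, h4⟩
    refine ⟨-τ, by linarith, by linarith, ?_, ?_⟩
    · rwa [show x - -τ • u + u = x - τ • -u - -u by module]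
    · rwa [show x - -τ • u - u = x - τ • -u + -u by module]
  · rintro ⟨τ, h1, h2, h3, h4⟩
    refine ⟨-τ, by linarith, by linarith, ?_, ?_⟩
    · rwa [show x - -τ • -u + -u = x - τ • u - u by module]
    · rwa [show x - -τ • -u - -u = x - τ • u + u by module]

theorem isCompact_Wset {V : Set (E n)} (hV : IsCompact V) (u : E n) : IsCompact (Wset V u) := by
  have h1 : IsCompact ((fun x => x - u) '' V) := hV.image (by fun_prop)
  have h2 : Wset V u = (fun x => x - u) '' V ∩ (fun x => x - u) ⁻¹' V := by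
    ext w
    simp only [Wset, mem_ofPred_eq, mem_inter_iff, mem_image, mem_preimage]
    constructor
    · rintro ⟨h3, h4⟩
      exact ⟨⟨w + u, h3, by module⟩, h4⟩
    · rintro ⟨⟨y, h3, rfl⟩, h4⟩
      refine ⟨?_, h4⟩
      rwa [show y - u + u = y by module]
  rw [h2]
  exact h1.inter_right (hV.isClosed.preimage (by fun_prop))

theorem isCompact_Vp {V : Set (E n)} (hV : IsCompact V) (u : E n) : IsCompact (Vp V u) :=
  (isCompact_Wset hV u).add (isCompact_Icc.image (by fun_prop))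

theorem convex_Vp {V : Set (E n)} (hc : Convex ℝ V) (u : E n) : Convex ℝ (Vp V u) := by
  refine Convex.add ?_ ?_
  · intro x hx y hy a b ha hb hab
    refine ⟨?_, ?_⟩
    · have := hc hx.1 hy.1 ha hb hab
      rwa [show a • (x + u) + b • (y + u) = a • x + b • y + (a + b) • u by module, hab,
        one_smul] at this
    · have := hc hx.2 hy.2 ha hb hab
      rwa [show a • (x - u) + b • (y - u) = a • x + b • y - (a + b) • u by module, hab,
        one_smul] at this
  · have : (fun τ : ℝ => τ • u) = ⇑(LinearMap.toSpanSingleton ℝ (E n) u) := by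
      funext τ
      simp
    rw [this]
    exact (convex_Icc _ _).linear_image _

theorem Vp_cover {V : Set (E n)} (hc : Convex ℝ V) {u z : E n} (hz : z ∈ Vp V u) :
    z - u ∈ V ∨ z + u ∈ V := by
  obtain ⟨τ, h1, h2, h3, h4⟩ := mem_Vp.mp hz
  have h3' : z + (1 - τ) • u ∈ V := by rwa [show z + (1 - τ) • u = z - τ • u + u by module]
  have h4' : z + (-1 - τ) • u ∈ V := by rwa [show z + (-1 - τ) • u = z - τ • u - u by module]
  by_cases h : 0 ≤ τ
  · left
    have := seg hc h4' h3' (c := -1) (by linarith) (by linarith)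
    rwa [show z + (-1 : ℝ) • u = z - u by module] at this
  · right
    have := seg hc h4' h3' (c := 1) (by linarith) (by linarith)
    rwa [show z + (1 : ℝ) • u = z + u by module] at this

/-- Membership in the new body from two points of a section at distance two. -/
theorem mem_Vp_of {V : Set (E n)} {u z : E n} {β c : ℝ} (h1 : z + (β - 1) • u ∈ V)
    (h2 : z + (β + 1) • u ∈ V) (h3 : -2 ≤ c - β) (h4 : c - β ≤ 2) : z + c • u ∈ Vp V u := by
  refine mem_Vp.mpr ⟨c - β, h3, h4, ?_, ?_⟩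
  · rwa [show z + c • u - (c - β) • u + u = z + (β + 1) • u by module]
  · rwa [show z + c • u - (c - β) • u - u = z + (β - 1) • u by module]

theorem L2_subset_Vp {V : Set (E n)} (hc : Convex ℝ V) {u z : E n} (hz : z ∈ V)
    (hz2 : z ∈ Lam V u 2) : z ∈ Vp V u := by
  obtain ⟨s, h1, h2⟩ := hz2
  have hz0 : z + (0 : ℝ) • u ∈ V := by simpa using hz
  have key : ∀ β : ℝ, z + (β - 1) • u ∈ V → z + (β + 1) • u ∈ V → -2 ≤ 0 - β → 0 - β ≤ 2 →
      z ∈ Vp V u := by
    intro β a1 a2 a3 a4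
    have := mem_Vp_of a1 a2 a3 a4
    simpa using this
  rcases le_total s 0 with hs | hs
  · rcases le_total 0 (s + 2) with hs2 | hs2
    · exact key (s + 1) (by rwa [show s + 1 - 1 = s by ring])
        (by rwa [show s + 1 + 1 = s + 2 by ring]) (by linarith) (by linarith)
    · exact key (-1) (seg hc h1 hz0 (by linarith) (by linarith))
        (by rwa [show (-1 : ℝ) + 1 = 0 by ring]) (by linarith) (by linarith)
  · exact key 1 (by rwa [show (1 : ℝ) - 1 = 0 by ring])
      (seg hc hz0 h2 (by linarith) (by linarith)) (by linarith) (by linarith)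

/-- The first point beyond the section lies in the new body. -/
theorem gain {V : Set (E n)} (hc : Convex ℝ V) {u z : E n} (hz : z ∈ V)
    (hz2 : z ∈ Lam V u 2) {k : ℝ} (h1 : z + (k - 1) • u ∈ V)
    (h2 : z + k • u ∉ V) : z + k • u ∈ Vp V u := by
  obtain ⟨s, a1, a2⟩ := hz2
  have hz0 : z + (0 : ℝ) • u ∈ V := by simpa using hz
  have hs : s + 2 < k := by
    by_contra hcon
    push Not at hcon
    exact h2 (seg hc h1 a2 (by linarith) hcon)
  rcases le_total (k - 1) (s + 2) with h3 | h3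
  · exact mem_Vp_of (β := s + 1) (by rwa [show s + 1 - 1 = s by ring])
      (by rwa [show s + 1 + 1 = s + 2 by ring]) (by linarith) (by linarith)
  · exact mem_Vp_of (β := k - 2) (seg hc a1 h1 (by linarith) (by linarith))
      (by rwa [show k - 2 + 1 = k - 1 by ring]) (by linarith) (by linarith)

/-- Real-valued Gaussian mass. -/
noncomputable def gR (A : Set (E n)) : ℝ := (gam A).toReal

theorem gR_nonneg (A : Set (E n)) : 0 ≤ gR A := ENNReal.toReal_nonneg

theorem gR_mono {A B : Set (E n)} (h : A ⊆ B) : gR A ≤ gR B :=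
  ENNReal.toReal_mono (gam_lt_top B).ne (gam_mono h)

theorem gR_union {A B : Set (E n)} (hB : MeasurableSet B) (h : Disjoint A B) :
    gR (A ∪ B) = gR A + gR B := by
  rw [gR, gam_union hB h, ENNReal.toReal_add (gam_lt_top A).ne (gam_lt_top B).ne]; rfl

theorem gR_union_le (A B : Set (E n)) : gR (A ∪ B) ≤ gR A + gR B := by
  have h : gam (A ∪ B) ≤ gam A + gam B := lintegral_union_le _ A B
  have := ENNReal.toReal_mono (ENNReal.add_lt_top.mpr ⟨gam_lt_top A, gam_lt_top B⟩).ne h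
  rwa [ENNReal.toReal_add (gam_lt_top A).ne (gam_lt_top B).ne] at this

theorem gR_split (A : Set (E n)) {B : Set (E n)} (hA : MeasurableSet A) (hB : MeasurableSet B) :
    gR A = gR (A ∩ B) + gR (A \ B) := by
  rw [← gR_union (hA.diff hB) (disjoint_sdiff_inter.symm), inter_union_sdiff]

theorem shiftR {A B : Set (E n)} (hA : MeasurableSet A) (hB : MeasurableSet B) (v : E n)
    (h : ∀ z ∈ A, z + v ∈ B ∧ ‖z + v‖ ^ 2 ≤ ‖z‖ ^ 2 + 1) :
    gR A ≤ Real.exp (1 / 2) * gR B := by
  have h1 := shift hA hB v h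
  have h2 := ENNReal.toReal_mono (ENNReal.mul_lt_top ENNReal.ofReal_lt_top (gam_lt_top B)).ne h1
  rwa [ENNReal.toReal_mul, ENNReal.toReal_ofReal (Real.exp_nonneg _)] at h2

/-- A set all of whose points reach `B` by one of the first `m` multiples of `v`. -/
theorem half {A B : Set (E n)} (hA : MeasurableSet A) (hB : MeasurableSet B) (v : E n) (m : ℕ)
    (h : ∀ z ∈ A, ∃ k : ℕ, k < m ∧ z + ((k : ℝ) + 1) • v ∈ B ∧
      ‖z + ((k : ℝ) + 1) • v‖ ^ 2 ≤ ‖z‖ ^ 2 + 1) :
    gR A ≤ m * (Real.exp (1 / 2) * gR B) := by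
  induction m generalizing A with
  | zero =>
    have : A = ∅ := by
      ext z
      simp only [mem_empty_iff_false, iff_false]
      intro hz
      obtain ⟨k, hk, _⟩ := h z hz
      omega
    rw [this]
    simp [gR, gam]
  | succ m ih =>
    set D : Set (E n) := (fun z => z + ((m : ℝ) + 1) • v) ⁻¹' B ∩
      {z | ‖z + ((m : ℝ) + 1) • v‖ ^ 2 ≤ ‖z‖ ^ 2 + 1} with hD
    have hDm : MeasurableSet D := by
      refine (hB.preimage (by fun_prop)).inter ?_
      exact measurableSet_le (by fun_prop) (by fun_prop)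
    rw [gR_split A hA hDm]
    have h1 : gR (A ∩ D) ≤ Real.exp (1 / 2) * gR B :=
      shiftR (hA.inter hDm) hB (((m : ℝ) + 1) • v) (fun z hz => ⟨hz.2.1, hz.2.2⟩)
    have h2 : gR (A \ D) ≤ m * (Real.exp (1 / 2) * gR B) := by
      refine ih (hA.diff hDm) (fun z hz => ?_)
      obtain ⟨k, hk1, hk2, hk3⟩ := h z hz.1
      rcases Nat.lt_succ_iff_lt_or_eq.mp hk1 with hk | rfl
      · exact ⟨k, hk, hk2, hk3⟩
      · exact absurd ⟨hk2, hk3⟩ hz.2
    push_cast
    linarith

theorem norm_move {z v : E n} {r : ℝ} (hr : 0 ≤ r) (h1 : inner ℝ z v ≤ 0)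
    (h2 : r * ‖v‖ ≤ 1) : ‖z + r • v‖ ^ 2 ≤ ‖z‖ ^ 2 + 1 := by
  rw [norm_add_sq_real, norm_smul, real_inner_smul_right, Real.norm_of_nonneg hr]
  have h3 : 0 ≤ r * ‖v‖ := by positivity
  nlinarith [mul_nonneg hr (neg_nonneg.mpr h1)]

/-- One side of a shell. -/
theorem shell_half {V : Set (E n)} (hV : IsCompact V) (hc : Convex ℝ V) {v : E n}
    (hv : ‖v‖ ≤ 1 / 2048) {j : ℕ} (hj1 : 1 ≤ j) (hj2 : j ≤ 1023) {D : Set (E n)}
    (hD : MeasurableSet D) (hDr : ∀ x, x ∉ V → (∃ s : ℝ, 0 < s ∧ x - s • v ∈ V) → x ∈ D)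
    {H : Set (E n)} (hH : MeasurableSet H) (hHv : ∀ x ∈ H, inner ℝ x v ≤ 0) :
    gR (V ∩ (Lam V v (2 * j) \ Lam V v (2 * (j + 1))) ∩ H) ≤
      (2 * j + 2 : ℕ) * (Real.exp (1 / 2) *
        gR ((Vp V v \ V) ∩ (Lam V v (2 * j) \ Lam V v (2 * (j + 1))) ∩ D)) := by
  have hL : ∀ t, MeasurableSet (Lam V v t) := fun t => (isClosed_Lam hV v t).measurableSet
  refine half ((hV.measurableSet.inter ((hL _).diff (hL _))).inter hH)
    ((((isCompact_Vp hV v).measurableSet.diff hV.measurableSet).inter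
      ((hL _).diff (hL _))).inter hD) v _ ?_
  rintro z ⟨⟨hz, hz1, hz2⟩, hz3⟩
  have hz0 : z + (0 : ℝ) • v ∈ V := by simpa using hz
  have hex : ∃ k : ℕ, z + ((k : ℝ) + 1) • v ∉ V := by
    refine ⟨2 * j + 1, fun hcon => hz2 ⟨0, hz0, ?_⟩⟩
    rwa [show (0 : ℝ) + 2 * (j + 1) = ((2 * j + 1 : ℕ) : ℝ) + 1 by push_cast; ring]
  classical
  obtain ⟨k, hk1, hk2⟩ : ∃ k : ℕ, z + ((k : ℝ) + 1) • v ∉ V ∧ z + (k : ℝ) • v ∈ V := by
    refine ⟨Nat.find hex, Nat.find_spec hex, ?_⟩
    rcases Nat.eq_zero_or_pos (Nat.find hex) with h0 | h0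
    · rw [h0]; simpa using hz0
    · have := Nat.find_min hex (m := Nat.find hex - 1) (by omega)
      push Not at this
      rw [Nat.cast_sub (by omega)] at this
      simpa using this
  have hk3 : k < 2 * j + 2 := by
    by_contra hcon
    push Not at hcon
    refine hz2 ⟨0, hz0, ?_⟩
    refine seg hc hz0 hk2 (by positivity) ?_
    have : ((2 * j + 2 : ℕ) : ℝ) ≤ k := by exact_mod_cast hcon
    push_cast at this
    linarith
  have hz2' : z ∈ Lam V v 2 := by
    refine Lam_anti hc v (by norm_num) ?_ hz1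
    have : (1 : ℝ) ≤ j := by exact_mod_cast hj1
    linarith
  refine ⟨k, hk3, ⟨⟨⟨?_, hk1⟩, ?_, ?_⟩, ?_⟩, ?_⟩
  · exact gain hc hz hz2' (by rwa [show (k : ℝ) + 1 - 1 = k by ring]) hk1
  · exact mem_Lam_shift.mpr hz1
  · exact fun h => hz2 (mem_Lam_shift.mp h)
  · refine hDr _ hk1 ⟨(k : ℝ) + 1, by positivity, ?_⟩
    rwa [show z + ((k : ℝ) + 1) • v - ((k : ℝ) + 1) • v = z by module]
  · refine norm_move (by positivity) (hHv z hz3) ?_
    have h5 : (k : ℝ) + 1 ≤ 2048 := by
      have : k + 1 ≤ 2048 := by omega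
      exact_mod_cast this
    calc ((k : ℝ) + 1) * ‖v‖ ≤ 2048 * (1 / 2048) := by gcongr
      _ = 1 := by norm_num

theorem mem_Rt_of {V : Set (E n)} {u x : E n} (h : ∃ s : ℝ, 0 < s ∧ x - s • u ∈ V) :
    x ∈ Rt V u := by
  obtain ⟨s, h1, h2⟩ := h
  exact ⟨s, h1.le, h2⟩

theorem not_mem_Rt_of {V : Set (E n)} (hc : Convex ℝ V) {u x : E n} (hx : x ∉ V)
    (h : ∃ s : ℝ, 0 < s ∧ x - s • (-u) ∈ V) : x ∉ Rt V u := by
  obtain ⟨s, h1, h2⟩ := h
  rintro ⟨r, h3, h4⟩
  apply hx
  have h2' : x + s • u ∈ V := by rwa [show x + s • u = x - s • (-u) by module]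
  have h4' : x + (-r) • u ∈ V := by rwa [show x + (-r) • u = x - r • u by module]
  have := seg hc h4' h2' (c := 0) (by linarith) h1.le
  simpa using this

/-- Every shell gains. -/
theorem shell {V : Set (E n)} (hV : IsCompact V) (hc : Convex ℝ V) {u : E n} (hu0 : u ≠ 0)
    (hu : ‖u‖ ≤ 1 / 2048) {j : ℕ} (hj1 : 1 ≤ j) (hj2 : j ≤ 1023) :
    gR (V ∩ (Lam V u (2 * j) \ Lam V u (2 * (j + 1)))) ≤
      (2 * j + 2 : ℕ) * (Real.exp (1 / 2) *
        gR ((Vp V u \ V) ∩ (Lam V u (2 * j) \ Lam V u (2 * (j + 1))))) := by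
  have hL : ∀ t, MeasurableSet (Lam V u t) := fun t => (isClosed_Lam hV u t).measurableSet
  have hR : MeasurableSet (Rt V u) := (isClosed_Rt hV hu0).measurableSet
  have hH : MeasurableSet {x : E n | inner ℝ x u ≤ 0} :=
    measurableSet_le (by fun_prop) (by fun_prop)
  have h1 := shell_half hV hc hu hj1 hj2 hR (fun x _ h => mem_Rt_of h) hH (fun x hx => hx)
  have h2 := shell_half hV hc (v := -u) (by rwa [norm_neg]) hj1 hj2 hR.compl
    (fun x hx h => not_mem_Rt_of hc hx h) hH.compl (fun x hx => by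
      rw [inner_neg_right]
      simp only [mem_compl_iff, mem_ofPred_eq, not_le] at hx
      linarith)
  rw [Lam_neg, Lam_neg, Vp_neg] at h2
  have hS : MeasurableSet (V ∩ (Lam V u (2 * j) \ Lam V u (2 * (j + 1)))) :=
    hV.measurableSet.inter ((hL _).diff (hL _))
  have hG : MeasurableSet ((Vp V u \ V) ∩ (Lam V u (2 * j) \ Lam V u (2 * (j + 1)))) :=
    ((isCompact_Vp hV u).measurableSet.diff hV.measurableSet).inter ((hL _).diff (hL _))
  rw [gR_split _ hS hH, gR_split _ hG hR]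
  rw [← sdiff_eq, ← sdiff_eq] at h2
  have h3 := add_le_add h1 h2
  refine h3.trans (le_of_eq ?_)
  ring

/-- Short sections carry little mass. -/
theorem tail {V : Set (E n)} (hV : IsCompact V) (hc : Convex ℝ V) {u : E n} (hu0 : u ≠ 0)
    (hu : ‖u‖ ≤ 1 / 2048) :
    gR (V \ Lam V u 2048) ≤ Real.exp (1 / 2) * gR Vᶜ := by
  have hL : MeasurableSet (Lam V u 2048) := (isClosed_Lam hV u _).measurableSet
  have hR : MeasurableSet (Rt V u) := (isClosed_Rt hV hu0).measurableSet
  have hH : MeasurableSet {x : E n | inner ℝ x u ≤ 0} :=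
    measurableSet_le (by fun_prop) (by fun_prop)
  have hup : 0 < ‖u‖ := norm_pos_iff.mpr hu0
  have hinv : 2048 ≤ ‖u‖⁻¹ := by
    rw [le_inv_comm₀ (by norm_num) hup]
    simpa using hu
  rw [gR_split (V \ Lam V u 2048) (hV.measurableSet.diff hL) hH,
    gR_split Vᶜ hV.measurableSet.compl hR, mul_add]
  apply add_le_add
  · refine shiftR ((hV.measurableSet.diff hL).inter hH) (hV.measurableSet.compl.inter hR)
      (‖u‖⁻¹ • u) ?_
    rintro z ⟨⟨hz1, hz2⟩, hz3⟩
    have hz0 : z + (0 : ℝ) • u ∈ V := by simpa using hz1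
    have h5 : z + ‖u‖⁻¹ • u ∉ V := fun hcon => hz2 ⟨0, hz0, by
      rw [zero_add]
      exact seg hc hz0 hcon (by norm_num) hinv⟩
    refine ⟨⟨h5, mem_Rt_of ⟨‖u‖⁻¹, by positivity, ?_⟩⟩, ?_⟩
    · rwa [show z + ‖u‖⁻¹ • u - ‖u‖⁻¹ • u = z by module]
    · exact norm_move (by positivity) hz3 (by rw [inv_mul_cancel₀ hup.ne'])
  · refine shiftR ((hV.measurableSet.diff hL).diff hH) (hV.measurableSet.compl.diff hR)
      (‖u‖⁻¹ • (-u)) ?_
    rintro z ⟨⟨hz1, hz2⟩, hz3⟩
    have hz0 : z + (0 : ℝ) • u ∈ V := by simpa using hz1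
    simp only [mem_ofPred_eq, not_le] at hz3
    have h5 : z + ‖u‖⁻¹ • (-u) ∉ V := fun hcon => hz2 ⟨-2048, by
      have hcon' : z + (-‖u‖⁻¹) • u ∈ V := by
        rwa [show z + (-‖u‖⁻¹) • u = z + ‖u‖⁻¹ • (-u) by module]
      exact seg hc hcon' hz0 (by linarith) (by norm_num), by
      rw [show (-2048 : ℝ) + 2048 = 0 by norm_num]; exact hz0⟩
    refine ⟨⟨h5, not_mem_Rt_of hc h5 ⟨‖u‖⁻¹, by positivity, ?_⟩⟩, ?_⟩
    · rwa [show z + ‖u‖⁻¹ • (-u) - ‖u‖⁻¹ • (-u) = z by module]
    · refine norm_move (by positivity) ?_ (by rw [norm_neg, inv_mul_cancel₀ hup.ne'])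
      rw [inner_neg_right]
      linarith

theorem rho_mid (x y : E n) : rho x * rho y ≤ rho ((1 / 2 : ℝ) • (x + y)) ^ 2 := by
  rw [rho, rho, rho, ← ENNReal.ofReal_mul (Real.exp_nonneg _), ← ENNReal.ofReal_pow
    (Real.exp_nonneg _), ← Real.exp_add, ← Real.exp_nat_mul]
  apply ENNReal.ofReal_le_ofReal
  apply Real.exp_le_exp.mpr
  have h1 : ‖(1 / 2 : ℝ) • (x + y)‖ ^ 2 = (1 / 4) * ‖x + y‖ ^ 2 := by
    rw [norm_smul, mul_pow]
    norm_num
  have h2 := parallelogram_law_with_norm ℝ x y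
  have h3 : 0 ≤ ‖x - y‖ * ‖x - y‖ := by positivity
  rw [h1]
  push_cast
  nlinarith

/-- Log-concavity of the section function. -/
theorem logconc {V : Set (E n)} (hV : IsCompact V) (hc : Convex ℝ V) (u : E n) (t r : ℝ) :
    gR (V ∩ Lam V u t) * gR (V ∩ Lam V u r) ≤ gR (V ∩ Lam V u ((t + r) / 2)) ^ 2 := by
  have hm : ∀ t, MeasurableSet (V ∩ Lam V u t) := fun t =>
    hV.measurableSet.inter (isClosed_Lam hV u t).measurableSet
  have key := Vale.Agent.P074.pl_E (f := (V ∩ Lam V u t).indicator rho)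
    (g := (V ∩ Lam V u r).indicator rho) (h := (V ∩ Lam V u ((t + r) / 2)).indicator rho)
    (measurable_rho.indicator (hm _)) (measurable_rho.indicator (hm _))
    (measurable_rho.indicator (hm _)) (fun x y => by
      by_cases hx : x ∈ V ∩ Lam V u t
      · by_cases hy : y ∈ V ∩ Lam V u r
        · have hxy : (1 / 2 : ℝ) • (x + y) ∈ V ∩ Lam V u ((t + r) / 2) := by
            have av : ∀ a b : E n, a ∈ V → b ∈ V → (1 / 2 : ℝ) • a + (1 / 2 : ℝ) • b ∈ V :=
              fun a b ha hb => hc ha hb (by norm_num) (by norm_num) (by norm_num)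
            obtain ⟨hx1, s1, hx2, hx3⟩ := hx
            obtain ⟨hy1, s2, hy2, hy3⟩ := hy
            refine ⟨?_, (s1 + s2) / 2, ?_, ?_⟩
            · rw [smul_add]; exact av _ _ hx1 hy1
            · have := av _ _ hx2 hy2
              rwa [show (1 / 2 : ℝ) • (x + s1 • u) + (1 / 2 : ℝ) • (y + s2 • u) =
                (1 / 2 : ℝ) • (x + y) + ((s1 + s2) / 2) • u by module] at this
            · have := av _ _ hx3 hy3
              rwa [show (1 / 2 : ℝ) • (x + (s1 + t) • u) + (1 / 2 : ℝ) • (y + (s2 + r) • u) =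
                (1 / 2 : ℝ) • (x + y) + ((s1 + s2) / 2 + (t + r) / 2) • u by module] at this
          rw [indicator_of_mem hx, indicator_of_mem hy, indicator_of_mem hxy]
          exact rho_mid x y
        · rw [indicator_of_notMem hy, mul_zero]; exact bot_le
      · rw [indicator_of_notMem hx, zero_mul]; exact bot_le)
  rw [← gam_eq (hm _), ← gam_eq (hm _), ← gam_eq (hm _)] at key
  have h2 := ENNReal.toReal_mono (ENNReal.pow_lt_top (gam_lt_top _)).ne key
  rwa [ENNReal.toReal_mul, ENNReal.toReal_pow] at h2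

theorem harm_dyadic (k : ℕ) : (k : ℝ) / 2 ≤ ∑ j ∈ Finset.range (2 ^ k - 1), 1 / ((j : ℝ) + 2) := by
  induction k with
  | zero => simp
  | succ k ih =>
    have hk : 1 ≤ 2 ^ k := Nat.one_le_two_pow
    rw [show 2 ^ (k + 1) - 1 = (2 ^ k - 1) + 2 ^ k by rw [pow_succ]; omega,
      Finset.sum_range_add]
    have h1 : ∀ j ∈ Finset.range (2 ^ k), 1 / (2 : ℝ) ^ (k + 1) ≤
        1 / ((((2 ^ k - 1 + j : ℕ)) : ℝ) + 2) := by
      intro j hj
      have hj' : j < 2 ^ k := Finset.mem_range.mp hj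
      apply one_div_le_one_div_of_le (by positivity)
      have h2 : 2 ^ k - 1 + j + 2 ≤ 2 ^ (k + 1) := by rw [pow_succ]; omega
      exact_mod_cast h2
    have h2 := Finset.sum_le_sum h1
    rw [Finset.sum_const, Finset.card_range, nsmul_eq_mul] at h2
    have h3 : ((2 ^ k : ℕ) : ℝ) * (1 / (2 : ℝ) ^ (k + 1)) = 1 / 2 := by
      push_cast
      rw [pow_succ]
      field_simp
    rw [h3] at h2
    push_cast at h2 ⊢
    linarith

theorem harm_sum : (5 / 2 : ℝ) ≤ ∑ j ∈ Finset.range 1023, 1 / (2 * ((j : ℝ) + 1) + 2) := by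
  have key : ∀ m : ℕ, ∑ j ∈ Finset.range m, 1 / (2 * ((j : ℝ) + 1) + 2) =
      (1 / 2) * ∑ j ∈ Finset.range m, 1 / ((j : ℝ) + 2) := by
    intro m
    rw [Finset.mul_sum]
    refine Finset.sum_congr rfl fun j _ => ?_
    field_simp
    ring
  have h := harm_dyadic 10
  have e : 2 ^ 10 - 1 = 1023 := by norm_num
  rw [e] at h
  rw [key 1023]
  have h3 : ((10 : ℕ) : ℝ) / 2 = 5 := by norm_num
  rw [h3] at h
  have h4 : (5 / 2 : ℝ) = (1 / 2) * 5 := by norm_num
  rw [h4]
  exact mul_le_mul_of_nonneg_left h (by norm_num)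

/-- Disjoint gains add up. -/
theorem gains {V : Set (E n)} (hV : IsCompact V) (hc : Convex ℝ V) (u : E n) (m : ℕ) :
    ∑ j ∈ Finset.range m, gR ((Vp V u \ V) ∩
        (Lam V u (2 * ((j : ℝ) + 1)) \ Lam V u (2 * ((j : ℝ) + 1 + 1)))) ≤
      gR ((Vp V u \ V) ∩ (Lam V u 2 \ Lam V u (2 * ((m : ℝ) + 1)))) := by
  have hL : ∀ t, MeasurableSet (Lam V u t) := fun t => (isClosed_Lam hV u t).measurableSet
  induction m with
  | zero => simp [gR_nonneg]
  | succ m ih =>
    rw [Finset.sum_range_succ]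
    refine (add_le_add_left ih _).trans ?_
    rw [← gR_union]
    · apply gR_mono
      rintro x (⟨h1, h2, h3⟩ | ⟨h1, h2, h3⟩)
      · refine ⟨h1, h2, fun h => h3 (Lam_anti hc u (by positivity) ?_ h)⟩
        push_cast
        linarith
      · refine ⟨h1, Lam_anti hc u (by norm_num) ?_ h2, ?_⟩
        · have : (0 : ℝ) ≤ m := by positivity
          linarith
        · push_cast
          exact h3
    · exact ((isCompact_Vp hV u).measurableSet.diff hV.measurableSet).inter
        ((hL _).diff (hL _))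
    · rw [Set.disjoint_left]
      rintro x ⟨_, _, h3⟩ ⟨_, h2, _⟩
      exact h3 h2

/-- The measure does not decrease. -/
theorem gR_Vp {V : Set (E n)} (hV : IsCompact V) (hc : Convex ℝ V)
    (hg : (9 / 10 : ℝ) * gR (univ : Set (E n)) ≤ gR V) {u : E n} (hu0 : u ≠ 0)
    (hu : ‖u‖ ≤ 1 / 2048) : gR V ≤ gR (Vp V u) := by
  have hL : ∀ t, MeasurableSet (Lam V u t) := fun t => (isClosed_Lam hV u t).measurableSet
  set e : ℝ := Real.exp (1 / 2) with he
  have he0 : 0 < e := Real.exp_pos _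
  have he1 : e ≤ 1.65 := by
    have h1 : e * e = Real.exp 1 := by rw [he, ← Real.exp_add]; norm_num
    have h2 := Real.exp_one_lt_d9
    nlinarith
  set p : ℕ → ℝ := fun j => gR (V ∩ Lam V u (2 * (j : ℝ))) with hp
  have hp0 : p 0 = gR V := by
    have : V ∩ Lam V u (2 * ((0 : ℕ) : ℝ)) = V := by
      refine inter_eq_left.mpr fun x hx => ⟨0, by simpa using hx, by simpa using hx⟩
    rw [hp]
    simp only [this]
  have hanti : ∀ j, p (j + 1) ≤ p j := fun j => by
    refine gR_mono (inter_subset_inter_right _ (Lam_anti hc u (by positivity) ?_))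
    push_cast
    linarith
  have hantile : ∀ i j, i ≤ j → p j ≤ p i := fun i j hij => by
    induction hij with
    | refl => exact le_rfl
    | step _ ih => exact (hanti _).trans ih
  have hV0 : 0 < gR V := by
    have h1 : 0 < gR (univ : Set (E n)) := by
      rw [gR, ENNReal.toReal_pos_iff]
      refine ⟨?_, gam_lt_top _⟩
      rw [gam, setLIntegral_univ, lintegral_pos_iff_support (by fun_prop)]
      have : (Function.support fun x : E n => ENNReal.ofReal (Real.exp (-‖x‖ ^ 2 / 2))) =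
          univ := by
        ext x
        simp [Real.exp_pos]
      rw [this]
      exact (isOpen_univ.measure_pos volume univ_nonempty)
    linarith
  -- the tail
  have htail : (4 / 5 : ℝ) * p 0 ≤ p 1024 := by
    have h1 := tail hV hc hu0 hu
    have h2 : gR V = gR (V ∩ Lam V u 2048) + gR (V \ Lam V u 2048) :=
      gR_split _ hV.measurableSet (hL _)
    have h3 : gR (univ : Set (E n)) = gR V + gR Vᶜ := by
      rw [← gR_union hV.measurableSet.compl disjoint_compl_right, union_compl_self]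
    have h4 : p 1024 = gR (V ∩ Lam V u 2048) := by
      rw [hp]
      norm_num
    have h5 : 0 ≤ gR (Vᶜ : Set (E n)) := gR_nonneg _
    rw [hp0, h4]
    nlinarith
  have hge : ∀ j ≤ 1024, (4 / 5 : ℝ) * p 0 ≤ p j := fun j hj => htail.trans (hantile _ _ hj)
  have hpos : ∀ j ≤ 1024, 0 < p j := fun j hj => by
    have := hge j hj
    rw [hp0] at this
    linarith
  -- ratios
  have hratio : ∀ j ≤ 1023, p (j + 1) * p 0 ≤ p j * p 1 := by
    intro j
    induction j with
    | zero => intro _; rw [mul_comm]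
    | succ j ih =>
      intro hj
      have h1 := ih (by omega)
      have h2 : p j * p (j + 2) ≤ p (j + 1) ^ 2 := by
        have := logconc hV hc u (2 * (j : ℝ)) (2 * ((j + 2 : ℕ) : ℝ))
        rw [show (2 * (j : ℝ) + 2 * ((j + 2 : ℕ) : ℝ)) / 2 = 2 * ((j + 1 : ℕ) : ℝ) by
          push_cast; ring] at this
        exact this
      have h3 := hpos j (by omega)
      have h4 := hpos (j + 1) (by omega)
      have h5 : p j * (p (j + 2) * p 0) ≤ p j * (p (j + 1) * p 1) := by
        calc p j * (p (j + 2) * p 0) = (p j * p (j + 2)) * p 0 := by ring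
          _ ≤ p (j + 1) ^ 2 * p 0 := by
            apply mul_le_mul_of_nonneg_right h2
            rw [hp0]; exact hV0.le
          _ = p (j + 1) * (p (j + 1) * p 0) := by ring
          _ ≤ p (j + 1) * (p j * p 1) := by gcongr
          _ = p j * (p (j + 1) * p 1) := by ring
      exact le_of_mul_le_mul_left h5 h3
  have hdec : ∀ j ≤ 1023, (4 / 5 : ℝ) * (p 0 - p 1) ≤ p j - p (j + 1) := by
    intro j hj
    have h1 := hratio j hj
    have h2 := hge j (by omega)
    have h3 : 0 < p 0 := by rw [hp0]; exact hV0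
    have h4 := hanti 0
    rw [zero_add] at h4
    have h5 : p 0 * ((4 / 5 : ℝ) * (p 0 - p 1)) ≤ p 0 * (p j - p (j + 1)) := by
      nlinarith
    exact le_of_mul_le_mul_left h5 h3
  -- gains of the shells
  have hshell : ∀ j : ℕ, j < 1023 → (4 / 5 : ℝ) * (p 0 - p 1) / e *
      (1 / (2 * ((j : ℝ) + 1) + 2)) ≤ gR ((Vp V u \ V) ∩
        (Lam V u (2 * ((j : ℝ) + 1)) \ Lam V u (2 * ((j : ℝ) + 1 + 1)))) := by
    intro j hj
    have h1 := shell hV hc hu0 hu (j := j + 1) (by omega) (by omega)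
    have h2 : p (j + 1) = gR (V ∩ Lam V u (2 * ((j + 1 + 1 : ℕ) : ℝ))) +
        gR (V ∩ (Lam V u (2 * ((j + 1 : ℕ) : ℝ)) \ Lam V u (2 * (((j + 1 : ℕ) : ℝ) + 1)))) := by
      rw [← gR_union]
      · rw [hp]
        simp only
        congr 1
        ext x
        constructor
        · rintro ⟨h3, h4⟩
          by_cases h5 : x ∈ Lam V u (2 * (((j + 1 : ℕ) : ℝ) + 1))
          · left
            refine ⟨h3, ?_⟩
            push_cast at h5 ⊢
            exact h5
          · exact Or.inr ⟨h3, h4, h5⟩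
        · rintro (⟨h3, h4⟩ | ⟨h3, h4, h5⟩)
          · refine ⟨h3, Lam_anti hc u (by positivity) ?_ h4⟩
            push_cast
            linarith
          · exact ⟨h3, h4⟩
      · exact hV.measurableSet.inter ((hL _).diff (hL _))
      · rw [Set.disjoint_left]
        rintro x ⟨_, h3⟩ ⟨_, _, h4⟩
        apply h4
        push_cast at h3 ⊢
        exact h3
    have h3 := hdec (j + 1) (by omega)
    have h4 : p (j + 1) - p (j + 1 + 1) =
        gR (V ∩ (Lam V u (2 * ((j + 1 : ℕ) : ℝ)) \ Lam V u (2 * (((j + 1 : ℕ) : ℝ) + 1)))) := by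
      rw [h2]
      simp only [hp]
      ring
    rw [h4] at h3
    have h5 := h3.trans h1
    push_cast at h5
    rw [div_mul_div_comm, mul_one, div_le_iff₀ (by positivity)]
    calc (4 / 5 : ℝ) * (p 0 - p 1) ≤ _ := h5
      _ = _ := by ring
  have hsum : (4 / 5 : ℝ) * (p 0 - p 1) / e * (5 / 2) ≤
      gR ((Vp V u \ V) ∩ (Lam V u 2 \ Lam V u (2 * (((1023 : ℕ) : ℝ) + 1)))) := by
    refine le_trans ?_ (gains hV hc u 1023)
    have h1 : 0 ≤ (4 / 5 : ℝ) * (p 0 - p 1) / e := by
      have := hanti 0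
      rw [zero_add] at this
      apply div_nonneg _ he0.le
      linarith
    refine (mul_le_mul_of_nonneg_left harm_sum h1).trans ?_
    rw [Finset.mul_sum]
    exact Finset.sum_le_sum fun j hj => hshell j (Finset.mem_range.mp hj)
  have hfin : p 1 + gR ((Vp V u \ V) ∩ (Lam V u 2 \ Lam V u (2 * (((1023 : ℕ) : ℝ) + 1)))) ≤
      gR (Vp V u) := by
    have h1 : p 1 = gR (V ∩ Lam V u 2) := by
      rw [hp]
      norm_num
    rw [h1, ← gR_union]
    · apply gR_mono
      rintro x (⟨h2, h3⟩ | ⟨⟨h2, _⟩, _⟩)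
      · exact L2_subset_Vp hc h2 h3
      · exact h2
    · exact ((isCompact_Vp hV u).measurableSet.diff hV.measurableSet).inter
        ((hL _).diff (hL _))
    · rw [Set.disjoint_left]
      rintro x ⟨h2, _⟩ ⟨⟨_, h3⟩, _⟩
      exact h3 h2
  have h6 : p 0 - p 1 ≤ (4 / 5 : ℝ) * (p 0 - p 1) / e * (5 / 2) := by
    have h7 := hanti 0
    rw [zero_add] at h7
    have h8 : (4 / 5 : ℝ) * (p 0 - p 1) / e * (5 / 2) = (p 0 - p 1) * (2 / e) := by ring
    rw [h8]
    have h9 : 1 ≤ 2 / e := by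
      rw [le_div_iff₀ he0]; linarith
    nlinarith
  rw [← hp0]
  have h10 := (add_le_add_right (h6.trans hsum) (p 1)).trans hfin
  linarith

/-- The Banaszczyk step. -/
theorem ban {n : ℕ} (V : Set (EuclideanSpace ℝ (Fin n))) (hV : IsCompact V)
    (hc : Convex ℝ V) (hg : (9 / 10) * gam (univ : Set (EuclideanSpace ℝ (Fin n))) ≤ gam V)
    (u : EuclideanSpace ℝ (Fin n)) (hu : ‖u‖ ≤ 1 / 2048) :
    ∃ V' : Set (EuclideanSpace ℝ (Fin n)), IsCompact V' ∧ Convex ℝ V' ∧
      ((∀ z ∈ V, -z ∈ V) → ∀ z ∈ V', -z ∈ V') ∧ gam V ≤ gam V' ∧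
      ∀ z ∈ V', z - u ∈ V ∨ z + u ∈ V := by
  by_cases hu0 : u = 0
  · exact ⟨V, hV, hc, fun h => h, le_rfl, fun z hz => Or.inl (by simpa [hu0] using hz)⟩
  refine ⟨Vp V u, isCompact_Vp hV u, convex_Vp hc u, ?_, ?_, fun z hz => Vp_cover hc hz⟩
  · intro hs z hz
    obtain ⟨τ, h1, h2, h3, h4⟩ := mem_Vp.mp hz
    refine mem_Vp.mpr ⟨-τ, by linarith, by linarith, ?_, ?_⟩
    · rw [show -z - -τ • u + u = -(z - τ • u - u) by module]
      exact hs _ h4
    · rw [show -z - -τ • u - u = -(z - τ • u + u) by module]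
      exact hs _ h3
  · have h1 : (9 / 10 : ℝ) * gR (univ : Set (E n)) ≤ gR V := by
      have h2 := ENNReal.toReal_mono (gam_lt_top V).ne hg
      rw [ENNReal.toReal_mul] at h2
      have h3 : ((9 / 10 : ℝ≥0∞)).toReal = (9 / 10 : ℝ) := by
        rw [ENNReal.toReal_div]
        norm_num
      rwa [h3] at h2
    have h2 := gR_Vp hV hc h1 hu0 hu
    exact (ENNReal.toReal_le_toReal (gam_lt_top _).ne (gam_lt_top _).ne).mp h2

end P262SBan
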