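import Vale.Agent.P262S.Defs
import Vale.Agent.P262S.Ban

/-! P262: module BAN in the form used by the other modules. -/

namespace P262S

theorem ban : BanStatement := by
  intro n V hV hc hs hg u hu
  have hg' : (9 / 10) * P262SBan.gam (Set.univ : Set (EuclideanSpace ℝ (Fin n))) ≤
      P262SBan.gam V := by
    have e : ENNReal.ofReal (9 / 10) = 9 / 10 := by
      rw [ENNReal.ofReal_div_of_pos (by norm_num)]
      norm_num
    rw [e] at hg
    exact hg
  obtain ⟨V', h1, h2, h3, h4, h5⟩ := P262SBan.ban V hV hc hg' u hu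
  exact ⟨V', h1, h2, h3 hs, h4, h5⟩

end P262S
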