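import Vale.Agent.P262S.GamTools

/-! P262S: the convex body of all quadratic tests (used by ROUND and SPLIT). -/

namespace P262S

open Finset MeasureTheory

/-- weighted square sum -/
noncomputable def qf {n : ℕ} (a : Fin n → ℝ) (z : E n) : ℝ := ∑ t, a t * (z t) ^ 2

theorem qf_neg {n : ℕ} (a : Fin n → ℝ) (z : E n) : qf a (-z) = qf a z := by
  simp [qf]

theorem qf_smul {n : ℕ} (a : Fin n → ℝ) (c : ℝ) (z : E n) : qf a (c • z) = c ^ 2 * qf a z := by
  unfold qf
  rw [mul_sum]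
  refine sum_congr rfl fun t _ => ?_
  simp only [PiLp.smul_apply, smul_eq_mul]
  ring

theorem qf_cont {n : ℕ} (a : Fin n → ℝ) : Continuous (qf a) := by
  unfold qf
  fun_prop

theorem qf_conv {n : ℕ} (a : Fin n → ℝ) (ha : ∀ t, 0 ≤ a t) (c : ℝ) :
    Convex ℝ {z : E n | qf a z ≤ c} := by
  intro x hx y hy s t hs ht hst
  simp only [Set.mem_setOf_eq] at hx hy ⊢
  have : qf a (s • x + t • y) ≤ s * qf a x + t * qf a y := by
    unfold qf
    rw [mul_sum, mul_sum, ← sum_add_distrib]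
    refine sum_le_sum fun i _ => ?_
    simp only [PiLp.add_apply, PiLp.smul_apply, smul_eq_mul]
    have h1 : (s * x i + t * y i) ^ 2 ≤ s * (x i) ^ 2 + t * (y i) ^ 2 := by
      have h2 : s * (x i) ^ 2 + t * (y i) ^ 2 - (s * x i + t * y i) ^ 2 =
          s * t * (x i - y i) ^ 2 := by
        have : t = 1 - s := by linarith
        subst this
        ring
      have h3 : 0 ≤ s * t * (x i - y i) ^ 2 := by positivity
      linarith
    calc a i * (s * x i + t * y i) ^ 2 ≤ a i * (s * (x i) ^ 2 + t * (y i) ^ 2) :=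
          mul_le_mul_of_nonneg_left h1 (ha i)
      _ = s * (a i * x i ^ 2) + t * (a i * y i ^ 2) := by ring
  calc qf a (s • x + t • y) ≤ s * qf a x + t * qf a y := this
    _ ≤ s * c + t * c := by gcongr
    _ = c := by rw [← add_mul, hst, one_mul]

theorem qf_le_norm {n : ℕ} (a : Fin n → ℝ) (ha : ∀ t, 0 ≤ a t ∧ a t ≤ 1 / 4) (z : E n) :
    qf a z ≤ ‖z‖ ^ 2 := by
  rw [EuclideanSpace.norm_sq_eq]
  unfold qf
  refine sum_le_sum fun t _ => ?_
  have h1 := ha t
  rw [Real.norm_eq_abs, sq_abs]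
  nlinarith [sq_nonneg (z t)]

theorem gam_biUnion_le {n : ℕ} {κ : Type} (J : Finset κ) (A : κ → Set (E n)) :
    gam (⋃ j ∈ J, A j) ≤ ∑ j ∈ J, gam (A j) := by
  simp only [gam_eq]
  exact measure_biUnion_finset_le J A

/-- the body of the tests -/
theorem exists_body (htail : TailStatement) (n : ℕ) {κ : Type} (J : Finset κ)
    (α : κ → Fin n → ℝ) (L : κ → ℝ) (K : ℕ) (hK : 1 ≤ K)
    (hα : ∀ j ∈ J, ∀ t, 0 ≤ α j t ∧ α j t ≤ 1 / 4)
    (hL : ∑ j ∈ J, Real.exp (-(L j)) ≤ 1 / (20 * K)) :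
    ∃ V : Set (E n), IsCompact V ∧ Convex ℝ V ∧ (∀ z ∈ V, -z ∈ V) ∧
      gam Vᶜ ≤ ENNReal.ofReal (1 / (10 * K)) * gam (Set.univ : Set (E n)) ∧
      (∀ z ∈ V, ∀ j ∈ J, qf (α j) z ≤ 2 * ∑ t, α j t + L j) ∧
      ∃ r : ℝ, 0 < r ∧ ∀ z : E n, ‖z‖ ≤ r → z ∈ V := by
  have hKpos : (0 : ℝ) < K := by exact_mod_cast hK
  have hK1 : (1 : ℝ) ≤ K := by exact_mod_cast hK
  set L' : ℝ := Real.log (20 * K) with hL'
  have hL'exp : Real.exp (-L') = 1 / (20 * K) := by
    rw [Real.exp_neg, hL', Real.exp_log (by positivity), one_div]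
  have hL'pos : 1 ≤ L' := by
    rw [hL', Real.le_log_iff_exp_le (by positivity)]
    have := Real.exp_one_lt_d9
    linarith
  set V : Set (E n) := {z | ∀ j ∈ J, qf (α j) z ≤ 2 * ∑ t, α j t + L j} ∩
    {z | qf (fun _ => (1 / 4 : ℝ)) z ≤ 2 * ∑ _t : Fin n, (1 / 4 : ℝ) + L'} with hV
  have hV1 : {z : E n | ∀ j ∈ J, qf (α j) z ≤ 2 * ∑ t, α j t + L j} =
      ⋂ j ∈ J, {z : E n | qf (α j) z ≤ 2 * ∑ t, α j t + L j} := by
    ext z; simp
  have hclosed : IsClosed V := by
    refine IsClosed.inter ?_ (isClosed_le (qf_cont _) continuous_const)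
    rw [hV1]
    exact isClosed_biInter fun j _ => isClosed_le (qf_cont _) continuous_const
  have hbdd : Bornology.IsBounded V := by
    rw [isBounded_iff_forall_norm_le]
    refine ⟨4 * (2 * ∑ _t : Fin n, (1 / 4 : ℝ) + L') + 1, fun z hz => ?_⟩
    have h1 : qf (fun _ => (1 / 4 : ℝ)) z = 1 / 4 * ‖z‖ ^ 2 := by
      rw [EuclideanSpace.norm_sq_eq]
      unfold qf
      rw [mul_sum]
      refine sum_congr rfl fun t _ => ?_
      rw [Real.norm_eq_abs, sq_abs]
    have h2 : qf (fun _ => (1 / 4 : ℝ)) z ≤ 2 * ∑ _t : Fin n, (1 / 4 : ℝ) + L' := hz.2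
    rw [h1] at h2
    nlinarith [sq_nonneg (‖z‖ - 1), norm_nonneg z]
  have hLpos : ∀ j ∈ J, 1 ≤ L j := by
    intro j hj
    have h1 : Real.exp (-(L j)) ≤ ∑ j ∈ J, Real.exp (-(L j)) :=
      single_le_sum (f := fun j => Real.exp (-(L j))) (fun _ _ => (Real.exp_pos _).le) hj
    have h2 : Real.exp (-(L j)) ≤ Real.exp (-1) := by
      refine (h1.trans hL).trans ?_
      rw [Real.exp_neg, ← one_div]
      refine one_div_le_one_div_of_le (Real.exp_pos _) ?_
      have := Real.exp_one_lt_d9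
      nlinarith
    have := Real.exp_le_exp.1 h2
    linarith
  refine ⟨V, Metric.isCompact_of_isClosed_isBounded hclosed hbdd, ?_, ?_, ?_, ?_, ?_⟩
  · refine Convex.inter ?_ (qf_conv _ (fun _ => by norm_num) _)
    rw [hV1]
    exact convex_iInter fun j => convex_iInter fun hj => qf_conv _ (fun t => (hα j hj t).1) _
  · rintro z ⟨h1, h2⟩
    refine ⟨fun j hj => ?_, ?_⟩
    · rw [qf_neg]; exact h1 j hj
    · simp only [Set.mem_setOf_eq, qf_neg]; exact h2
  · have hsub : Vᶜ ⊆ (⋃ j ∈ J, {z : E n | 2 * ∑ t, α j t + L j < qf (α j) z}) ∪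
        {z : E n | 2 * ∑ _t : Fin n, (1 / 4 : ℝ) + L' < qf (fun _ => (1 / 4 : ℝ)) z} := by
      intro z hz
      rw [hV, Set.compl_inter] at hz
      rcases hz with hz | hz
      · left
        simp only [Set.mem_compl_iff, Set.mem_setOf_eq, not_forall, not_le] at hz
        obtain ⟨j, hj, hz⟩ := hz
        simp only [Set.mem_iUnion]
        exact ⟨j, hj, hz⟩
      · right
        simp only [Set.mem_compl_iff, Set.mem_setOf_eq, not_le] at hz
        exact hz
    refine (gam_mono hsub).trans ((gam_union_le _ _).trans ?_)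
    have h1 : gam (⋃ j ∈ J, {z : E n | 2 * ∑ t, α j t + L j < qf (α j) z}) ≤
        ENNReal.ofReal (1 / (20 * K)) * gam (Set.univ : Set (E n)) := by
      refine (gam_biUnion_le J _).trans ?_
      have h2 : ∑ j ∈ J, gam {z : E n | 2 * ∑ t, α j t + L j < qf (α j) z} ≤
          ∑ j ∈ J, ENNReal.ofReal (Real.exp (-(L j))) * gam (Set.univ : Set (E n)) :=
        sum_le_sum fun j hj => htail n (α j) (hα j hj) (L j)
      refine h2.trans ?_
      rw [← sum_mul, ← ENNReal.ofReal_sum_of_nonneg (fun _ _ => (Real.exp_pos _).le)]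
      exact mul_le_mul_left (ENNReal.ofReal_le_ofReal hL) _
    have h3 : gam {z : E n | 2 * ∑ _t : Fin n, (1 / 4 : ℝ) + L' <
        qf (fun _ => (1 / 4 : ℝ)) z} ≤
        ENNReal.ofReal (1 / (20 * K)) * gam (Set.univ : Set (E n)) := by
      rw [← hL'exp]
      exact htail n (fun _ => 1 / 4) (fun _ => by norm_num) L'
    refine (add_le_add h1 h3).trans ?_
    rw [← add_mul, ← ENNReal.ofReal_add (by positivity) (by positivity)]
    refine mul_le_mul_left (ENNReal.ofReal_le_ofReal (le_of_eq ?_)) _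
    field_simp
    norm_num
  · intro z hz j hj
    exact hz.1 j hj
  · refine ⟨1, one_pos, fun z hz => ?_⟩
    have hz2 : ‖z‖ ^ 2 ≤ 1 := by nlinarith [norm_nonneg z]
    refine ⟨fun j hj => ?_, ?_⟩
    · have h1 := qf_le_norm (α j) (hα j hj) z
      have h2 := hLpos j hj
      have h3 : 0 ≤ ∑ t, α j t := sum_nonneg fun t _ => (hα j hj t).1
      linarith
    · have h1 := qf_le_norm (fun _ : Fin n => (1 / 4 : ℝ)) (fun _ => by norm_num) z
      have h3 : 0 ≤ ∑ _t : Fin n, (1 / 4 : ℝ) := sum_nonneg fun t _ => by norm_num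
      simp only [Set.mem_setOf_eq]
      linarith

end P262S
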