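import Vale.Agent.P262S.Defs

/-! P262, module CORE. -/

namespace P262S

open Finset

variable {d : ℕ}

theorem cst_Y_pos {c : Cst} (h : c.Good) : 0 < c.Y := by
  have h1 := h.hY
  have h2 := h.hLa8
  have h3 : (0 : ℝ) < C0 := by unfold C0; positivity
  have h4 : 0 < 10000 * C0 * c.La := by
    have : 0 < c.La := by linarith
    positivity
  linarith

theorem ind_nonneg (g : Stg d) (s : ℕ) : 0 ≤ g.ind s := by
  unfold Stg.ind
  split_ifs <;> norm_num

theorem Rb_nonneg (g : Stg d) : ∀ s, 0 ≤ Rb g s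
  | 0 => by simp [Rb]
  | (s + 1) => by
    have h1 := Rb_nonneg g s
    have h2 := ind_nonneg g s
    simp only [Rb]
    positivity

theorem wt_nonneg_zero {c : Cst} (h : c.Good) {g : Stg d} (hg : StgGood c g) (k : Fin d) :
    0 ≤ c.wt g 0 k := by
  have hY := cst_Y_pos h
  have hl : 0 ≤ c.lm g 0 k := by
    unfold Cst.lm Cst.p
    simp only [range_zero, prod_empty, one_mul]
    exact (hg.lam_pos k).le
  unfold Cst.wt
  split_ifs
  · have : 0 ≤ c.rho g 0 k := by unfold Cst.rho; positivity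
    positivity
  · positivity

/-- the energy form in an eigenbasis -/
theorem energy_diag {ι : Type} [Fintype ι] (v : ι → Fin d → ℝ)
    (ho : ∀ k l, k ≠ l → ∑ i, v i k * v i l = 0) (w : Fin d → ℝ) :
    ∑ i, (∑ k, v i k * w k) ^ 2 = ∑ k, (∑ i, (v i k) ^ 2) * (w k) ^ 2 := by
  have h1 : ∀ i, (∑ k, v i k * w k) ^ 2 = ∑ k, ∑ l, (v i k * v i l) * (w k * w l) := by
    intro i
    rw [sq, Finset.sum_mul_sum]
    refine sum_congr rfl fun k _ => sum_congr rfl fun l _ => ?_
    ring
  simp_rw [h1]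
  rw [sum_comm]
  refine sum_congr rfl fun k _ => ?_
  rw [sum_comm]
  rw [sum_eq_single k]
  · rw [sum_mul]
    refine sum_congr rfl fun i _ => ?_
    ring
  · intro l _ hl
    rw [← sum_mul, ho k l (Ne.symm hl), zero_mul]
  · intro h
    exact absurd (mem_univ k) h

theorem inv_zero {c : Cst} (h : c.Good) {g : Stg d} (hg : StgGood c g) {ι : Type} [Fintype ι]
    [DecidableEq ι] (v : ι → Fin d → ℝ)
    (ho : ∀ k l, k ≠ l → ∑ i, v i k * v i l = 0) (hz : ∀ k, ∑ i, v i k = 0)
    (hl : g.lam = fun k => ∑ i, (v i k) ^ 2) :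
    Inv c g v 0 1 (fun _ => 1) := by
  have hY := cst_Y_pos h
  have hpart : part (fun _ : ι => 1) 0 = univ := by
    unfold part
    simp
  have hpre : ∀ j, 1 ≤ j → j ≤ 2 * 1 → pre v (fun _ : ι => 1) j = fun _ => (0 : ℝ) := by
    intro j h1 h2
    funext k
    unfold pre
    have : j = 1 ∨ j = 2 := by omega
    rcases this with rfl | rfl
    · simp
    · have : (univ.filter (fun _ : ι => 1 < 2)) = univ := by simp
      rw [this]
      exact hz k
  refine ⟨le_refl _, fun _ => rfl, fun _ => le_refl _, fun _ => by norm_num, ?_, ?_, ?_, ?_, ?_,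
    ?_⟩
  · intro q
    have : (univ.filter (fun _ : ι => 1 = 2 * q)) = ∅ := by
      rw [filter_eq_empty_iff]
      intro x _ hx
      omega
    rw [this]
    simp
  · intro q hq
    have : q = 0 := by omega
    subst this
    rw [hpart]
    intro w _
    have e : ∑ i, (∑ k, v i k * w k) ^ 2 - ∑ k, c.lm g 0 k * (w k) ^ 2 = 0 := by
      rw [energy_diag v ho w]
      unfold Cst.lm Cst.p
      simp only [range_zero, prod_empty, one_mul]
      rw [hl]
      ring
    rw [e, abs_zero, one_mul]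
    exact sum_nonneg fun k _ => mul_nonneg (wt_nonneg_zero h hg k) (sq_nonneg _)
  · intro q _
    unfold Rs
    simp [Rb]
  · intro q _
    unfold Dif
    simp [Db]
  · intro j h1 h2 k0
    rw [hpre j h1 h2]
    unfold Nst
    have e : ∑ k ∈ univ.filter (fun k => 0 ≤ g.t k ∧ k ≤ k0), ((fun _ => (0:ℝ)) k : ℝ) ^ 2 = 0 := by
      simp
    rw [e]
    positivity
  · intro j h1 h2
    rw [hpre j h1 h2]
    unfold Psi
    simp [Be]

theorem inv_all {c : Cst} (h : c.Good) {g : Stg d} (hg : StgGood c g) (ha : StepAStatement)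
    (hb : StepBStatement) {ι : Type} [Fintype ι]
    [DecidableEq ι] (v : ι → Fin d → ℝ) (hv : ∀ i, ∑ k, (v i k) ^ 2 ≤ 1)
    (ho : ∀ k l, k ≠ l → ∑ i, v i k * v i l = 0) (hz : ∀ k, ∑ i, v i k = 0)
    (hl : g.lam = fun k => ∑ i, (v i k) ^ 2) (s : ℕ) :
    ∃ (N : ℕ) (pos : ι → ℕ), Inv c g v s N pos := by
  induction s with
  | zero => exact ⟨1, fun _ => 1, inv_zero h hg v ho hz hl⟩
  | succ s ih =>
    obtain ⟨N, pos, hi⟩ := ih
    obtain ⟨pos1, h1⟩ := ha c h d g hg ι v hv hz s N pos hi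
    exact hb c h d g hg ι v hv hz s N pos1 h1

theorem Rb_decay (g : Stg d) (s0 : ℕ) (h0 : ∀ k, g.t k < s0) (n : ℕ) :
    Rb g (s0 + n) = Rb g s0 * (1 / 16) ^ n := by
  induction n with
  | zero => simp
  | succ n ih =>
    have hi : g.ind (s0 + n) = 0 := by
      unfold Stg.ind
      rw [if_neg]
      rintro ⟨k, hk⟩
      have := h0 k
      omega
    have : s0 + (n + 1) = (s0 + n) + 1 := by ring
    rw [this]
    simp only [Rb]
    rw [ih, hi, pow_succ]
    ring

theorem exists_stage (g : Stg d) (Cd : ℝ) : ∃ s, (∀ k, g.t k < s) ∧ Cd * Rb g s ≤ 1 := by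
  obtain ⟨s0, hs0⟩ : ∃ s0, ∀ k, g.t k < s0 := by
    refine ⟨(univ.sup g.t) + 1, fun k => ?_⟩
    have : g.t k ≤ univ.sup g.t := le_sup (mem_univ k)
    omega
  have hlim : Filter.Tendsto (fun n : ℕ => Cd * (Rb g s0 * (1 / 16 : ℝ) ^ n)) Filter.atTop
      (nhds 0) := by
    have h1 : Filter.Tendsto (fun n : ℕ => (1 / 16 : ℝ) ^ n) Filter.atTop (nhds 0) :=
      tendsto_pow_atTop_nhds_zero_of_lt_one (by norm_num) (by norm_num)
    have h2 := (h1.const_mul (Rb g s0)).const_mul Cd
    simpa using h2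
  obtain ⟨n, hn⟩ := (hlim.eventually_le_const (by norm_num : (0 : ℝ) < 1)).exists
  refine ⟨s0 + n, fun k => ?_, ?_⟩
  · have := hs0 k
    omega
  · rw [Rb_decay g s0 hs0 n]
    exact hn

/-- prefixes of the sorted list -/
theorem prefix_sorted {ι : Type} [Fintype ι] [DecidableEq ι] (pos : ι → ℕ) :
    ∃ L : List ι, L.Nodup ∧ (∀ i, i ∈ L) ∧ ∀ n : ℕ, (L.take n).toFinset = univ ∨
      ∃ (j : ℕ) (x : ι) (A : Finset ι), pos x = j ∧ A ⊆ univ.filter (fun i => pos i = j) ∧
        (L.take n).toFinset = univ.filter (fun i => pos i < j) ∪ A ∧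
        Disjoint (univ.filter (fun i => pos i < j)) A := by
  classical
  let r : ι → ι → Prop := fun a b => pos a ≤ pos b
  have : Std.Total r := ⟨fun a b => le_total _ _⟩
  have : IsTrans ι r := ⟨fun a b c h1 h2 => le_trans h1 h2⟩
  let L := List.insertionSort r (univ : Finset ι).toList
  have hperm : L.Perm (univ : Finset ι).toList := List.perm_insertionSort r _
  have hsort : L.Pairwise r := List.pairwise_insertionSort r _
  have hnd : L.Nodup := hperm.nodup_iff.mpr (Finset.nodup_toList _)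
  have hmem : ∀ i, i ∈ L := fun i => by
    rw [hperm.mem_iff]
    simp
  refine ⟨L, hnd, hmem, fun n => ?_⟩
  by_cases hn : L.length ≤ n
  · left
    rw [List.take_of_length_le hn]
    ext i
    simp [hmem i]
  · right
    push Not at hn
    have hx : L = L.take n ++ L[n] :: L.drop (n + 1) := by
      rw [← List.drop_eq_getElem_cons hn, List.take_append_drop]
    set x := L[n] with hxdef
    have hs := hsort
    rw [hx] at hs
    rw [List.pairwise_append] at hs
    obtain ⟨_, h2, h3⟩ := hs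
    rw [List.pairwise_cons] at h2
    have hA : ∀ a ∈ L.take n, pos a ≤ pos x := fun a ha => h3 a ha x (by simp)
    have hB : ∀ b ∈ L.drop (n + 1), pos x ≤ pos b := fun b hb => h2.1 b hb
    refine ⟨pos x, x, (L.take n).toFinset \ univ.filter (fun i => pos i < pos x), rfl, ?_, ?_, ?_⟩
    · intro a ha
      simp only [mem_sdiff, List.mem_toFinset, mem_filter, mem_univ, true_and, not_lt] at ha
      simp only [mem_filter, mem_univ, true_and]
      exact le_antisymm (hA a ha.1) ha.2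
    · ext a
      simp only [mem_union, mem_sdiff, List.mem_toFinset, mem_filter, mem_univ, true_and, not_lt]
      constructor
      · intro ha
        by_cases h : pos a < pos x
        · exact Or.inl h
        · exact Or.inr ⟨ha, not_lt.mp h⟩
      · rintro (h | h)
        · have := hmem a
          rw [hx] at this
          rcases List.mem_append.mp this with h4 | h4
          · exact h4
          · rcases List.mem_cons.mp h4 with h5 | h5
            · rw [h5] at h
              exact absurd h (lt_irrefl _)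
            · exact absurd h (not_lt.mpr (hB a h5))
        · exact h.1
    · exact disjoint_sdiff

theorem sum_in_part {g : Stg d} {ι : Type} [Fintype ι] [DecidableEq ι] (v : ι → Fin d → ℝ)
    (s : ℕ) (hs : ∀ k, g.t k < s) (P A : Finset ι) (hA : A ⊆ P) {R : ℝ} (hR : Rs g v s P ≤ R)
    (h1 : (Fintype.card ι : ℝ) * R ≤ 1) : ∑ k, (∑ i ∈ A, v i k) ^ 2 ≤ 1 := by
  have hcs : ∀ k, (∑ i ∈ A, v i k) ^ 2 ≤ (Fintype.card ι : ℝ) * ∑ i ∈ A, (v i k) ^ 2 := by
    intro k
    refine (sq_sum_le_card_mul_sum_sq).trans ?_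
    have : (A.card : ℝ) ≤ (Fintype.card ι : ℝ) := by exact_mod_cast card_le_univ A
    exact mul_le_mul_of_nonneg_right this (sum_nonneg fun i _ => sq_nonneg _)
  have hfil : (univ.filter (fun k => g.t k < s)) = univ := by
    ext k
    simp [hs k]
  have hRs : ∑ k, ∑ i ∈ A, (v i k) ^ 2 ≤ R := by
    refine le_trans ?_ hR
    unfold Rs
    rw [hfil, sum_comm]
    refine (sum_le_sum_of_subset_of_nonneg hA fun i _ _ => ?_).trans ?_
    · exact sum_nonneg fun k _ => sq_nonneg _
    · refine sum_le_sum fun i _ => sum_le_sum fun k _ => ?_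
      have : (1 : ℝ) ≤ 4 ^ (s - g.t k) := one_le_pow₀ (by norm_num)
      nlinarith [sq_nonneg (v i k)]
  calc ∑ k, (∑ i ∈ A, v i k) ^ 2 ≤ ∑ k, (Fintype.card ι : ℝ) * ∑ i ∈ A, (v i k) ^ 2 :=
        sum_le_sum fun k _ => hcs k
    _ = (Fintype.card ι : ℝ) * ∑ k, ∑ i ∈ A, (v i k) ^ 2 := by rw [← mul_sum]
    _ ≤ (Fintype.card ι : ℝ) * R := mul_le_mul_of_nonneg_left hRs (by positivity)
    _ ≤ 1 := h1

theorem pre_le_psi {g : Stg d} (s : ℕ) (hs : ∀ k, g.t k < s) (x : Fin d → ℝ) :
    ∑ k, (x k) ^ 2 ≤ Psi g s x := by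
  have hfil : (univ.filter (fun k => g.t k ≤ s)) = univ := by
    ext k
    simp [(hs k).le]
  unfold Psi
  rw [hfil]
  refine sum_le_sum fun k _ => ?_
  have : (0 : ℝ) ≤ 2 * (1 / 2 : ℝ) ^ (s - g.t k) := by positivity
  nlinarith [sq_nonneg (x k), mul_nonneg this (sq_nonneg (x k))]

theorem core (hc : CstStatement) (hg : StgStatement) (hs : SumStatement) (ha : StepAStatement)
    (hb : StepBStatement) : CoreStatement := by
  obtain ⟨c, hcg⟩ := hc
  obtain ⟨B0, hB0, hsum⟩ := hs c hcg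
  refine ⟨2 * B0 + 2, by linarith, ?_⟩
  intro d ι _ _ v hd hv ho hz hpos hmono
  obtain ⟨g, hl, hgood⟩ := hg c hcg d (fun k => ∑ i, (v i k) ^ 2) hpos hmono
  obtain ⟨s, hst, hRb⟩ := exists_stage g (Fintype.card ι : ℝ)
  obtain ⟨N, pos, hinv⟩ := inv_all hcg hgood ha hb v hv ho hz hl s
  obtain ⟨L, hnd, hmem, hpre⟩ := prefix_sorted pos
  refine ⟨L, hnd, hmem, fun n => ?_⟩
  have hd' : (1 : ℝ) ≤ d := by exact_mod_cast hd
  have hnd' : (L.take n).Nodup := (List.take_sublist n L).nodup hnd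
  have hsumlist : ∀ k, ((L.take n).map (fun i => v i k)).sum = ∑ i ∈ (L.take n).toFinset, v i k :=
    fun k => (List.sum_toFinset _ hnd').symm
  simp_rw [hsumlist]
  rcases hpre n with h | ⟨j, x, A, hx, hA, hU, hdisj⟩
  · rw [h]
    simp only [hz]
    simp only [ne_eq, OfNat.ofNat_ne_zero, not_false_eq_true, zero_pow, sum_const_zero]
    positivity
  · rw [hU]
    have hj1 : 1 ≤ j := hx ▸ hinv.pos_ge x
    have hj2 : j < 2 * N := hx ▸ hinv.pos_lt x
    have hpsi := hinv.psi j hj1 hj2.le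
    have h1 : ∑ k, (pre v pos j k) ^ 2 ≤ B0 * d :=
      (pre_le_psi s hst _).trans (hpsi.trans (hsum d g hd hgood s))
    have h2 : ∑ k, (∑ i ∈ A, v i k) ^ 2 ≤ 1 := by
      rcases Nat.even_or_odd' j with ⟨q, hq | hq⟩
      · have hcard : A.card ≤ 1 := by
          refine (card_le_card hA).trans ?_
          rw [hq]
          exact hinv.sep q
        rcases Nat.le_one_iff_eq_zero_or_eq_one.mp hcard with h0 | h0
        · rw [card_eq_zero] at h0
          rw [h0]
          simp
        · rw [card_eq_one] at h0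
          obtain ⟨a, rfl⟩ := h0
          simp only [sum_singleton]
          exact hv a
      · have hq' : q < N := by omega
        refine sum_in_part v s hst (part pos q) A ?_ (hinv.rs q hq') hRb
        rw [hq] at hA
        exact hA
    have h3 : ∀ k, (∑ i ∈ univ.filter (fun i => pos i < j) ∪ A, v i k) ^ 2 ≤
        2 * (pre v pos j k) ^ 2 + 2 * (∑ i ∈ A, v i k) ^ 2 := by
      intro k
      rw [sum_union hdisj]
      have : ∑ i ∈ univ.filter (fun i => pos i < j), v i k = pre v pos j k := rfl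
      rw [this]
      nlinarith [sq_nonneg (pre v pos j k - ∑ i ∈ A, v i k)]
    calc ∑ k, (∑ i ∈ univ.filter (fun i => pos i < j) ∪ A, v i k) ^ 2
        ≤ ∑ k, (2 * (pre v pos j k) ^ 2 + 2 * (∑ i ∈ A, v i k) ^ 2) := sum_le_sum fun k _ => h3 k
      _ = 2 * ∑ k, (pre v pos j k) ^ 2 + 2 * ∑ k, (∑ i ∈ A, v i k) ^ 2 := by
          rw [sum_add_distrib, mul_sum, mul_sum]
      _ ≤ 2 * (B0 * d) + 2 * 1 := by linarith
      _ ≤ (2 * B0 + 2) * d := by nlinarith

end P262S
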