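import Vale.Agent.P262S.Defs

/-! P262S, module CST: the constants exist. -/

namespace P262S

open Filter in
theorem cst : CstStatement := by
  -- `log (120 K) + 8 ≤ La`, `Y = 10000 C0 La`, `Th = (400 Y)^4`, `K ≥ 2^40 Th Y^2`
  -- take `K` polynomial in `La`
  obtain ⟨A, hA⟩ : ∃ A : ℝ, 0 < A ∧ ∀ L : ℝ, 1 ≤ L →
      (2 : ℝ) ^ 40 * (400 * (10000 * C0 * L)) ^ 4 * (10000 * C0 * L) ^ 2 + 1 ≤ A * L ^ 6 := by
    refine ⟨(2 : ℝ) ^ 40 * (400 * (10000 * C0)) ^ 4 * (10000 * C0) ^ 2 + 1, by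
      have : 0 < C0 := by unfold C0; positivity
      positivity, ?_⟩
    intro L hL
    have h1 : (1 : ℝ) ≤ L ^ 6 := one_le_pow₀ hL
    have h2 : (2 : ℝ) ^ 40 * (400 * (10000 * C0 * L)) ^ 4 * (10000 * C0 * L) ^ 2 =
        ((2 : ℝ) ^ 40 * (400 * (10000 * C0)) ^ 4 * (10000 * C0) ^ 2) * L ^ 6 := by ring
    rw [h2, add_mul]
    linarith
  -- eventually `log (120 A L^6) + 8 ≤ L`
  have hev : ∀ᶠ L : ℝ in atTop, Real.log (120 * A) + 6 * Real.log L + 8 ≤ L := by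
    have h1 : Tendsto (fun L : ℝ => Real.log L / L) atTop (nhds 0) := by
      have := Real.tendsto_pow_log_div_mul_add_atTop 1 0 1 one_ne_zero
      simpa using this
    have h2 : ∀ᶠ L : ℝ in atTop, Real.log L / L < 1 / 12 :=
      h1.eventually (gt_mem_nhds (by norm_num))
    filter_upwards [h2, eventually_ge_atTop (max 1 (2 * (Real.log (120 * A) + 8)))] with L hL1 hL2
    have hL3 : 1 ≤ L := (le_max_left _ _).trans hL2
    have hL4 : 2 * (Real.log (120 * A) + 8) ≤ L := (le_max_right _ _).trans hL2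
    rw [div_lt_iff₀ (by linarith)] at hL1
    linarith
  obtain ⟨L, hL, hL8⟩ := (hev.and (eventually_ge_atTop 8)).exists
  have hL1 : (1 : ℝ) ≤ L := by linarith
  have hA1 := hA.2 L hL1
  have hC0 : 0 < C0 := by unfold C0; positivity
  have hpos : 0 ≤ (2 : ℝ) ^ 40 * (400 * (10000 * C0 * L)) ^ 4 * (10000 * C0 * L) ^ 2 := by
    positivity
  set Z := (2 : ℝ) ^ 40 * (400 * (10000 * C0 * L)) ^ 4 * (10000 * C0 * L) ^ 2 with hZ
  have hc1 : Z ≤ ⌈Z⌉₊ := Nat.le_ceil _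
  have hc2 : (⌈Z⌉₊ : ℝ) < Z + 1 := Nat.ceil_lt_add_one hpos
  have hZ0 : 0 < Z := by
    have : 0 < L := by linarith
    positivity
  have hc3 : (0 : ℝ) < ⌈Z⌉₊ := by linarith
  refine ⟨⟨10000 * C0 * L, (400 * (10000 * C0 * L)) ^ 4, L, ⌈Z⌉₊⟩, ?_, hL8, le_refl _, le_refl _, hc1⟩
  show Real.log (120 * (⌈Z⌉₊ : ℝ)) + 8 ≤ L
  have h1 : Real.log (120 * (⌈Z⌉₊ : ℝ)) ≤ Real.log (120 * (A * L ^ 6)) := by
    apply Real.log_le_log (by positivity)
    linarith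
  have h2 : Real.log (120 * (A * L ^ 6)) = Real.log (120 * A) + 6 * Real.log L := by
    have e : 120 * (A * L ^ 6) = (120 * A) * L ^ 6 := by ring
    have hA0 := hA.1
    rw [e, Real.log_mul (by positivity) (by positivity), Real.log_pow]
    norm_num
  linarith

end P262S
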