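import Mathlib

/-! P262, `S_2(d) ≤ C √d`: definitions and module statements.  See `notes/P262S_plan.md`. -/

namespace P262S

open Finset MeasureTheory

/-! ## 1. Gaussian part -/

abbrev E (n : ℕ) := EuclideanSpace ℝ (Fin n)

/-- unnormalised Gaussian measure of a set -/
noncomputable def gam {n : ℕ} (A : Set (E n)) : ENNReal :=
  ∫⁻ x in A, ENNReal.ofReal (Real.exp (-‖x‖ ^ 2 / 2))

/-- BAN -/
def BanStatement : Prop :=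
  ∀ (n : ℕ) (V : Set (E n)), IsCompact V → Convex ℝ V → (∀ z ∈ V, -z ∈ V) →
    ENNReal.ofReal (9 / 10) * gam (Set.univ : Set (E n)) ≤ gam V →
    ∀ u : E n, ‖u‖ ≤ 1 / 2048 →
    ∃ V' : Set (E n), IsCompact V' ∧ Convex ℝ V' ∧ (∀ z ∈ V', -z ∈ V') ∧ gam V ≤ gam V' ∧
      ∀ z ∈ V', z - u ∈ V ∨ z + u ∈ V

/-- TAIL -/
def TailStatement : Prop :=
  ∀ (n : ℕ) (α : Fin n → ℝ), (∀ t, 0 ≤ α t ∧ α t ≤ 1 / 4) → ∀ L : ℝ,
    gam {x : E n | 2 * ∑ t, α t + L < ∑ t, α t * (x t) ^ 2} ≤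
      ENNReal.ofReal (Real.exp (-L)) * gam (Set.univ : Set (E n))

/-- MARK (from BAN) -/
def MarkStatement : Prop :=
  ∀ (n : ℕ) (V : Set (E n)), IsCompact V → Convex ℝ V → (∀ z ∈ V, -z ∈ V) →
    ∀ K : ℕ, 1 ≤ K →
    gam Vᶜ ≤ ENNReal.ofReal (1 / (10 * K)) * gam (Set.univ : Set (E n)) →
    ∀ (ι : Type) [DecidableEq ι] (S : Finset ι) (u : ι → E n), (∀ i ∈ S, ‖u i‖ ≤ 1 / 2048) →
    ∀ p : ι → ℕ, (∀ i ∈ S, 1 ≤ p i ∧ p i ≤ K) →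
    ∃ ε : ι → ℝ, (∀ i ∈ S, ε i = 1 ∨ ε i = -1) ∧
      ∀ q ≤ K, ∑ i ∈ S.filter (fun i => p i ≤ q), ε i • u i ∈ V

/-- the constant of the rounding theorems -/
noncomputable def C0 : ℝ := 2 ^ 24

/-- ROUND (from MARK with `K = 1` and TAIL) -/
def RoundStatement : Prop :=
  ∀ (T ι κ : Type) [Fintype T] [DecidableEq ι] (S : Finset ι) (w : ι → T → ℝ) (x : ι → ℝ)
    (J : Finset κ) (α : κ → T → ℝ) (L : κ → ℝ),
    (∀ i ∈ S, ∑ t, (w i t) ^ 2 ≤ 1) → (∀ i ∈ S, 0 ≤ x i ∧ x i ≤ 1) →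
    (∀ j ∈ J, ∀ t, 0 ≤ α j t ∧ α j t ≤ 1 / 4) →
    ∑ j ∈ J, Real.exp (-(L j)) ≤ 1 / 20 →
    ∃ y : ι → ℝ, (∀ i ∈ S, y i = 0 ∨ y i = 1) ∧
      ∀ j ∈ J, ∑ t, α j t * (∑ i ∈ S, (y i - x i) * w i t) ^ 2 ≤ C0 * (2 * ∑ t, α j t + L j)

/-- SPLIT (from MARK and TAIL, Chobanyan's argument) -/
def SplitStatement : Prop :=
  ∀ (T ι κ : Type) [Fintype T] [DecidableEq ι] (S : Finset ι) (w : ι → T → ℝ) (K : ℕ)
    (J : Finset κ) (α : κ → T → ℝ) (L : κ → ℝ), 1 ≤ K →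
    (∀ i ∈ S, ∑ t, (w i t) ^ 2 ≤ 1) →
    (∀ j ∈ J, ∀ t, 0 ≤ α j t ∧ α j t ≤ 1 / 4) →
    ∑ j ∈ J, Real.exp (-(L j)) ≤ 1 / (20 * K) →
    ∃ p : ι → ℕ, (∀ i ∈ S, 1 ≤ p i ∧ p i ≤ K) ∧
      ∀ q ≤ K, ∀ j ∈ J,
        ∑ t, α j t * (∑ i ∈ S.filter (fun i => p i ≤ q), w i t
          - ((q : ℝ) / K) * ∑ i ∈ S, w i t) ^ 2 ≤ C0 * (2 * ∑ t, α j t + L j)

/-! ## 2. Constants and stages -/

structure Cst where
  Y : ℝ
  Th : ℝ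
  La : ℝ
  Ks : ℕ

structure Cst.Good (c : Cst) : Prop where
  hLa : Real.log (120 * c.Ks) + 8 ≤ c.La
  hLa8 : 8 ≤ c.La
  hY : 10000 * C0 * c.La ≤ c.Y
  hTh : (400 * c.Y) ^ 4 ≤ c.Th
  hK : 2 ^ 40 * c.Th * c.Y ^ 2 ≤ c.Ks

/-- CST -/
def CstStatement : Prop := ∃ c : Cst, c.Good

/-- stage data: eigenvalues `lam`, time `t k` at which `k` stops being alive, complexity `m s` -/
structure Stg (d : ℕ) where
  lam : Fin d → ℝ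
  t : Fin d → ℕ
  m : ℕ → ℕ

variable {d : ℕ}

/-- number of pieces at stage `s` -/
def Cst.K (c : Cst) (g : Stg d) (s : ℕ) : ℕ := c.Ks * (g.m s) ^ 8

/-- the fraction of the family in a part of stage `s` -/
noncomputable def Cst.p (c : Cst) (g : Stg d) (s : ℕ) : ℝ :=
  ∏ r ∈ range s, (1 / (c.K g r : ℝ))

def Stg.M (g : Stg d) (s : ℕ) : ℕ := if s = 0 then 1 else g.m (s - 1)

/-- ideal energy of coordinate `k` in a part of stage `s` -/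
noncomputable def Cst.lm (c : Cst) (g : Stg d) (s : ℕ) (k : Fin d) : ℝ := c.p g s * g.lam k

noncomputable def Cst.sg (c : Cst) (g : Stg d) (s : ℕ) (k : Fin d) : ℝ :=
  ∑ k' ∈ univ.filter (fun k' => k ≤ k'), 1 / c.lm g s k'

/-- fourth root of `sg` -/
noncomputable def Cst.rho (c : Cst) (g : Stg d) (s : ℕ) (k : Fin d) : ℝ :=
  Real.sqrt (Real.sqrt (c.sg g s k))

/-- weights in the closeness condition -/
noncomputable def Cst.wt (c : Cst) (g : Stg d) (s : ℕ) (k : Fin d) : ℝ :=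
  if s < g.t k then c.Y * c.lm g s k * c.rho g s k
  else c.lm g s k / 32 + c.Y * (g.M s : ℝ) ^ 2

/-- number of coordinates that stop being alive exactly at time `s` -/
def Stg.u (g : Stg d) (s : ℕ) : ℕ := (univ.filter (fun k => g.t k = s)).card

structure StgGood (c : Cst) (g : Stg d) : Prop where
  lam_pos : ∀ k, 0 < g.lam k
  lam_mono : Monotone g.lam
  t_mono : Monotone g.t
  m_pos : ∀ s, 1 ≤ g.m s
  u_le : ∀ s, g.u s ≤ g.m s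
  u_le' : ∀ s, g.u (s + 1) ≤ g.m s
  m_step : ∀ s, g.m s ≤ 2 * g.m (s + 1)
  alive : ∀ s, ∑ k ∈ univ.filter (fun k => s < g.t k), 1 / c.lm g s k ≤
    1 / (c.Th * (g.M s : ℝ) ^ 4)
  trans : ∀ k, c.lm g (g.t k) k ≤ 4 * (g.m (g.t k) : ℝ) * c.Th * (g.M (g.t k) : ℝ) ^ 4
  sum_m : ∀ n, ∑ s ∈ range n, ((g.m s : ℝ) - 1) ≤ 4 * d

/-- STG -/
def StgStatement : Prop :=
  ∀ c : Cst, c.Good → ∀ (d : ℕ) (lam : Fin d → ℝ), (∀ k, 0 < lam k) → Monotone lam →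
    ∃ g : Stg d, g.lam = lam ∧ StgGood c g

/-! ## 3. Quantities of the recursion -/

/-- closeness of the energy form of `S` to the ideal one, on the coordinates with `s ≤ t k` -/
def Close (c : Cst) (g : Stg d) {ι : Type} (v : ι → Fin d → ℝ) (s : ℕ) (ϑ : ℝ)
    (S : Finset ι) : Prop :=
  ∀ w : Fin d → ℝ, (∀ k, g.t k < s → w k = 0) →
    |∑ i ∈ S, (∑ k, v i k * w k) ^ 2 - ∑ k, c.lm g s k * (w k) ^ 2| ≤
      ϑ * ∑ k, c.wt g s k * (w k) ^ 2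

/-- weighted energy of the dead coordinates -/
noncomputable def Rs (g : Stg d) {ι : Type} (v : ι → Fin d → ℝ) (s : ℕ) (S : Finset ι) : ℝ :=
  ∑ i ∈ S, ∑ k ∈ univ.filter (fun k => g.t k < s), (4 : ℝ) ^ (s - g.t k) * (v i k) ^ 2

/-- weighted square norm on the dead coordinates -/
noncomputable def Dif (g : Stg d) (s : ℕ) (x : Fin d → ℝ) : ℝ :=
  ∑ k ∈ univ.filter (fun k => g.t k < s), (2 : ℝ) ^ (s - g.t k) * (x k) ^ 2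

/-- square norm on the coordinates that have just stopped being alive -/
noncomputable def Usq (g : Stg d) (s : ℕ) (x : Fin d → ℝ) : ℝ :=
  ∑ k ∈ univ.filter (fun k => g.t k = s), (x k) ^ 2

noncomputable def Stg.W (g : Stg d) (s : ℕ) : ℝ :=
  ∑ k ∈ univ.filter (fun k => g.t k < s), (1 / 2 : ℝ) ^ (s - g.t k)

/-- initial square sums over the coordinates `s ≤ t k` -/
noncomputable def Nst (g : Stg d) (s : ℕ) (k0 : Fin d) (x : Fin d → ℝ) : ℝ :=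
  ∑ k ∈ univ.filter (fun k => s ≤ g.t k ∧ k ≤ k0), (x k) ^ 2

def Stg.cnt (g : Stg d) (s : ℕ) (k0 : Fin d) : ℕ :=
  (univ.filter (fun k => s ≤ g.t k ∧ k ≤ k0)).card

/-- initial square sums over the alive coordinates `s < t k` -/
noncomputable def Ast (g : Stg d) (s : ℕ) (k0 : Fin d) (x : Fin d → ℝ) : ℝ :=
  ∑ k ∈ univ.filter (fun k => s < g.t k ∧ k ≤ k0), (x k) ^ 2

/-- potential of a boundary -/
noncomputable def Psi (g : Stg d) (s : ℕ) (x : Fin d → ℝ) : ℝ :=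
  ∑ k ∈ univ.filter (fun k => g.t k ≤ s), (1 + 2 * (1 / 2 : ℝ) ^ (s - g.t k)) * (x k) ^ 2

/-- potential of a boundary in the middle of a stage -/
noncomputable def PsiM (g : Stg d) (s : ℕ) (x : Fin d → ℝ) : ℝ :=
  ∑ k ∈ univ.filter (fun k => g.t k ≤ s), (1 + (3 / 2) * (1 / 2 : ℝ) ^ (s - g.t k)) * (x k) ^ 2

open Classical in
/-- indicator of stages at which a coordinate stops being alive -/
noncomputable def Stg.ind (g : Stg d) (s : ℕ) : ℝ := if ∃ k, g.t k = s then 1 else 0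

/-- budget for `Rs` -/
noncomputable def Rb (g : Stg d) : ℕ → ℝ
  | 0 => 1
  | (s + 1) => Rb g s / 16 + g.ind s

/-- budget for the differences on dead coordinates -/
noncomputable def Db (c : Cst) (g : Stg d) : ℕ → ℝ
  | 0 => 0
  | (s + 1) => Db c g s / 16 + 10 ^ 5 * c.Y *
      (Rb g s * (g.W s + g.m s) + g.ind s * (g.M s + g.m s))

/-- budget for the potential -/
noncomputable def Be (c : Cst) (g : Stg d) : ℕ → ℝ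
  | 0 => 0
  | (s + 1) => Be c g s + 10 ^ 5 * c.Y *
      (Db c g s + Rb g s * (g.W s + g.m s) + g.ind s * (g.M s + g.m s) + g.ind (s + 1) * g.m s)

/-- SUM -/
def SumStatement : Prop :=
  ∀ c : Cst, c.Good → ∃ B : ℝ, 0 < B ∧ ∀ (d : ℕ) (g : Stg d), 1 ≤ d → StgGood c g →
    ∀ s, Be c g s ≤ B * d

/-! ## 4. Linear algebra, weights, matching -/

/-- TILT -/
def TiltStatement : Prop :=
  ∀ (ι κ : Type) [Fintype κ] [DecidableEq κ] (M : Finset ι) (v : ι → κ → ℝ) (H U : Finset κ),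
    Disjoint H U → ∀ (ell : κ → ℝ) (ζ : ℝ), (∀ k ∈ H, 0 < ell k) → 0 < ζ →
    (∀ w : κ → ℝ, (∀ k, k ∉ H → k ∉ U → w k = 0) →
      ∑ k ∈ H, ell k * (w k) ^ 2 - ζ * ∑ k ∈ U, (w k) ^ 2 ≤ ∑ i ∈ M, (∑ k, v i k * w k) ^ 2) →
    ∀ c : κ → ℝ, ∃ x : κ → ℝ, (∀ k, k ∉ H → k ∉ U → x k = 0) ∧
      (∀ k ∈ H, ∑ i ∈ M, (∑ l, v i l * x l) * v i k = c k) ∧
      (∀ k ∈ U, ∑ i ∈ M, (∑ l, v i l * x l) * v i k = -2 * ζ * x k) ∧
      ∑ k ∈ H, ell k * (x k) ^ 2 + ζ * ∑ k ∈ U, (x k) ^ 2 ≤ ∑ k ∈ H, (c k) ^ 2 / ell k ∧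
      ∑ i ∈ M, (∑ l, v i l * x l) ^ 2 ≤ ∑ k ∈ H, (c k) ^ 2 / ell k

/-- WT: facts about the weights -/
structure WtFacts (c : Cst) (g : Stg d) : Prop where
  p_pos : ∀ s, 0 < c.p g s
  lm_step : ∀ s k, c.lm g (s + 1) k = c.lm g s k / c.K g s
  lm_pos : ∀ s k, 0 < c.lm g s k
  lm_one : ∀ s k, s < g.t k → 1 ≤ c.lm g s k
  wt_ge : ∀ s k, s ≤ g.t k → c.Y ≤ c.wt g s k
  wt_alive : ∀ s k, s < g.t k → c.wt g s k ≤ c.lm g s k / 400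
  wt_inv : ∀ s, 1 ≤ s → ∑ k ∈ univ.filter (fun k => s ≤ g.t k), 1 / c.wt g s k ≤
    3 / (c.Y * g.M s)
  wt_sq : ∀ s, 1 ≤ s → ∑ k ∈ univ.filter (fun k => s ≤ g.t k),
    (2 * c.lm g s k + 6 * c.wt g s k) / (c.wt g s k) ^ 2 ≤ 1
  wt_step : ∀ s k, s + 1 ≤ g.t k → 3 / (c.K g s : ℝ) * c.wt g s k ≤ c.wt g (s + 1) k / 4
  tilt_sq : ∀ s, 1 ≤ s → ∀ a : Fin d → ℝ, (∀ k0, Ast g s k0 a ≤ c.Y * (g.cnt s k0 + g.M s)) →
    ∑ k ∈ univ.filter (fun k => s < g.t k), (a k) ^ 2 / c.lm g s k ≤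
      3 * c.Y / (c.Th * (g.M s : ℝ) ^ 3)
  lm_trans : ∀ k, c.lm g (g.t k) k ≤ 64 * c.Th * (g.m (g.t k) : ℝ) ^ 5

def WtStatement : Prop :=
  ∀ c : Cst, c.Good → ∀ (d : ℕ) (g : Stg d), StgGood c g → WtFacts c g

/-- MATCH: placing the heavy vectors at distinct cuts -/
def MatchStatement : Prop :=
  ∀ (ι : Type) [DecidableEq ι] (Hv : Finset ι) (p : ι → ℕ) (K : ℕ) (J : ℝ), 16 ≤ K →
    16 * Hv.card ≤ K → (∀ i ∈ Hv, 1 ≤ p i ∧ p i ≤ K) →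
    (∀ q ≤ K, |((Hv.filter (fun i => p i ≤ q)).card : ℝ) - (q : ℝ) / K * Hv.card| ≤ J) →
    ∃ cc : ι → ℕ, (∀ i ∈ Hv, 1 ≤ cc i ∧ cc i + 1 ≤ K) ∧ Set.InjOn cc Hv ∧
      ∀ q ≤ K, ∀ A : Finset ι, (A = Hv.filter (fun i => cc i < q) ∨
          A = Hv.filter (fun i => cc i ≤ q)) →
        ((A \ Hv.filter (fun i => p i ≤ q)).card : ℝ) ≤ J + 3 ∧
        ((Hv.filter (fun i => p i ≤ q) \ A).card : ℝ) ≤ J + 3

/-! ## 5. The two local steps -/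

/-- P1: re-rounding of one cut -/
def P1Statement : Prop :=
  ∀ c : Cst, c.Good → ∀ (d : ℕ) (g : Stg d), StgGood c g →
  ∀ (ι : Type) [DecidableEq ι] (v : ι → Fin d → ℝ), (∀ i, ∑ k, (v i k) ^ 2 ≤ 1) →
  ∀ (s : ℕ), 1 ≤ s → ∀ (ϑ R : ℝ), 0 ≤ ϑ → ϑ ≤ 2 → 0 < R → ∀ (S S2 : Finset ι), Disjoint S S2 →
  Close c g v s ϑ S → Close c g v s ϑ S2 → Rs g v s S ≤ R → Rs g v s S2 ≤ R →
  ∀ (a0 a3 h : Fin d → ℝ), ∑ k, (h k) ^ 2 ≤ 1 →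
  (∀ k, a3 k = a0 k + ∑ i ∈ S, v i k + h k + ∑ i ∈ S2, v i k) →
  (∀ k0, Ast g s k0 a0 ≤ c.Y * (g.cnt s k0 + g.M s)) →
  (∀ k0, Ast g s k0 a3 ≤ c.Y * (g.cnt s k0 + g.M s)) →
  ∃ S' S2' : Finset ι, Disjoint S' S2' ∧ S' ∪ S2' = S ∪ S2 ∧
    Close c g v s (ϑ + 1) S' ∧ Close c g v s (ϑ + 1) S2' ∧
    (∀ k0, Ast g s k0 (fun k => a0 k + ∑ i ∈ S', v i k + h k / 2) ≤
      c.Y / 50 * (g.cnt s k0 + 1)) ∧
    ∃ e : Fin d → ℝ,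
      (∀ k, g.t k ≤ s → ∑ i ∈ S', v i k =
        (1 / 2) * (∑ i ∈ S, v i k + ∑ i ∈ S2, v i k) + e k) ∧
      Usq g s e ≤ c.Y * (g.u s + 1) ∧ Dif g s e ≤ c.Y * R * (g.W s + 1)

/-- P2: splitting of one part -/
def P2Statement : Prop :=
  ∀ c : Cst, c.Good → ∀ (d : ℕ) (g : Stg d), StgGood c g →
  ∀ (ι : Type) [DecidableEq ι] (v : ι → Fin d → ℝ), (∀ i, ∑ k, (v i k) ^ 2 ≤ 1) →
  ∀ (s : ℕ) (R : ℝ), 0 < R → ∀ (S : Finset ι), Close c g v s 3 S → Rs g v s S ≤ R →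
  ∃ loc : ι → ℕ, (∀ i ∈ S, 1 ≤ loc i ∧ loc i < 2 * c.K g s) ∧
    (∀ r, (S.filter (fun i => loc i = 2 * r)).card ≤ 1) ∧
    (∀ r < c.K g s, Close c g v (s + 1) 1 (S.filter (fun i => loc i = 2 * r + 1)) ∧
      Rs g v (s + 1) (S.filter (fun i => loc i = 2 * r + 1)) ≤ R / 64 + g.ind s) ∧
    ∀ j, 1 ≤ j → j ≤ 2 * c.K g s →
      (∀ k0, Nst g s k0 (fun k => ∑ i ∈ S.filter (fun i => loc i < j), v i k
          - (((j / 2 : ℕ) : ℝ) / c.K g s) * ∑ i ∈ S, v i k) ≤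
        c.Y / 10 * (g.cnt s k0 + g.m s)) ∧
      Dif g s (fun k => ∑ i ∈ S.filter (fun i => loc i < j), v i k
          - (((j / 2 : ℕ) : ℝ) / c.K g s) * ∑ i ∈ S, v i k) ≤
        c.Y * R * (g.W s + g.m s)

/-! ## 6. Global invariants.  Parts have odd positions `2q+1` (`q < N`), separators even ones. -/

/-- sum of the vectors at positions `< j` -/
def pre {ι : Type} [Fintype ι] (v : ι → Fin d → ℝ) (pos : ι → ℕ) (j : ℕ) : Fin d → ℝ :=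
  fun k => ∑ i ∈ univ.filter (fun i => pos i < j), v i k

/-- the part number `q` -/
def part {ι : Type} [Fintype ι] (pos : ι → ℕ) (q : ℕ) : Finset ι :=
  univ.filter (fun i => pos i = 2 * q + 1)

structure Inv (c : Cst) (g : Stg d) {ι : Type} [Fintype ι] (v : ι → Fin d → ℝ) (s N : ℕ)
    (pos : ι → ℕ) : Prop where
  N_pos : 1 ≤ N
  one : s = 0 → N = 1
  pos_ge : ∀ i, 1 ≤ pos i
  pos_lt : ∀ i, pos i < 2 * N
  sep : ∀ q, (univ.filter (fun i => pos i = 2 * q)).card ≤ 1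
  close : ∀ q < N, Close c g v s 1 (part pos q)
  rs : ∀ q < N, Rs g v s (part pos q) ≤ Rb g s
  db : ∀ q < N, Dif g s (fun k => ∑ i ∈ part pos q, v i k) ≤ Db c g s
  nst : ∀ j, 1 ≤ j → j ≤ 2 * N → ∀ k0, Nst g s k0 (pre v pos j) ≤
    c.Y * (g.cnt s k0 + g.M s)
  psi : ∀ j, 1 ≤ j → j ≤ 2 * N → Psi g s (pre v pos j) ≤ Be c g s

/-- invariants in the middle of stage `s` (all cuts have been re-rounded) -/
structure Mid (c : Cst) (g : Stg d) {ι : Type} [Fintype ι] (v : ι → Fin d → ℝ) (s N : ℕ)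
    (pos : ι → ℕ) : Prop where
  N_pos : 1 ≤ N
  pos_ge : ∀ i, 1 ≤ pos i
  pos_lt : ∀ i, pos i < 2 * N
  sep : ∀ q, (univ.filter (fun i => pos i = 2 * q)).card ≤ 1
  close : ∀ q < N, Close c g v s 3 (part pos q)
  rs : ∀ q < N, Rs g v s (part pos q) ≤ 4 * Rb g s
  db : ∀ q < N, Dif g s (fun k => ∑ i ∈ part pos q, v i k) ≤
    2 * Db c g s + 20 * c.Y * Rb g s * (g.W s + 1)
  usq : ∀ j, 1 ≤ j → j ≤ 2 * N → Usq g s (pre v pos j) ≤ 100 * c.Y * (g.u s + g.M s)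
  al : ∀ j, 1 ≤ j → j ≤ 2 * N → ∀ k0,
    Ast g s k0 (pre v pos j) ≤ c.Y / 25 * (g.cnt s k0 + 1) + 1 / 2
  psi : ∀ j, 1 ≤ j → j ≤ 2 * N → PsiM g s (pre v pos j) ≤
    Be c g s + 5000 * c.Y * (Db c g s + Rb g s * (g.W s + g.m s) + g.ind s * (g.M s + g.m s))

/-- STEPA (uses P1) -/
def StepAStatement : Prop :=
  ∀ c : Cst, c.Good → ∀ (d : ℕ) (g : Stg d), StgGood c g →
  ∀ (ι : Type) [Fintype ι] [DecidableEq ι] (v : ι → Fin d → ℝ), (∀ i, ∑ k, (v i k) ^ 2 ≤ 1) →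
  (∀ k, ∑ i, v i k = 0) → ∀ (s N : ℕ) (pos : ι → ℕ), Inv c g v s N pos →
  ∃ pos' : ι → ℕ, Mid c g v s N pos'

/-- STEPB (uses P2) -/
def StepBStatement : Prop :=
  ∀ c : Cst, c.Good → ∀ (d : ℕ) (g : Stg d), StgGood c g →
  ∀ (ι : Type) [Fintype ι] [DecidableEq ι] (v : ι → Fin d → ℝ), (∀ i, ∑ k, (v i k) ^ 2 ≤ 1) →
  (∀ k, ∑ i, v i k = 0) → ∀ (s N : ℕ) (pos : ι → ℕ), Mid c g v s N pos →
  ∃ (N' : ℕ) (pos' : ι → ℕ), Inv c g v (s + 1) N' pos'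

/-- CORE: ordering when all eigenvalues are positive and sorted -/
def CoreStatement : Prop :=
  ∃ B : ℝ, 0 < B ∧ ∀ (d : ℕ) (ι : Type) [Fintype ι] [DecidableEq ι] (v : ι → Fin d → ℝ),
    1 ≤ d → (∀ i, ∑ k, (v i k) ^ 2 ≤ 1) →
    (∀ k l, k ≠ l → ∑ i, v i k * v i l = 0) → (∀ k, ∑ i, v i k = 0) →
    (∀ k, 0 < ∑ i, (v i k) ^ 2) → Monotone (fun k => ∑ i, (v i k) ^ 2) →
    ∃ L : List ι, L.Nodup ∧ (∀ i, i ∈ L) ∧
      ∀ (n : ℕ), ∑ k, (((L.take n).map (fun i => v i k)).sum) ^ 2 ≤ B * d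

/-- TOP: the theorem -/
def TopStatement : Prop :=
  ∃ C : ℝ, 0 < C ∧ ∀ (d N : ℕ)
    (v : Fin N → EuclideanSpace ℝ (Fin d)), (∀ i, ‖v i‖ ≤ 1) → ∑ i, v i = 0 →
    ∃ π : Equiv.Perm (Fin N), ∀ n : ℕ,
      ‖∑ i ∈ Finset.univ.filter (fun i : Fin N => (i : ℕ) < n), v (π i)‖ ≤ C * Real.sqrt d

end P262S
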