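import Vale.Agent.P262S.GamTools

/-! P262S, module MARK: signs for nested blocks, from the Banaszczyk step. -/

namespace P262S

open Finset MeasureTheory

/-- pushing a body through a finite family of vectors -/
theorem ban_block (h : BanStatement) (n : ℕ) {ι : Type} [DecidableEq ι] (u : ι → E n)
    (B : Finset ι) : (∀ i ∈ B, ‖u i‖ ≤ 1 / 2048) →
    ∀ V : Set (E n), IsCompact V → Convex ℝ V → (∀ z ∈ V, -z ∈ V) →
    ENNReal.ofReal (9 / 10) * gam (Set.univ : Set (E n)) ≤ gam V →
    ∃ V' : Set (E n), IsCompact V' ∧ Convex ℝ V' ∧ (∀ z ∈ V', -z ∈ V') ∧ gam V ≤ gam V' ∧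
      ∀ z ∈ V', ∃ ε : ι → ℝ, (∀ i ∈ B, ε i = 1 ∨ ε i = -1) ∧ z + ∑ i ∈ B, ε i • u i ∈ V := by
  induction B using Finset.induction_on with
  | empty =>
    intro _ V h1 h2 h3 _
    exact ⟨V, h1, h2, h3, le_rfl, fun z hz => ⟨fun _ => 1, by simp, by simpa using hz⟩⟩
  | insert a B ha ih =>
    intro hu V h1 h2 h3 h4
    obtain ⟨V1, c1, c2, c3, c4, c5⟩ := ih (fun i hi => hu i (mem_insert_of_mem hi)) V h1 h2 h3 h4
    obtain ⟨V2, d1, d2, d3, d4, d5⟩ := h n V1 c1 c2 c3 (h4.trans c4) (u a)
      (hu a (mem_insert_self _ _))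
    refine ⟨V2, d1, d2, d3, c4.trans d4, fun z hz => ?_⟩
    have key : ∀ s : ℝ, (s = 1 ∨ s = -1) → z + s • u a ∈ V1 →
        ∃ ε : ι → ℝ, (∀ i ∈ insert a B, ε i = 1 ∨ ε i = -1) ∧
          z + ∑ i ∈ insert a B, ε i • u i ∈ V := by
      intro s hs hz1
      obtain ⟨ε, e1, e2⟩ := c5 _ hz1
      refine ⟨fun i => if i = a then s else ε i, ?_, ?_⟩
      · intro i hi
        by_cases hia : i = a
        · simpa [hia] using hs
        · simp only [hia, if_false]
          exact e1 i ((mem_insert.1 hi).resolve_left hia)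
      · rw [sum_insert ha]
        have : ∑ i ∈ B, (if i = a then s else ε i) • u i = ∑ i ∈ B, ε i • u i := by
          refine sum_congr rfl fun i hi => ?_
          have : i ≠ a := fun hh => ha (hh ▸ hi)
          rw [if_neg this]
        have h5 : (fun i => if i = a then s else ε i) a = s := by simp
        rw [this, h5, ← add_assoc]
        exact e2
    rcases d5 z hz with hz1 | hz1
    · exact key (-1) (Or.inr rfl) (by simpa [sub_eq_add_neg] using hz1)
    · exact key 1 (Or.inl rfl) (by simpa using hz1)

/-- a lower bound of the measure from an upper bound of the complement -/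
theorem gam_ge_of_compl {n : ℕ} {A : Set (E n)} (hA : MeasurableSet A) {a : ℝ} (ha : 0 ≤ a)
    (ha1 : a ≤ 1 / 10) (h : gam Aᶜ ≤ ENNReal.ofReal a * gam (Set.univ : Set (E n))) :
    ENNReal.ofReal (9 / 10) * gam (Set.univ : Set (E n)) ≤ gam A := by
  have h1 := gam_add_compl hA
  have hfin := (gam_univ_lt_top n).ne
  have h2 : ENNReal.ofReal (9 / 10) + ENNReal.ofReal (1 / 10) = 1 := by
    rw [← ENNReal.ofReal_add (by norm_num) (by norm_num)]; norm_num
  have h3 : gam Aᶜ ≤ ENNReal.ofReal (1 / 10) * gam (Set.univ : Set (E n)) :=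
    h.trans (mul_le_mul_left (ENNReal.ofReal_le_ofReal ha1) _)
  have h4 : ENNReal.ofReal (9 / 10) * gam (Set.univ : Set (E n)) +
      ENNReal.ofReal (1 / 10) * gam (Set.univ : Set (E n)) ≤
      gam A + ENNReal.ofReal (1 / 10) * gam (Set.univ : Set (E n)) := by
    rw [← add_mul, h2, one_mul]
    exact h1.ge.trans (add_le_add le_rfl h3)
  have h5 : ENNReal.ofReal (1 / 10) * gam (Set.univ : Set (E n)) ≠ ⊤ :=
    ENNReal.mul_ne_top ENNReal.ofReal_ne_top hfin
  exact (ENNReal.add_le_add_iff_right h5).1 h4

theorem gam_compl_le_of_le {n : ℕ} {A B : Set (E n)} (hA : MeasurableSet A)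
    (hB : MeasurableSet B) (h : gam A ≤ gam B) : gam Bᶜ ≤ gam Aᶜ := by
  have h1 := gam_add_compl hA
  have h2 := gam_add_compl hB
  have hfin : gam A ≠ ⊤ := ((gam_mono (Set.subset_univ A)).trans_lt (gam_univ_lt_top n)).ne
  have h3 : gam A + gam Bᶜ ≤ gam A + gam Aᶜ := by
    rw [h1, ← h2]; gcongr
  exact (ENNReal.add_le_add_iff_left hfin).1 h3

theorem mark (h : BanStatement) : MarkStatement := by
  intro n V hV1 hV2 hV3 K hK hV ι _ S u hu p hp
  have hKpos : (0 : ℝ) < K := by exact_mod_cast hK
  -- backward induction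
  have main : ∀ r ≤ K, ∃ W : Set (E n), IsCompact W ∧ Convex ℝ W ∧ (∀ z ∈ W, -z ∈ W) ∧
      W ⊆ V ∧
      gam Wᶜ ≤ ENNReal.ofReal ((r + 1 : ℕ) * (1 / (10 * K))) * gam (Set.univ : Set (E n)) ∧
      ∀ z ∈ W, ∃ ε : ι → ℝ, (∀ i ∈ S, ε i = 1 ∨ ε i = -1) ∧
        ∀ q, K - r ≤ q → q ≤ K →
          z + ∑ i ∈ S.filter (fun i => K - r < p i ∧ p i ≤ q), ε i • u i ∈ V := by
    intro r
    induction r with
    | zero =>
      intro _
      refine ⟨V, hV1, hV2, hV3, le_rfl, ?_, fun z hz => ⟨fun _ => 1, by simp, ?_⟩⟩
      · simpa using hV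
      · intro q hq1 hq2
        have : S.filter (fun i => K - 0 < p i ∧ p i ≤ q) = ∅ := by
          refine filter_eq_empty_iff.2 fun i _ hi => ?_
          omega
        rw [this]
        simpa using hz
    | succ r ih =>
      intro hr
      obtain ⟨W, w1, w2, w3, w4, w5, w6⟩ := ih (by omega)
      have hbig : ENNReal.ofReal (9 / 10) * gam (Set.univ : Set (E n)) ≤ gam W := by
        refine gam_ge_of_compl w1.isClosed.measurableSet (by positivity) ?_ w5
        rw [mul_one_div, div_le_div_iff₀ (by positivity) (by norm_num)]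
        have : ((r + 1 : ℕ) : ℝ) ≤ K := by exact_mod_cast hr
        linarith
      obtain ⟨W', v1, v2, v3, v4, v5⟩ := ban_block h n u (S.filter (fun i => p i = K - r))
        (fun i hi => hu i (mem_filter.1 hi).1) W w1 w2 w3 hbig
      refine ⟨W' ∩ V, v1.inter hV1, v2.inter hV2, fun z hz => ⟨v3 z hz.1, hV3 z hz.2⟩,
        Set.inter_subset_right, ?_, ?_⟩
      · have h1 : gam (W' ∩ V)ᶜ ≤ gam W'ᶜ + gam Vᶜ := by
          rw [Set.compl_inter]; exact gam_union_le _ _
        have h2 : gam W'ᶜ ≤ gam Wᶜ :=
          gam_compl_le_of_le w1.isClosed.measurableSet v1.isClosed.measurableSet v4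
        refine h1.trans ((add_le_add (h2.trans w5) hV).trans ?_)
        rw [← add_mul, ← ENNReal.ofReal_add (by positivity) (by positivity)]
        refine mul_le_mul_left (ENNReal.ofReal_le_ofReal ?_) _
        push_cast
        linarith
      · rintro z ⟨hz1, hz2⟩
        obtain ⟨ε1, a1, a2⟩ := v5 z hz1
        obtain ⟨ε2, b1, b2⟩ := w6 _ a2
        refine ⟨fun i => if p i = K - r then ε1 i else ε2 i, ?_, ?_⟩
        · intro i hi
          by_cases hpi : p i = K - r
          · simp only [hpi, if_true]
            exact a1 i (mem_filter.2 ⟨hi, hpi⟩)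
          · simp only [hpi, if_false]
            exact b1 i hi
        · intro q hq1 hq2
          by_cases hq : q = K - (r + 1)
          · have : S.filter (fun i => K - (r + 1) < p i ∧ p i ≤ q) = ∅ := by
              refine filter_eq_empty_iff.2 fun i _ hi => ?_
              omega
            rw [this]
            simpa using hz2
          · have hq3 : K - r ≤ q := by omega
            have := b2 q hq3 hq2
            have hsplit : S.filter (fun i => K - (r + 1) < p i ∧ p i ≤ q) =
                S.filter (fun i => p i = K - r) ∪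
                  S.filter (fun i => K - r < p i ∧ p i ≤ q) := by
              ext i
              simp only [mem_filter, mem_union]
              constructor
              · rintro ⟨h1, h2, h3⟩
                by_cases hh : p i = K - r
                · exact Or.inl ⟨h1, hh⟩
                · exact Or.inr ⟨h1, by omega, h3⟩
              · rintro (⟨h1, h2⟩ | ⟨h1, h2, h3⟩)
                · exact ⟨h1, by omega, by omega⟩
                · exact ⟨h1, by omega, h3⟩
            have hdis : Disjoint (S.filter (fun i => p i = K - r))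
                (S.filter (fun i => K - r < p i ∧ p i ≤ q)) := by
              rw [disjoint_left]
              intro i hi hi'
              have h1 := (mem_filter.1 hi).2
              have h2 := (mem_filter.1 hi').2.1
              omega
            rw [hsplit, sum_union hdis]
            have e1 : ∑ i ∈ S.filter (fun i => p i = K - r),
                (if p i = K - r then ε1 i else ε2 i) • u i =
                ∑ i ∈ S.filter (fun i => p i = K - r), ε1 i • u i :=
              sum_congr rfl fun i hi => by rw [if_pos (mem_filter.1 hi).2]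
            have e2 : ∑ i ∈ S.filter (fun i => K - r < p i ∧ p i ≤ q),
                (if p i = K - r then ε1 i else ε2 i) • u i =
                ∑ i ∈ S.filter (fun i => K - r < p i ∧ p i ≤ q), ε2 i • u i := by
              refine sum_congr rfl fun i hi => ?_
              have : p i ≠ K - r := by
                have := (mem_filter.1 hi).2.1
                omega
              rw [if_neg this]
            rw [e1, e2, ← add_assoc]
            exact this
  obtain ⟨W, w1, w2, w3, w4, w5, w6⟩ := main K le_rfl
  have hne : W.Nonempty := by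
    by_contra hW
    rw [Set.not_nonempty_iff_eq_empty] at hW
    rw [hW, Set.compl_empty] at w5
    have h1 : (K + 1 : ℕ) * (1 / (10 * (K : ℝ))) < 1 := by
      rw [mul_one_div, div_lt_one (by positivity)]
      push_cast
      have : (1 : ℝ) ≤ K := by exact_mod_cast hK
      linarith
    have h2 : ENNReal.ofReal ((K + 1 : ℕ) * (1 / (10 * (K : ℝ)))) *
        gam (Set.univ : Set (E n)) < 1 * gam (Set.univ : Set (E n)) := by
      refine (ENNReal.mul_lt_mul_iff_left (gam_univ_pos n).ne' (gam_univ_lt_top n).ne).2 ?_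
      rw [← ENNReal.ofReal_one]
      exact (ENNReal.ofReal_lt_ofReal_iff (by norm_num)).2 h1
    rw [one_mul] at h2
    exact absurd w5 (not_le.2 h2)
  obtain ⟨z0, hz0⟩ := hne
  have h0 : (0 : E n) ∈ W := by
    have := w2 hz0 (w3 z0 hz0) (a := 1 / 2) (b := 1 / 2) (by norm_num) (by norm_num) (by norm_num)
    simpa using this
  obtain ⟨ε, e1, e2⟩ := w6 0 h0
  refine ⟨ε, e1, fun q hq => ?_⟩
  have h3 := e2 q (by omega) hq
  have h4 : S.filter (fun i => K - K < p i ∧ p i ≤ q) = S.filter (fun i => p i ≤ q) := by
    refine filter_congr fun i hi => ?_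
    have := hp i hi
    omega
  rw [h4, zero_add] at h3
  exact h3

end P262S
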