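import Vale.Agent.P262S.Defs

/-! P262S, module MATCH: placing the heavy vectors at distinct cuts. -/

namespace P262S

open Finset

namespace MatchAux

/-- two down-closed sets -/
theorem sdiff_le {n : ℕ} (S T : Finset (Fin n)) (hS : ∀ r ∈ S, ∀ t, t ≤ r → t ∈ S)
    (hT : ∀ r ∈ T, ∀ t, t ≤ r → t ∈ T) (D : ℝ) (hD : |(S.card : ℝ) - T.card| ≤ D) :
    ((S \ T).card : ℝ) ≤ D := by
  have h0 : 0 ≤ D := (abs_nonneg _).trans hD
  by_cases h : S ⊆ T
  · rw [Finset.sdiff_eq_empty_iff_subset.mpr h]
    simpa using h0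
  · obtain ⟨r, hr, hrT⟩ := Finset.not_subset.mp h
    have hTS : T ⊆ S := by
      intro t ht
      by_contra hts
      have h1 : ¬ t ≤ r := fun h2 => hts (hS r hr t h2)
      exact hrT (hT t ht r (not_le.mp h1).le)
    have h2 : (S \ T).card + T.card = S.card := Finset.card_sdiff_add_card_eq_card hTS
    have h3 : ((S \ T).card : ℝ) = S.card - T.card := by
      have : ((S \ T).card : ℝ) + T.card = S.card := by exact_mod_cast h2
      linarith
    rw [h3]
    exact (le_abs_self _).trans hD

theorem card_lt {n m : ℕ} (h : m ≤ n) : (univ.filter (fun r : Fin n => (r : ℕ) < m)).card = m := by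
  have h1 : (univ.filter (fun r : Fin n => (r : ℕ) < m)).card =
      ((univ.filter (fun r : Fin n => (r : ℕ) < m)).image (fun r : Fin n => (r : ℕ))).card := by
    rw [Finset.card_image_of_injective _ Fin.val_injective]
  rw [h1]
  have h2 : (univ.filter (fun r : Fin n => (r : ℕ) < m)).image (fun r : Fin n => (r : ℕ)) =
      Finset.range m := by
    ext j
    simp only [Finset.mem_image, Finset.mem_filter, Finset.mem_univ, true_and, Finset.mem_range]
    constructor
    · rintro ⟨r, hr, rfl⟩
      exact hr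
    · intro hj
      exact ⟨⟨j, hj.trans_le h⟩, hj, rfl⟩
  rw [h2, Finset.card_range]

/-- card of the set of ranks with small cut -/
theorem card_S {n K X : ℕ} (hK : 0 < K) :
    ((univ.filter (fun r : Fin n => ((r : ℕ) + 1) * K < X * (n + 1))).card : ℝ) ≤
      (X : ℝ) * (n + 1) / K ∧
    min (n : ℝ) ((X : ℝ) * (n + 1) / K - 1) ≤
      (univ.filter (fun r : Fin n => ((r : ℕ) + 1) * K < X * (n + 1))).card := by
  have hK' : (0 : ℝ) < K := by exact_mod_cast hK
  set x : ℝ := (X : ℝ) * (n + 1) / K with hx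
  have hx0 : 0 ≤ x := by positivity
  have hiff : ∀ r : ℕ, (r + 1) * K < X * (n + 1) ↔ ((r : ℝ) + 1) < x := by
    intro r
    rw [hx, lt_div_iff₀ hK']
    exact_mod_cast Iff.rfl
  constructor
  · have h1 : univ.filter (fun r : Fin n => ((r : ℕ) + 1) * K < X * (n + 1)) ⊆
        univ.filter (fun r : Fin n => (r : ℕ) < min n ⌊x⌋₊) := by
      intro r
      simp only [Finset.mem_filter, Finset.mem_univ, true_and]
      intro h
      rw [hiff] at h
      have h2 : r.val + 1 ≤ ⌊x⌋₊ := by
        apply Nat.le_floor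
        push_cast
        exact h.le
      have := r.isLt
      omega
    have h2 := Finset.card_le_card h1
    rw [card_lt (min_le_left _ _)] at h2
    have h3 : ((univ.filter (fun r : Fin n => ((r : ℕ) + 1) * K < X * (n + 1))).card : ℝ) ≤
        ⌊x⌋₊ := by
      exact_mod_cast h2.trans (min_le_right _ _)
    exact h3.trans (Nat.floor_le hx0)
  · have h1 : univ.filter (fun r : Fin n => (r : ℕ) < min n (⌈x⌉₊ - 1)) ⊆
        univ.filter (fun r : Fin n => ((r : ℕ) + 1) * K < X * (n + 1)) := by
      intro r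
      simp only [Finset.mem_filter, Finset.mem_univ, true_and]
      intro h
      rw [hiff]
      have h2 : r.val + 1 < ⌈x⌉₊ := by omega
      rw [Nat.lt_ceil] at h2
      push_cast at h2
      exact h2
    have h2 := Finset.card_le_card h1
    rw [card_lt (min_le_left _ _)] at h2
    have h3 : ((min n (⌈x⌉₊ - 1) : ℕ) : ℝ) ≤
        (univ.filter (fun r : Fin n => ((r : ℕ) + 1) * K < X * (n + 1))).card := by
      exact_mod_cast h2
    refine le_trans ?_ h3
    rw [Nat.cast_min]
    apply min_le_min le_rfl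
    have h4 : x ≤ ⌈x⌉₊ := Nat.le_ceil x
    have h5 : (⌈x⌉₊ : ℝ) ≤ ((⌈x⌉₊ - 1 : ℕ) : ℝ) + 1 := by
      have : ⌈x⌉₊ ≤ (⌈x⌉₊ - 1) + 1 := by omega
      exact_mod_cast this
    linarith

end MatchAux

theorem mtch : MatchStatement := by
  intro ι _ Hv p K J hK hHv hp hJ
  classical
  set n := Hv.card with hn
  -- a sorted enumeration
  obtain ⟨f, hfinj, hfmem, hfsurj, hfmono⟩ : ∃ f : Fin n → ι, Function.Injective f ∧
      (∀ r, f r ∈ Hv) ∧ (∀ i ∈ Hv, ∃ r, f r = i) ∧ Monotone (fun r => p (f r)) := by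
    let e : Fin n ≃ Hv := (Hv.equivFin).symm
    let σ := Tuple.sort (fun r => p (e r))
    refine ⟨fun r => e (σ r), ?_, fun r => (e (σ r)).2, ?_, Tuple.monotone_sort (fun r => p (e r))⟩
    · intro a b h
      exact σ.injective (e.injective (Subtype.ext h))
    · intro i hi
      refine ⟨σ.symm (e.symm ⟨i, hi⟩), ?_⟩
      simp
  have hfilter : ∀ (P : ι → Prop) [DecidablePred P],
      (Hv.filter P).card = (univ.filter (fun r => P (f r))).card := by
    intro P _
    rw [← Finset.card_image_of_injective _ hfinj]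
    congr 1
    ext i
    simp only [Finset.mem_filter, Finset.mem_image, Finset.mem_univ, true_and]
    constructor
    · rintro ⟨h1, h2⟩
      obtain ⟨r, rfl⟩ := hfsurj i h1
      exact ⟨r, h2, rfl⟩
    · rintro ⟨r, h1, rfl⟩
      exact ⟨hfmem r, h1⟩
  let cc : ι → ℕ := fun i => if h : ∃ r, f r = i then ((h.choose : ℕ) + 1) * K / (n + 1) else 0
  have hcc : ∀ r, cc (f r) = ((r : ℕ) + 1) * K / (n + 1) := by
    intro r
    have h : ∃ r', f r' = f r := ⟨r, rfl⟩
    have h1 : cc (f r) = ((h.choose : ℕ) + 1) * K / (n + 1) := dif_pos h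
    rw [h1, hfinj h.choose_spec]
  clear_value cc
  have h8 : 8 * (n + 1) ≤ K := by omega
  refine ⟨cc, ?_, ?_, ?_⟩
  · intro i hi
    obtain ⟨r, rfl⟩ := hfsurj i hi
    rw [hcc]
    have hr := r.isLt
    constructor
    · rw [Nat.one_le_div_iff (by omega)]
      nlinarith
    · have : (r.val + 1) * K / (n + 1) < K := by
        rw [Nat.div_lt_iff_lt_mul (by omega)]
        nlinarith
      omega
  · intro i hi j hj hij
    obtain ⟨r, rfl⟩ := hfsurj i hi
    obtain ⟨t, rfl⟩ := hfsurj j hj
    rw [hcc, hcc] at hij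
    congr 1
    have key : ∀ a b : Fin n, a < b →
        ((a : ℕ) + 1) * K / (n + 1) < ((b : ℕ) + 1) * K / (n + 1) := by
      intro a b hab
      have hab' : a.val + 1 ≤ b.val := hab
      have h1 : ((a : ℕ) + 1) * K / (n + 1) + 1 = (((a : ℕ) + 1) * K + (n + 1)) / (n + 1) := by
        rw [Nat.add_div_right _ (by omega)]
      have h2 : (((a : ℕ) + 1) * K + (n + 1)) / (n + 1) ≤ ((b : ℕ) + 1) * K / (n + 1) := by
        apply Nat.div_le_div_right
        nlinarith
      omega
    rcases lt_trichotomy r t with h | h | h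
    · exact absurd hij (key r t h).ne
    · exact h
    · exact absurd hij (key t r h).ne'
  · intro q hq A hA
    -- unify the two cases
    obtain ⟨X, hX, hAX⟩ : ∃ X : ℕ, (X = q ∨ X = q + 1) ∧ A = Hv.filter (fun i => cc i < X) := by
      rcases hA with h | h
      · exact ⟨q, Or.inl rfl, h⟩
      · exact ⟨q + 1, Or.inr rfl, by rw [h]; simp⟩
    set S : Finset (Fin n) := univ.filter (fun r => cc (f r) < X) with hS
    set T : Finset (Fin n) := univ.filter (fun r => p (f r) ≤ q) with hT
    have hS' : S = univ.filter (fun r : Fin n => ((r : ℕ) + 1) * K < X * (n + 1)) := by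
      rw [hS]
      apply Finset.filter_congr
      intro r _
      rw [hcc, Nat.div_lt_iff_lt_mul (by omega)]
    have hST1 : (A \ Hv.filter (fun i => p i ≤ q)).card = (S \ T).card := by
      have h1 : A \ Hv.filter (fun i => p i ≤ q) = Hv.filter (fun i => cc i < X ∧ ¬ p i ≤ q) := by
        ext i
        simp only [hAX, Finset.mem_sdiff, Finset.mem_filter]
        tauto
      rw [h1, hfilter]
      congr 1
      ext r
      simp [hS, hT]
    have hST2 : (Hv.filter (fun i => p i ≤ q) \ A).card = (T \ S).card := by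
      have h1 : Hv.filter (fun i => p i ≤ q) \ A = Hv.filter (fun i => p i ≤ q ∧ ¬ cc i < X) := by
        ext i
        simp only [hAX, Finset.mem_sdiff, Finset.mem_filter]
        tauto
      rw [h1, hfilter]
      congr 1
      ext r
      simp [hS, hT]
    have hSd : ∀ r ∈ S, ∀ t, t ≤ r → t ∈ S := by
      intro r hr t htr
      rw [hS'] at hr ⊢
      simp only [Finset.mem_filter, Finset.mem_univ, true_and] at hr ⊢
      have h1 : t.val ≤ r.val := htr
      have h2 : (t.val + 1) * K ≤ (r.val + 1) * K := Nat.mul_le_mul_right _ (by omega)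
      omega
    have hTd : ∀ r ∈ T, ∀ t, t ≤ r → t ∈ T := by
      intro r hr t htr
      simp only [hT, Finset.mem_filter, Finset.mem_univ, true_and] at hr ⊢
      exact (hfmono htr).trans hr
    have hcardT : (T.card : ℝ) = ((Hv.filter (fun i => p i ≤ q)).card : ℝ) := by
      rw [hfilter]
    have hK0 : (0 : ℝ) < K := by
      have : 0 < K := by omega
      exact_mod_cast this
    have hqK : (q : ℝ) / K ≤ 1 := by
      rw [div_le_one hK0]
      exact_mod_cast hq
    have hn8 : ((n : ℝ) + 1) / K ≤ 1 / 8 := by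
      rw [div_le_iff₀ hK0]
      have : (8 : ℝ) * (n + 1) ≤ K := by exact_mod_cast h8
      linarith
    obtain ⟨c1, c2⟩ := MatchAux.card_S (n := n) (X := X) (K := K) (by omega)
    rw [← hS'] at c1 c2
    have hJq := hJ q hq
    rw [← hcardT] at hJq
    have hXr : (q : ℝ) ≤ X ∧ (X : ℝ) ≤ q + 1 := by
      rcases hX with h | h
      · rw [h]; constructor <;> linarith
      · rw [h]; push_cast; constructor <;> linarith
    have hmul : ∀ Z : ℝ, Z * ((n : ℝ) + 1) / K = Z * (((n : ℝ) + 1) / K) := fun Z => by ring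
    have hq0 : (0 : ℝ) ≤ q := Nat.cast_nonneg q
    have hnn : 0 ≤ ((n : ℝ) + 1) / K := by positivity
    have hup : (S.card : ℝ) ≤ (q : ℝ) / K * n + 2 := by
      have h1 : (X : ℝ) * (((n : ℝ) + 1) / K) ≤ (q + 1) * (((n : ℝ) + 1) / K) :=
        mul_le_mul_of_nonneg_right hXr.2 hnn
      have h2 : ((q : ℝ) + 1) * (((n : ℝ) + 1) / K) =
          (q : ℝ) / K * n + (q : ℝ) / K + ((n : ℝ) + 1) / K := by ring
      rw [hmul] at c1
      linarith
    have hlow : (q : ℝ) / K * n - 1 ≤ S.card := by
      refine le_trans ?_ c2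
      apply le_min
      · have : (q : ℝ) / K * n ≤ 1 * n := mul_le_mul_of_nonneg_right hqK (Nat.cast_nonneg n)
        linarith
      · have h1 : (q : ℝ) * (((n : ℝ) + 1) / K) ≤ (X : ℝ) * (((n : ℝ) + 1) / K) :=
          mul_le_mul_of_nonneg_right hXr.1 hnn
        have h2 : (q : ℝ) * (((n : ℝ) + 1) / K) = (q : ℝ) / K * n + (q : ℝ) / K := by ring
        have h3 : 0 ≤ (q : ℝ) / K := by positivity
        rw [hmul]
        linarith
    have habs : |(S.card : ℝ) - T.card| ≤ J + 3 := by
      rw [abs_le] at hJq ⊢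
      constructor <;> linarith [hJq.1, hJq.2]
    constructor
    · rw [hST1]
      exact MatchAux.sdiff_le S T hSd hTd _ habs
    · rw [hST2]
      exact MatchAux.sdiff_le T S hTd hSd _ (by rwa [abs_sub_comm])

end P262S
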