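import Vale.Agent.P262S.P1b

/-! P262S, module P1: re-rounding of one cut. -/

namespace P262S

open Finset

theorem W_nonneg {d : ℕ} (g : Stg d) (s : ℕ) : 0 ≤ g.W s :=
  sum_nonneg fun _ _ => by positivity

theorem dif_add_le {d : ℕ} (g : Stg d) (s : ℕ) (a b : Fin d → ℝ) :
    Dif g s (fun k => a k + b k) ≤ 2 * Dif g s a + 2 * Dif g s b := by
  unfold Dif
  rw [mul_sum, mul_sum, ← sum_add_distrib]
  refine sum_le_sum fun k _ => ?_
  have h1 : (0 : ℝ) < 2 ^ (s - g.t k) := by positivity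
  nlinarith [mul_nonneg h1.le (sq_nonneg (a k - b k))]

theorem usq_add_le {d : ℕ} (g : Stg d) (s : ℕ) (a b : Fin d → ℝ) :
    Usq g s (fun k => a k + b k) ≤ 2 * Usq g s a + 2 * Usq g s b := by
  unfold Usq
  rw [mul_sum, mul_sum, ← sum_add_distrib]
  refine sum_le_sum fun k _ => ?_
  nlinarith [sq_nonneg (a k - b k)]

/-- the closeness of a rounded set -/
theorem p1_close {c : Cst} (hc : c.Good) {d : ℕ} {g : Stg d} (W : WtFacts c g) {ι : Type}
    [DecidableEq ι] (v : ι → Fin d → ℝ) (hv : ∀ i, ∑ k, (v i k) ^ 2 ≤ 1) (s : ℕ) (hs : 1 ≤ s)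
    (ϑ : ℝ) (hϑ2 : ϑ ≤ 2) (S S2 : Finset ι) (hdis : Disjoint S S2)
    (h1 : Close c g v s ϑ S) (h2 : Close c g v s ϑ S2) (τ δ z : ι → ℝ)
    (hτ : ∑ i ∈ S ∪ S2, (τ i) ^ 2 ≤ (1 / 4) ^ 2)
    (hδ : ∑ k ∈ univ.filter (fun k => s ≤ g.t k), ∑ l ∈ univ.filter (fun k => s ≤ g.t k),
        (∑ i ∈ S ∪ S2, δ i * (v i k * v i l)) ^ 2 / (c.wt g s k * c.wt g s l) ≤ (1 / 4) ^ 2)
    (hz : ∀ i ∈ S ∪ S2, z i = 1 / 2 + τ i + δ i) (w : Fin d → ℝ)
    (hw : ∀ k, g.t k < s → w k = 0) :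
    |∑ i ∈ S ∪ S2, z i * (∑ k, v i k * w k) ^ 2 - ∑ k, c.lm g s k * (w k) ^ 2| ≤
      (ϑ + 1) * ∑ k, c.wt g s k * (w k) ^ 2 := by
  have hY := hc.Ybig
  have hY0 : 0 < c.Y := by linarith
  set A := univ.filter (fun k => s ≤ g.t k) with hA
  have hwt0 : ∀ k ∈ A, 0 < c.wt g s k := fun k hk =>
    hY0.trans_le (W.wt_ge s k (mem_filter.1 hk).2)
  have hvw : ∀ i, ∑ k, v i k * w k = ∑ k ∈ A, v i k * w k := by
    intro i
    rw [hA, sum_filter]
    refine sum_congr rfl fun k _ => ?_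
    by_cases hk : s ≤ g.t k
    · rw [if_pos hk]
    · rw [if_neg hk, hw k (by omega)]; ring
  have hDw : ∑ k, c.wt g s k * (w k) ^ 2 = ∑ k ∈ A, c.wt g s k * (w k) ^ 2 := by
    rw [hA, sum_filter]
    refine sum_congr rfl fun k _ => ?_
    by_cases hk : s ≤ g.t k
    · rw [if_pos hk]
    · rw [if_neg hk, hw k (by omega)]; ring
  have hen : ∑ k ∈ A, (∑ i ∈ S ∪ S2, (v i k) ^ 2) / (c.wt g s k) ^ 2 ≤ 1 := by
    refine le_trans (sum_le_sum fun k hk => ?_) (W.wt_sq s hs)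
    apply div_le_div_of_nonneg_right _ (sq_nonneg _)
    rw [sum_union hdis]
    have hk' := (mem_filter.1 hk).2
    have e1 := p1_energy v s ϑ S h1 k hk'
    have e2 := p1_energy v s ϑ S2 h2 k hk'
    have e3 := (hwt0 k hk).le
    nlinarith
  have hb1 := p1_tau (S ∪ S2) A (c.wt g s) hwt0 v (by
    intro i _
    exact (sum_le_univ_sum_of_nonneg fun k => sq_nonneg (v i k)).trans (hv i)) τ (1 / 4)
    (by norm_num) hτ hen w
  have hb2 := p1_quad A (c.wt g s) hwt0 (fun k l => ∑ i ∈ S ∪ S2, δ i * (v i k * v i l))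
    (1 / 4) (by norm_num) hδ w
  have hq : ∑ k ∈ A, ∑ l ∈ A, (∑ i ∈ S ∪ S2, δ i * (v i k * v i l)) * (w k * w l) =
      ∑ i ∈ S ∪ S2, δ i * (∑ k ∈ A, v i k * w k) ^ 2 := by
    have e1 : ∀ i, δ i * (∑ k ∈ A, v i k * w k) ^ 2 =
        ∑ k ∈ A, ∑ l ∈ A, δ i * (v i k * v i l) * (w k * w l) := by
      intro i
      rw [sq, sum_mul_sum, mul_sum]
      refine sum_congr rfl fun k _ => ?_
      rw [mul_sum]
      exact sum_congr rfl fun l _ => by ring
    have e2 : ∑ i ∈ S ∪ S2, δ i * (∑ k ∈ A, v i k * w k) ^ 2 =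
        ∑ i ∈ S ∪ S2, ∑ k ∈ A, ∑ l ∈ A, δ i * (v i k * v i l) * (w k * w l) :=
      sum_congr rfl fun i _ => e1 i
    have e3 : ∑ i ∈ S ∪ S2, ∑ k ∈ A, ∑ l ∈ A, δ i * (v i k * v i l) * (w k * w l) =
        ∑ k ∈ A, ∑ i ∈ S ∪ S2, ∑ l ∈ A, δ i * (v i k * v i l) * (w k * w l) := sum_comm
    rw [e2, e3]
    refine sum_congr rfl fun k _ => ?_
    have e4 : ∑ i ∈ S ∪ S2, ∑ l ∈ A, δ i * (v i k * v i l) * (w k * w l) =
        ∑ l ∈ A, ∑ i ∈ S ∪ S2, δ i * (v i k * v i l) * (w k * w l) := sum_comm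
    rw [e4]
    refine sum_congr rfl fun l _ => ?_
    rw [sum_mul]
  rw [hq] at hb2
  have c1 := h1 w hw
  have c2 := h2 w hw
  have hz2 : ∑ i ∈ S ∪ S2, z i * (∑ k, v i k * w k) ^ 2 =
      (1 / 2) * (∑ i ∈ S, (∑ k, v i k * w k) ^ 2 + ∑ i ∈ S2, (∑ k, v i k * w k) ^ 2) +
      ∑ i ∈ S ∪ S2, τ i * (∑ k ∈ A, v i k * w k) ^ 2 +
      ∑ i ∈ S ∪ S2, δ i * (∑ k ∈ A, v i k * w k) ^ 2 := by
    rw [← sum_union hdis, mul_sum, ← sum_add_distrib, ← sum_add_distrib]
    refine sum_congr rfl fun i hi => ?_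
    rw [hz i hi, hvw i]
    ring
  rw [hz2]
  rw [← hDw] at hb1 hb2
  have hD0 : 0 ≤ ∑ k, c.wt g s k * (w k) ^ 2 := by
    rw [hDw]
    exact sum_nonneg fun k hk => mul_nonneg (hwt0 k hk).le (sq_nonneg _)
  rw [abs_le] at c1 c2 hb1 hb2 ⊢
  constructor <;> nlinarith [c1.1, c1.2, c2.1, c2.2, hb1.1, hb1.2, hb2.1, hb2.2]

theorem p1 (hr : RoundStatement) (ht : TiltStatement) (hw : WtStatement) : P1Statement := by
  intro c hc d g hg ι _ v hv s hs ϑ R hϑ0 hϑ2 hR S S2 hdis hcS hcS2 hRS hRS2 a0 a3 h hh ha3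
    hA0 hA3
  classical
  have W := hw c hc d g hg
  have hY := hc.Ybig
  have hY0 : 0 < c.Y := by linarith
  have hYC := hc.YC0
  have hC0 : 1 ≤ C0 := by unfold C0; norm_num
  obtain ⟨x, hx0, hxH, hxU, hxn, hxτ⟩ :=
    p1_tilt ht hc hg W v s hs ϑ hϑ2 S S2 hdis hcS hcS2 a0 a3 hA0 hA3
  set τ : ι → ℝ := fun i => ∑ l, v i l * x l with hτ
  have hτ_abs : ∀ i, -(1 / 2) ≤ τ i ∧ τ i ≤ 1 / 2 := by
    intro i
    have e1 : (τ i) ^ 2 ≤ (1 / 2) ^ 2 := by
      refine (sum_mul_sq_le_sq_mul_sq univ (v i) x).trans ?_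
      have e2 := hv i
      have e3 : 0 ≤ ∑ k, (x k) ^ 2 := sum_nonneg fun _ _ => sq_nonneg _
      have e4 : 0 ≤ ∑ k, (v i k) ^ 2 := sum_nonneg fun _ _ => sq_nonneg _
      nlinarith
    exact abs_le_of_sq_le_sq' e1 (by norm_num)
  have hRM : ∀ i ∈ S ∪ S2, ∑ k ∈ univ.filter (fun k => g.t k < s),
      (4 : ℝ) ^ (s - g.t k) * (v i k) ^ 2 ≤ R := by
    intro i hi
    have hnn : ∀ i, 0 ≤ ∑ k ∈ univ.filter (fun k => g.t k < s),
      (4 : ℝ) ^ (s - g.t k) * (v i k) ^ 2 := fun i =>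
        sum_nonneg fun _ _ => mul_nonneg (by positivity) (sq_nonneg _)
    rcases mem_union.1 hi with hi | hi
    · exact (single_le_sum (f := fun i => ∑ k ∈ univ.filter (fun k => g.t k < s),
        (4 : ℝ) ^ (s - g.t k) * (v i k) ^ 2) (fun j _ => hnn j) hi).trans hRS
    · exact (single_le_sum (f := fun i => ∑ k ∈ univ.filter (fun k => g.t k < s),
        (4 : ℝ) ^ (s - g.t k) * (v i k) ^ 2) (fun j _ => hnn j) hi).trans hRS2
  obtain ⟨y, hy, hya, hyb, hyc⟩ := p1_round hr hc hg W v hv s hs R hR (S ∪ S2) hRM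
    (fun i => 1 / 2 + τ i) (by
      intro i _
      have := hτ_abs i
      constructor <;> linarith [this.1, this.2])
  -- sums over the two new sets
  have hsum1 : ∀ f : ι → ℝ, ∑ i ∈ (S ∪ S2).filter (fun i => y i = 1), f i =
      ∑ i ∈ S ∪ S2, y i * f i := by
    intro f
    rw [sum_filter]
    refine sum_congr rfl fun i hi => ?_
    rcases hy i hi with h0 | h0
    · rw [h0, if_neg (by norm_num)]; ring
    · rw [h0, if_pos rfl]; ring
  have hsum2 : ∀ f : ι → ℝ, ∑ i ∈ (S ∪ S2).filter (fun i => ¬ y i = 1), f i =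
      ∑ i ∈ S ∪ S2, (1 - y i) * f i := by
    intro f
    rw [sum_filter]
    refine sum_congr rfl fun i hi => ?_
    rcases hy i hi with h0 | h0
    · rw [h0, if_pos (by norm_num)]; ring
    · rw [h0, if_neg (by norm_num)]; ring
  set F : Fin d → ℝ := fun k => ∑ i ∈ S ∪ S2, (y i - (1 / 2 + τ i)) * v i k with hF
  set Q : Fin d → ℝ := fun k => ∑ i ∈ S ∪ S2, τ i * v i k with hQ
  have hS' : ∀ k, ∑ i ∈ (S ∪ S2).filter (fun i => y i = 1), v i k =
      (1 / 2) * (∑ i ∈ S, v i k + ∑ i ∈ S2, v i k) + (Q k + F k) := by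
    intro k
    rw [hsum1, ← sum_union hdis, mul_sum, hQ, hF]
    simp only
    rw [← sum_add_distrib, ← sum_add_distrib]
    exact sum_congr rfl fun i _ => by ring
  refine ⟨(S ∪ S2).filter (fun i => y i = 1), (S ∪ S2).filter (fun i => ¬ y i = 1),
    disjoint_filter_filter_not _ _ _, filter_union_filter_not_eq _ _, ?_, ?_, ?_,
    fun k => Q k + F k, ?_, ?_, ?_⟩
  · intro w hw0
    rw [hsum1]
    exact p1_close hc W v hv s hs ϑ hϑ2 S S2 hdis hcS hcS2 τ (fun i => y i - (1 / 2 + τ i)) y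
      (by norm_num at hxτ ⊢; exact hxτ) hyc (fun i _ => by ring) w hw0
  · intro w hw0
    rw [hsum2]
    refine p1_close hc W v hv s hs ϑ hϑ2 S S2 hdis hcS hcS2 (fun i => - τ i)
      (fun i => -(y i - (1 / 2 + τ i))) (fun i => 1 - y i) ?_ ?_ (fun i _ => by ring) w hw0
    · simp only [neg_sq]
      norm_num at hxτ ⊢
      exact hxτ
    · refine le_trans (le_of_eq ?_) hyc
      refine sum_congr rfl fun k _ => sum_congr rfl fun l _ => ?_
      congr 1
      rw [← neg_sq, ← sum_neg_distrib]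
      congr 1
      exact sum_congr rfl fun i _ => by ring
  · intro k0
    have hFal : ∀ k, s < g.t k → a0 k + ∑ i ∈ (S ∪ S2).filter (fun i => y i = 1), v i k +
        h k / 2 = F k := by
      intro k hk
      rw [hS' k]
      have e1 : Q k = -(a0 k + a3 k) / 2 := hxH k hk
      have e2 := ha3 k
      rw [e1]
      linarith
    by_cases hk0 : s ≤ g.t k0
    · have e1 := hya k0 hk0
      have e2 : Ast g s k0 (fun k => a0 k + ∑ i ∈ (S ∪ S2).filter (fun i => y i = 1), v i k +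
          h k / 2) ≤ ∑ k ∈ univ.filter (fun k => s ≤ g.t k ∧ k ≤ k0), (F k) ^ 2 := by
        unfold Ast
        calc ∑ k ∈ univ.filter (fun k => s < g.t k ∧ k ≤ k0),
              (a0 k + ∑ i ∈ (S ∪ S2).filter (fun i => y i = 1), v i k + h k / 2) ^ 2
            = ∑ k ∈ univ.filter (fun k => s < g.t k ∧ k ≤ k0), (F k) ^ 2 := by
              refine sum_congr rfl fun k hk => ?_
              rw [hFal k (mem_filter.1 hk).2.1]
          _ ≤ _ := by
              apply sum_le_sum_of_subset_of_nonneg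
              · intro k hk
                simp only [mem_filter, mem_univ, true_and] at hk ⊢
                exact ⟨hk.1.le, hk.2⟩
              · intro _ _ _
                exact sq_nonneg _
      refine e2.trans (e1.trans ?_)
      have e3 : (0 : ℝ) ≤ g.cnt s k0 := Nat.cast_nonneg _
      nlinarith
    · have e1 : Ast g s k0 (fun k => a0 k + ∑ i ∈ (S ∪ S2).filter (fun i => y i = 1), v i k +
          h k / 2) = 0 := by
        unfold Ast
        rw [filter_eq_empty_iff.2, sum_empty]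
        intro k _ hk
        have := hg.t_mono hk.2
        omega
      rw [e1]
      positivity
  · intro k _
    exact hS' k
  · -- Usq
    refine (usq_add_le g s Q F).trans ?_
    have eQ : Usq g s Q ≤ 1 := hxU
    have eF : Usq g s F ≤ C0 * (24 * g.u s + 80) := by
      rcases (univ.filter (fun k => g.t k = s)).eq_empty_or_nonempty with he | he
      · unfold Usq
        rw [he, sum_empty]
        positivity
      · set k0 := (univ.filter (fun k => g.t k = s)).max' he with hk0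
        have hk0t : g.t k0 = s := (mem_filter.1 (max'_mem _ he)).2
        have e1 := hya k0 hk0t.ge
        have e2 : univ.filter (fun k => s ≤ g.t k ∧ k ≤ k0) =
            univ.filter (fun k => g.t k = s) := by
          ext k
          simp only [mem_filter, mem_univ, true_and]
          constructor
          · rintro ⟨h3, h4⟩
            have := hg.t_mono h4
            omega
          · intro h3
            exact ⟨h3.ge, le_max' _ _ (by simp [h3])⟩
        have e3 : g.cnt s k0 = g.u s := by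
          unfold Stg.cnt Stg.u
          rw [e2]
        rw [e2, e3] at e1
        exact e1
    have e3 : (0 : ℝ) ≤ g.u s := Nat.cast_nonneg _
    nlinarith
  · -- Dif
    refine (dif_add_le g s Q F).trans ?_
    have eF : Dif g s F ≤ R * C0 * (8 * g.W s + 80) := hyb
    have eQ : Dif g s Q ≤ R / 8 := by
      unfold Dif
      have e1 : ∀ k ∈ univ.filter (fun k => g.t k < s), (2 : ℝ) ^ (s - g.t k) * (Q k) ^ 2 ≤
          (1 / 16) * ∑ i ∈ S ∪ S2, (4 : ℝ) ^ (s - g.t k) * (v i k) ^ 2 := by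
        intro k _
        have e2 : (Q k) ^ 2 ≤ (1 / 16) * ∑ i ∈ S ∪ S2, (v i k) ^ 2 := by
          refine (sum_mul_sq_le_sq_mul_sq (S ∪ S2) τ (fun i => v i k)).trans ?_
          exact mul_le_mul_of_nonneg_right hxτ (sum_nonneg fun _ _ => sq_nonneg _)
        have e3 : (2 : ℝ) ^ (s - g.t k) ≤ 4 ^ (s - g.t k) :=
          pow_le_pow_left₀ (by norm_num) (by norm_num) _
        calc (2 : ℝ) ^ (s - g.t k) * (Q k) ^ 2 ≤ 4 ^ (s - g.t k) * (Q k) ^ 2 := by gcongr
          _ ≤ 4 ^ (s - g.t k) * ((1 / 16) * ∑ i ∈ S ∪ S2, (v i k) ^ 2) := by gcongr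
          _ = _ := by rw [← mul_sum]; ring
      refine (sum_le_sum e1).trans ?_
      rw [← mul_sum, sum_comm, sum_union hdis]
      have e4 : ∑ i ∈ S, ∑ k ∈ univ.filter (fun k => g.t k < s),
        (4 : ℝ) ^ (s - g.t k) * (v i k) ^ 2 ≤ R := hRS
      have e5 : ∑ i ∈ S2, ∑ k ∈ univ.filter (fun k => g.t k < s),
        (4 : ℝ) ^ (s - g.t k) * (v i k) ^ 2 ≤ R := hRS2
      linarith
    have hW := W_nonneg g s
    have e6 : 2 * (R / 8) + 2 * (R * C0 * (8 * g.W s + 80)) ≤ c.Y * R * (g.W s + 1) := by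
      have e7 : 1 / 4 + 2 * (C0 * (8 * g.W s + 80)) ≤ c.Y * (g.W s + 1) := by
        nlinarith
      calc 2 * (R / 8) + 2 * (R * C0 * (8 * g.W s + 80))
          = R * (1 / 4 + 2 * (C0 * (8 * g.W s + 80))) := by ring
        _ ≤ R * (c.Y * (g.W s + 1)) := mul_le_mul_of_nonneg_left e7 hR.le
        _ = _ := by ring
    linarith

end P262S
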