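import Vale.Agent.P262S.P2d

/-! P262S, module P2: the splitting of one part -/

namespace P262S

open Finset

variable {d : ℕ}

/-- the prefix of a part up to a cut -/
theorem p2_prefix {ι : Type} [DecidableEq ι] (v : ι → Fin d → ℝ) (S Lt Hv A : Finset ι)
    (hdis : Disjoint Lt Hv) (hS : Lt ∪ Hv = S) (hAH : A ⊆ Hv) (p : ι → ℕ) (K q : ℕ)
    (T : Finset ι) (hT : T = Lt.filter (fun i => p i ≤ q) ∪ A) (k : Fin d) :
    ∑ i ∈ T, v i k - ((q : ℝ) / (K : ℝ)) * ∑ i ∈ S, v i k =
      dev v S p K q k + (∑ i ∈ A, v i k - ∑ i ∈ Hv.filter (fun i => p i ≤ q), v i k) := by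
  have h1 : Disjoint (Lt.filter (fun i => p i ≤ q)) A := by
    rw [disjoint_left]
    intro i hi hi'
    exact (disjoint_left.1 hdis) (mem_filter.1 hi).1 (hAH hi')
  have h2 : Disjoint (Lt.filter (fun i => p i ≤ q)) (Hv.filter (fun i => p i ≤ q)) := by
    rw [disjoint_left]
    intro i hi hi'
    exact (disjoint_left.1 hdis) (mem_filter.1 hi).1 (mem_filter.1 hi').1
  unfold dev
  rw [hT, sum_union h1]
  have h3 : S.filter (fun i => p i ≤ q) =
      Lt.filter (fun i => p i ≤ q) ∪ Hv.filter (fun i => p i ≤ q) := by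
    rw [← hS, filter_union]
  rw [h3, sum_union h2]
  ring

theorem p2_core (hs : SplitStatement) (hmt : MatchStatement) {c : Cst} (hc : c.Good) {g : Stg d}
    (hg : StgGood c g) (W : WtFacts c g) {ι : Type} [DecidableEq ι] (v : ι → Fin d → ℝ)
    (hv : ∀ i, ∑ k, (v i k) ^ 2 ≤ 1) (s : ℕ) (R : ℝ) (hR : 0 < R) (S : Finset ι)
    (hclose : Close c g v s 3 S) (hRs : Rs g v s S ≤ R) :
    ∃ loc : ι → ℕ, (∀ i ∈ S, 1 ≤ loc i ∧ loc i < 2 * c.K g s) ∧
    (∀ r, (S.filter (fun i => loc i = 2 * r)).card ≤ 1) ∧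
    (∀ r < c.K g s, Close c g v (s + 1) 1 (S.filter (fun i => loc i = 2 * r + 1)) ∧
      Rs g v (s + 1) (S.filter (fun i => loc i = 2 * r + 1)) ≤ R / 64 + g.ind s) ∧
    ∀ j, 1 ≤ j → j ≤ 2 * c.K g s →
      (∀ k0, Nst g s k0 (fun k => ∑ i ∈ S.filter (fun i => loc i < j), v i k
          - (((j / 2 : ℕ) : ℝ) / c.K g s) * ∑ i ∈ S, v i k) ≤
        c.Y / 10 * (g.cnt s k0 + g.m s)) ∧
      Dif g s (fun k => ∑ i ∈ S.filter (fun i => loc i < j), v i k
          - (((j / 2 : ℕ) : ℝ) / c.K g s) * ∑ i ∈ S, v i k) ≤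
        c.Y * R * (g.W s + g.m s) := by
  classical
  obtain ⟨h1, h2, h3, h4, h5, h6, h7, h8, h9⟩ := cst_basic hc
  have hm : 1 ≤ g.m s := hg.m_pos s
  have hm' : (1 : ℝ) ≤ g.m s := by exact_mod_cast hm
  obtain ⟨hK16, hKR⟩ := p2K_facts hc (g.m s) hm
  obtain ⟨hJ0, hJ2, _, hJN, hJD, hJC⟩ := p2J_facts hc (g.m s) hm
  have hKdef : c.K g s = c.Ks * (g.m s) ^ 8 := rfl
  rw [← hKdef] at hK16 hKR
  set K : ℕ := c.K g s with hK
  have hKpos : (0 : ℝ) < K := by
    have : 0 < K := by omega
    exact_mod_cast this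
  set L : ℝ := c.La * g.m s with hL
  have hL0 : 0 ≤ L := by rw [hL]; positivity
  have hi01 : g.ind s = 0 ∨ g.ind s = 1 := by
    unfold Stg.ind
    split_ifs
    · exact Or.inr rfl
    · exact Or.inl rfl
  have hi0 : 0 ≤ g.ind s := by rcases hi01 with h | h <;> rw [h] <;> norm_num
  set Fb : ℝ := 4 * R + 2 ^ 9 * c.Th * (g.m s : ℝ) ^ 6 * g.ind s with hFb
  have hFb0 : 0 < Fb := by
    rw [hFb]
    have : 0 ≤ 2 ^ 9 * c.Th * (g.m s : ℝ) ^ 6 * g.ind s := by positivity
    linarith
  have htot : ∑ i ∈ S, p2F g v s i ≤ Fb := p2F_total hc hg W v s R S hclose hRs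
  set eta : ℝ := 16 * Fb / K with heta
  have heta0 : 0 < eta := by rw [heta]; positivity
  set Hv : Finset ι := S.filter (fun i => eta < p2F g v s i) with hHv
  set Lt : Finset ι := S.filter (fun i => ¬ eta < p2F g v s i) with hLt
  have hdis : Disjoint Lt Hv := by
    rw [disjoint_left]
    intro i hi hi'
    exact (mem_filter.1 hi).2 (mem_filter.1 hi').2
  have hS : Lt ∪ Hv = S := by
    rw [union_comm]
    exact filter_union_filter_not_eq _ S
  have hLS : Lt ⊆ S := filter_subset _ _
  have hHS : Hv ⊆ S := filter_subset _ _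
  have hcard : 16 * Hv.card ≤ K := by
    have h10 : (Hv.card : ℝ) * eta ≤ Fb := by
      have h11 : Hv.card • eta ≤ ∑ i ∈ Hv, p2F g v s i :=
        card_nsmul_le_sum _ _ _ fun i hi => (mem_filter.1 hi).2.le
      rw [nsmul_eq_mul] at h11
      refine h11.trans (le_trans ?_ htot)
      exact sum_le_sum_of_subset_of_nonneg hHS fun i _ _ => p2F_nonneg g v s i
    have h12 : (Hv.card : ℝ) * eta = (16 * Hv.card) * (Fb / K) := by
      rw [heta]; ring
    rw [h12, ← mul_div_assoc, div_le_iff₀ hKpos, mul_comm Fb] at h10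
    have h13 : (16 : ℝ) * Hv.card ≤ K := le_of_mul_le_mul_right h10 hFb0
    exact_mod_cast h13
  have hdead : ∀ i ∈ S, ∑ k ∈ univ.filter (fun k => g.t k < s),
      (4 : ℝ) ^ (s - g.t k) * (v i k) ^ 2 ≤ R := by
    intro i hi
    refine le_trans ?_ hRs
    unfold Rs
    exact single_le_sum (f := fun i => ∑ k ∈ univ.filter (fun k => g.t k < s),
      (4 : ℝ) ^ (s - g.t k) * (v i k) ^ 2)
      (fun i _ => sum_nonneg fun k _ => by positivity) hi
  have hwtp : ∀ k, s + 1 ≤ g.t k → 0 < c.wt g (s + 1) k := by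
    intro k hk
    have := W.wt_ge (s + 1) k hk
    linarith
  have hexp : 5 * Real.exp (-L) ≤ 1 / (20 * (K : ℝ)) := cst_exp hc (g.m s) hm
  obtain ⟨p, hp, hq⟩ := p2_split hs g hg.t_mono v hv s R hR S Lt Hv hdis hLS hHS hdead
    (p2F g v s) eta heta0 (fun i _ => p2F_nonneg g v s i)
    (fun i hi => not_lt.1 (mem_filter.1 hi).2) K (by omega) (c.wt g (s + 1)) hwtp L hexp
  -- matching
  have hcnt : ∀ q ≤ K, |((Hv.filter (fun i => p i ≤ q)).card : ℝ) - (q : ℝ) / K * Hv.card| ≤
      p2J c (g.m s) := by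
    intro q hqK
    refine abs_le_of_sq_le_sq ?_ hJ0
    rw [hJ2]
    exact (hq q hqK).2.2.2.2
  obtain ⟨cc, hcc, hinj, hccq⟩ := hmt ι Hv p K (p2J c (g.m s)) hK16 hcard
    (fun i hi => hp i (hHS hi)) hcnt
  set loc : ι → ℕ := fun i => if i ∈ Hv then 2 * cc i else 2 * p i - 1 with hloc
  have hlocH : ∀ i ∈ Hv, loc i = 2 * cc i := by
    intro i hi
    rw [hloc]
    simp only [hi, if_true]
  have hlocL : ∀ i ∈ Lt, loc i = 2 * p i - 1 := by
    intro i hi
    have h10 : i ∉ Hv := fun h => (disjoint_left.1 hdis) hi h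
    rw [hloc]
    simp only [h10, if_false]
  have hcases : ∀ i ∈ S, i ∈ Lt ∨ i ∈ Hv := by
    intro i hi
    rw [← hS] at hi
    exact mem_union.1 hi
  have hodd : ∀ r, S.filter (fun i => loc i = 2 * r + 1) = Lt.filter (fun i => p i = r + 1) := by
    intro r
    ext i
    rw [mem_filter, mem_filter]
    constructor
    · rintro ⟨hi, hi'⟩
      rcases hcases i hi with h | h
      · rw [hlocL i h] at hi'
        exact ⟨h, by omega⟩
      · rw [hlocH i h] at hi'
        omega
    · rintro ⟨hi, hi'⟩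
      refine ⟨hLS hi, ?_⟩
      rw [hlocL i hi]
      omega
  refine ⟨loc, ?_, ?_, ?_, ?_⟩
  · intro i hi
    rcases hcases i hi with h | h
    · have := hp i hi
      rw [hlocL i h]
      omega
    · have := hcc i h
      rw [hlocH i h]
      omega
  · intro r
    rw [card_le_one]
    intro a ha b hb
    rw [mem_filter] at ha hb
    have hH : ∀ i ∈ S, loc i = 2 * r → i ∈ Hv ∧ cc i = r := by
      intro i hi hi'
      rcases hcases i hi with h | h
      · have := hp i hi
        rw [hlocL i h] at hi'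
        omega
      · rw [hlocH i h] at hi'
        exact ⟨h, by omega⟩
    obtain ⟨ha1, ha2⟩ := hH a ha.1 ha.2
    obtain ⟨hb1, hb2⟩ := hH b hb.1 hb.2
    exact hinj ha1 hb1 (by rw [ha2, hb2])
  · intro r hr
    rw [hodd r]
    constructor
    · refine p2_close hc hg W v hv s S Lt Hv hdis hS hclose hcard p r ?_
      intro q hq'
      have hqK : q ≤ K := by omega
      refine ((hq q hqK).2.2.1).trans ?_
      refine le_trans ?_ hJC
      refine mul_le_mul_of_nonneg_left ?_ (by positivity)
      refine pow_le_pow_left₀ (sum_nonneg fun k hk => ?_) ?_ 2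
      · exact (one_div_pos.2 (hwtp k (mem_filter.1 hk).2)).le
      · have h10 := W.wt_inv (s + 1) (by omega)
        have h11 : g.M (s + 1) = g.m s := by
          unfold Stg.M
          rw [if_neg (by omega)]
          rfl
        rw [h11] at h10
        exact h10
    · have h10 : Rs g v (s + 1) (Lt.filter (fun i => p i = r + 1)) =
          ∑ i ∈ Lt.filter (fun i => p i = r + 1), p2F g v s i := rfl
      rw [h10, p2_consec Lt p r]
      have hD1 := (hq r (by omega)).2.2.2.1
      have hD2 := (hq (r + 1) (by omega)).2.2.2.1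
      have h11 : 16 * eta ^ 2 * (C0 * (1 / 2 + L)) = (eta * p2J c (g.m s)) ^ 2 := by
        rw [mul_pow, hJ2]; ring
      rw [h11] at hD1 hD2
      have hE1 := abs_le_of_sq_le_sq hD1 (by positivity)
      have hE2 := abs_le_of_sq_le_sq hD2 (by positivity)
      rw [abs_le] at hE1 hE2
      have h12 : ∑ i ∈ Lt, p2F g v s i ≤ Fb := by
        refine le_trans ?_ htot
        exact sum_le_sum_of_subset_of_nonneg hLS fun i _ _ => p2F_nonneg g v s i
      have h13 : ((r + 1 : ℕ) : ℝ) / K * ∑ i ∈ Lt, p2F g v s i =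
          (r : ℝ) / K * ∑ i ∈ Lt, p2F g v s i + 1 / K * ∑ i ∈ Lt, p2F g v s i := by
        push_cast
        ring
      have h14 : 1 / (K : ℝ) * ∑ i ∈ Lt, p2F g v s i ≤ 1 / K * Fb :=
        mul_le_mul_of_nonneg_left h12 (by positivity)
      have h15 := hKR R hR.le (g.ind s) hi01
      rw [← hFb] at h15
      have h16 : Fb / K * (1 + 32 * p2J c (g.m s)) = 1 / K * Fb + 2 * (eta * p2J c (g.m s)) := by
        rw [heta]; ring
      rw [h16] at h15
      linarith [hE1.1, hE2.2]
  · intro j hj1 hj2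
    set q : ℕ := j / 2 with hqdef
    have hqK : q ≤ K := by omega
    set A : Finset ι := Hv.filter (fun i => 2 * cc i < j) with hA
    have hA2 : A = Hv.filter (fun i => cc i < q) ∨ A = Hv.filter (fun i => cc i ≤ q) := by
      rcases Nat.even_or_odd j with ⟨e, he⟩ | ⟨e, he⟩
      · left
        rw [hA]
        refine filter_congr fun i _ => ?_
        omega
      · right
        rw [hA]
        refine filter_congr fun i _ => ?_
        omega
    obtain ⟨hAB, hBA⟩ := hccq q hqK A hA2
    have hT : S.filter (fun i => loc i < j) = Lt.filter (fun i => p i ≤ q) ∪ A := by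
      ext i
      rw [mem_union]
      constructor
      · intro hi0
        obtain ⟨hi, hi'⟩ := mem_filter.1 hi0
        rcases hcases i hi with h | h
        · left
          rw [hlocL i h] at hi'
          have := hp i hi
          exact mem_filter.2 ⟨h, by omega⟩
        · right
          rw [hlocH i h] at hi'
          exact mem_filter.2 ⟨h, hi'⟩
      · rintro (hi0 | hi0)
        · obtain ⟨hi, hi'⟩ := mem_filter.1 hi0
          refine mem_filter.2 ⟨hLS hi, ?_⟩
          rw [hlocL i hi]
          have := hp i (hLS hi)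
          omega
        · obtain ⟨hi, hi'⟩ := mem_filter.1 hi0
          refine mem_filter.2 ⟨hHS hi, ?_⟩
          rw [hlocH i hi]
          exact hi'
    have hpre : ∀ k, ∑ i ∈ S.filter (fun i => loc i < j), v i k
          - ((q : ℝ) / K) * ∑ i ∈ S, v i k =
        dev v S p K q k + (∑ i ∈ A, v i k - ∑ i ∈ Hv.filter (fun i => p i ≤ q), v i k) :=
      fun k => p2_prefix v S Lt Hv A hdis hS (filter_subset _ _) p K q _ hT k
    have hABS : ∀ i ∈ A ∪ Hv.filter (fun i => p i ≤ q), i ∈ S := by
      intro i hi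
      rcases mem_union.1 hi with h | h
      · exact hHS (mem_filter.1 h).1
      · exact hHS (mem_filter.1 h).1
    simp only [hpre]
    constructor
    · intro k0
      have h10 := comb_bound (univ.filter (fun k => s ≤ g.t k ∧ k ≤ k0)) (fun _ => 1)
        (fun _ _ => by norm_num) v 1 (by norm_num) A (Hv.filter (fun i => p i ≤ q))
        (fun i _ => by
          simp only [one_mul]
          refine le_trans ?_ (hv i)
          exact sum_le_sum_of_subset_of_nonneg (filter_subset _ _) fun k _ _ => sq_nonneg _)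
        (p2J c (g.m s) + 3) hAB hBA (dev v S p K q)
      simp only [one_mul] at h10
      unfold Nst
      refine h10.trans ?_
      have h11 := (hq q hqK).1 k0
      unfold Nst at h11
      have h12 := hJN (g.cnt s k0) (Nat.cast_nonneg _)
      linarith
    · have h10 := comb_bound (univ.filter (fun k => g.t k < s))
        (fun k => (2 : ℝ) ^ (s - g.t k))
        (fun _ _ => by positivity) v R hR.le A (Hv.filter (fun i => p i ≤ q))
        (fun i hi => by
          refine le_trans ?_ (hdead i (hABS i hi))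
          refine sum_le_sum fun k _ => ?_
          refine mul_le_mul_of_nonneg_right ?_ (sq_nonneg _)
          exact pow_le_pow_left₀ (by norm_num) (by norm_num) _)
        (p2J c (g.m s) + 3) hAB hBA (dev v S p K q)
      unfold Dif
      refine h10.trans ?_
      have h11 := (hq q hqK).2.1
      unfold Dif at h11
      have hW0 : 0 ≤ g.W s := by
        unfold Stg.W
        exact sum_nonneg fun k _ => by positivity
      have h12 := hJD (g.W s) R hW0 hR.le
      linarith

/-- P2 -/
theorem p2 (hs : SplitStatement) (hm : MatchStatement) (hw : WtStatement) : P2Statement := by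
  intro c hc d g hg ι _ v hv s R hR S hclose hRs
  exact p2_core hs hm hc hg (hw c hc d g hg) v hv s R hR S hclose hRs

end P262S
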