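import Vale.Agent.P262S.Body

/-! P262S, module ROUND. -/

namespace P262S

open Finset MeasureTheory

theorem zero_mem_of_ball {n : ℕ} {V : Set (E n)}
    (hr : ∃ r : ℝ, 0 < r ∧ ∀ z : E n, ‖z‖ ≤ r → z ∈ V) : (0 : E n) ∈ V := by
  obtain ⟨r, hr, h⟩ := hr
  exact h 0 (by simpa using hr.le)

/-- dyadic rounding -/
theorem round_dyadic {n : ℕ} {ι : Type} [DecidableEq ι] (V : Set (E n)) (hc : Convex ℝ V)
    (h0 : (0 : E n) ∈ V) (S : Finset ι) (u : ι → E n)
    (hsig : ∀ S' ⊆ S, ∃ ε : ι → ℝ, (∀ i ∈ S', ε i = 1 ∨ ε i = -1) ∧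
      ∑ i ∈ S', ε i • u i ∈ V) (m : ℕ) :
    ∀ a : ι → ℕ, (∀ i ∈ S, a i ≤ 2 ^ m) →
      ∃ y : ι → ℝ, (∀ i ∈ S, y i = 0 ∨ y i = 1) ∧
        ∃ v ∈ V, ∑ i ∈ S, (y i - (a i : ℝ) / 2 ^ m) • u i = (1 - (1 / 2 : ℝ) ^ m) • v := by
  induction m with
  | zero =>
    intro a ha
    refine ⟨fun i => a i, ?_, 0, h0, ?_⟩
    · intro i hi
      have := ha i hi
      simp only [pow_zero] at this
      have h1 : a i = 0 ∨ a i = 1 := by omega
      rcases h1 with h1 | h1
      · left; simp [h1]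
      · right; simp [h1]
    · simp
  | succ m ih =>
    intro a ha
    obtain ⟨ε, he1, he2⟩ := hsig (S.filter (fun i => a i % 2 = 1)) (filter_subset _ _)
    -- new numerators
    set b : ι → ℕ := fun i => if a i % 2 = 1 then (if ε i = 1 then (a i + 1) / 2 else a i / 2)
      else a i / 2 with hb
    have hb1 : ∀ i ∈ S, b i ≤ 2 ^ m := by
      intro i hi
      have h1 := ha i hi
      rw [pow_succ] at h1
      simp only [hb]
      split_ifs <;> omega
    obtain ⟨y, hy1, v, hv, hy2⟩ := ih b hb1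
    have hdiff : ∑ i ∈ S, ((b i : ℝ) / 2 ^ m - (a i : ℝ) / 2 ^ (m + 1)) • u i =
        (1 / 2 : ℝ) ^ (m + 1) • ∑ i ∈ S.filter (fun i => a i % 2 = 1), ε i • u i := by
      rw [smul_sum, sum_filter]
      refine sum_congr rfl fun i hi => ?_
      by_cases hodd : a i % 2 = 1
      · rw [if_pos hodd, smul_smul]
        congr 1
        have h2 := he1 i (mem_filter.2 ⟨hi, hodd⟩)
        rcases h2 with h2 | h2
        · have hbi : b i = (a i + 1) / 2 := by simp [hb, hodd, h2]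
          have h3 : 2 * b i = a i + 1 := by omega
          have h4 : (2 : ℝ) * b i = a i + 1 := by exact_mod_cast h3
          have h5 : (b i : ℝ) = (a i + 1) / 2 := by linarith
          rw [h5, h2, one_div_pow, pow_succ]
          field_simp
          ring
        · have hne : ε i ≠ 1 := by rw [h2]; norm_num
          have hbi : b i = a i / 2 := by simp [hb, hne]
          have h3 : 2 * b i + 1 = a i := by omega
          have h4 : (2 : ℝ) * b i + 1 = a i := by exact_mod_cast h3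
          have h5 : (b i : ℝ) = (a i - 1) / 2 := by linarith
          rw [h5, h2, one_div_pow, pow_succ]
          field_simp
          ring
      · rw [if_neg hodd]
        have hbi : b i = a i / 2 := by simp [hb, hodd]
        have h3 : 2 * b i = a i := by omega
        have h4 : (2 : ℝ) * b i = a i := by exact_mod_cast h3
        have h5 : (b i : ℝ) = (a i) / 2 := by linarith
        have : (b i : ℝ) / 2 ^ m - (a i : ℝ) / 2 ^ (m + 1) = 0 := by
          rw [h5]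
          field_simp
          ring
        rw [this, zero_smul]
    have hm : (0 : ℝ) < (1 / 2) ^ (m + 1) := by positivity
    have hm1 : (1 / 2 : ℝ) ^ (m + 1) ≤ 1 / 2 := by
      rw [pow_succ]
      have : (1 / 2 : ℝ) ^ m ≤ 1 := pow_le_one₀ (by norm_num) (by norm_num)
      linarith
    have hpos : (0 : ℝ) < 1 - (1 / 2) ^ (m + 1) := by linarith
    have hm2 : (1 / 2 : ℝ) ^ m = 2 * (1 / 2) ^ (m + 1) := by rw [pow_succ]; ring
    refine ⟨y, hy1, ((1 - (1 / 2 : ℝ) ^ m) / (1 - (1 / 2) ^ (m + 1))) • v +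
      ((1 / 2 : ℝ) ^ (m + 1) / (1 - (1 / 2) ^ (m + 1))) •
        ∑ i ∈ S.filter (fun i => a i % 2 = 1), ε i • u i, ?_, ?_⟩
    · refine hc hv he2 (div_nonneg ?_ hpos.le) (div_nonneg hm.le hpos.le) ?_
      · have : (1 / 2 : ℝ) ^ m ≤ 1 := pow_le_one₀ (by norm_num) (by norm_num)
        linarith
      · rw [← add_div, hm2, div_eq_one_iff_eq hpos.ne']
        ring
    · have hs : ∑ i ∈ S, (y i - (a i : ℝ) / 2 ^ (m + 1)) • u i =
          ∑ i ∈ S, (y i - (b i : ℝ) / 2 ^ m) • u i +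
          ∑ i ∈ S, ((b i : ℝ) / 2 ^ m - (a i : ℝ) / 2 ^ (m + 1)) • u i := by
        rw [← sum_add_distrib]
        refine sum_congr rfl fun i _ => ?_
        rw [← add_smul]
        congr 1
        ring
      rw [hs, hy2, hdiff, smul_add, smul_smul, smul_smul, mul_div_cancel₀ _ hpos.ne',
        mul_div_cancel₀ _ hpos.ne']

/-- rounding in `E n` -/
theorem round_E {n : ℕ} {ι : Type} [DecidableEq ι] (V : Set (E n)) (hc : Convex ℝ V)
    (hball : ∃ r : ℝ, 0 < r ∧ ∀ z : E n, ‖z‖ ≤ r → z ∈ V) (S : Finset ι) (u : ι → E n)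
    (hu : ∀ i ∈ S, ‖u i‖ ≤ 1)
    (hsig : ∀ S' ⊆ S, ∃ ε : ι → ℝ, (∀ i ∈ S', ε i = 1 ∨ ε i = -1) ∧
      ∑ i ∈ S', ε i • u i ∈ V) (x : ι → ℝ) (hx : ∀ i ∈ S, 0 ≤ x i ∧ x i ≤ 1) :
    ∃ y : ι → ℝ, (∀ i ∈ S, y i = 0 ∨ y i = 1) ∧
      ∃ v ∈ V, ∑ i ∈ S, (y i - x i) • u i = (2 : ℝ) • v := by
  have h0 := zero_mem_of_ball hball
  obtain ⟨r, hr, hball⟩ := hball
  obtain ⟨m, hm⟩ : ∃ m : ℕ, (S.card : ℝ) * (1 / 2) ^ m < r := by
    have h1 : Filter.Tendsto (fun m : ℕ => (S.card : ℝ) * (1 / 2) ^ m) Filter.atTop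
        (nhds ((S.card : ℝ) * 0)) :=
      (tendsto_pow_atTop_nhds_zero_of_lt_one (by norm_num) (by norm_num)).const_mul _
    rw [mul_zero] at h1
    exact (h1.eventually (gt_mem_nhds hr)).exists
  set a : ι → ℕ := fun i => ⌊x i * 2 ^ m⌋₊ with ha
  have ha1 : ∀ i ∈ S, a i ≤ 2 ^ m := by
    intro i hi
    have h1 : x i * 2 ^ m ≤ ((2 ^ m : ℕ) : ℝ) := by
      push_cast
      have := (hx i hi).2
      have h2 : (0 : ℝ) < 2 ^ m := by positivity
      nlinarith
    exact Nat.floor_le_of_le h1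
  obtain ⟨y, hy1, v, hv, hy2⟩ := round_dyadic V hc h0 S u hsig m a ha1
  set e : E n := ∑ i ∈ S, ((a i : ℝ) / 2 ^ m - x i) • u i with he
  have hen : ‖e‖ ≤ r := by
    refine (norm_sum_le _ _).trans ?_
    refine (sum_le_card_nsmul S _ ((1 / 2 : ℝ) ^ m) fun i hi => ?_).trans ?_
    · rw [norm_smul]
      have h2 : (0 : ℝ) < 2 ^ m := by positivity
      have h3 : |(a i : ℝ) / 2 ^ m - x i| ≤ (1 / 2) ^ m := by
        have h4 : (a i : ℝ) ≤ x i * 2 ^ m := Nat.floor_le (by have := (hx i hi).1; positivity)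
        have h5 : x i * 2 ^ m < a i + 1 := Nat.lt_floor_add_one _
        have h6 : (a i : ℝ) / 2 ^ m - x i = (a i - x i * 2 ^ m) / 2 ^ m := by
          field_simp
        rw [h6, abs_div, abs_of_pos h2, one_div, inv_pow, div_le_iff₀ h2,
          inv_mul_cancel₀ h2.ne', abs_le]
        constructor <;> linarith
      calc ‖(a i : ℝ) / 2 ^ m - x i‖ * ‖u i‖ ≤ (1 / 2) ^ m * 1 :=
            mul_le_mul h3 (hu i hi) (norm_nonneg _) (by positivity)
        _ = _ := mul_one _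
    · rw [nsmul_eq_mul]; exact hm.le
  refine ⟨y, hy1, (1 / 2 : ℝ) • ((1 - (1 / 2 : ℝ) ^ m) • v) + (1 / 2 : ℝ) • e, ?_, ?_⟩
  · refine hc ?_ (hball _ hen) (by norm_num) (by norm_num) (by norm_num)
    have h1 : (1 / 2 : ℝ) ^ m ≤ 1 := pow_le_one₀ (by norm_num) (by norm_num)
    have h2 : (0 : ℝ) ≤ (1 / 2 : ℝ) ^ m := by positivity
    have := hc hv h0 (a := 1 - (1 / 2 : ℝ) ^ m) (b := (1 / 2 : ℝ) ^ m) (by linarith) h2 (by ring)
    simpa using this
  · have h22 : (2 : ℝ) * (1 / 2) = 1 := by norm_num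
    rw [smul_add, smul_smul (2 : ℝ) (1 / 2), smul_smul (2 : ℝ) (1 / 2), h22, one_smul, one_smul]
    rw [← hy2, he, ← sum_add_distrib]
    refine sum_congr rfl fun i _ => ?_
    rw [← add_smul]
    congr 1
    ring

theorem round (hm : MarkStatement) (ht : TailStatement) : RoundStatement := by
  intro T ι κ _ _ S w x J α L hw hx hα hL
  classical
  set n := Fintype.card T
  let f : T ≃ Fin n := Fintype.equivFin T
  obtain ⟨V, v1, v2, v3, v4, v5, v6⟩ := exists_body ht n J (fun j t => α j (f.symm t)) L 1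
    le_rfl (fun j hj t => hα j hj _) (by simpa using hL)
  set u : ι → E n := fun i => WithLp.toLp 2 (fun t => w i (f.symm t) / 2048) with hu
  have hun : ∀ i ∈ S, ‖u i‖ ≤ 1 / 2048 := by
    intro i hi
    have h1 : ‖u i‖ ^ 2 ≤ (1 / 2048) ^ 2 := by
      rw [EuclideanSpace.norm_sq_eq]
      have h2 : ∑ t, ‖(u i) t‖ ^ 2 = (1 / 2048) ^ 2 * ∑ t, (w i t) ^ 2 := by
        rw [mul_sum, ← Equiv.sum_comp f.symm]
        refine sum_congr rfl fun t _ => ?_
        simp only [hu]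
        rw [Real.norm_eq_abs, sq_abs]
        ring
      rw [h2]
      have := hw i hi
      nlinarith
    exact abs_le_of_sq_le_sq' h1 (by norm_num) |>.2
  have hsig : ∀ S' ⊆ S, ∃ ε : ι → ℝ, (∀ i ∈ S', ε i = 1 ∨ ε i = -1) ∧
      ∑ i ∈ S', ε i • u i ∈ V := by
    intro S' hS'
    obtain ⟨ε, e1, e2⟩ := hm n V v1 v2 v3 1 le_rfl v4 ι S' u
      (fun i hi => hun i (hS' hi)) (fun _ => 1) (fun _ _ => ⟨le_rfl, le_rfl⟩)
    refine ⟨ε, e1, ?_⟩
    have := e2 1 le_rfl
    simpa using this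
  obtain ⟨y, y1, v, hv, y2⟩ := round_E V v2 v6 S u
    (fun i hi => (hun i hi).trans (by norm_num)) hsig x hx
  refine ⟨y, y1, fun j hj => ?_⟩
  have h1 := v5 v hv j hj
  have h2 : ∑ t, α j t * (∑ i ∈ S, (y i - x i) * w i t) ^ 2 =
      C0 * qf (fun t => α j (f.symm t)) v := by
    unfold qf
    rw [mul_sum, ← Equiv.sum_comp f.symm]
    refine sum_congr rfl fun t _ => ?_
    have h3 : ∑ i ∈ S, (y i - x i) * w i (f.symm t) = 4096 * v t := by
      have h4 := congrArg (fun z : E n => z t) y2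
      simp only [PiLp.smul_apply, smul_eq_mul, WithLp.ofLp_sum, Finset.sum_apply] at h4
      have h5 : ∑ i ∈ S, (y i - x i) * w i (f.symm t) =
          2048 * ∑ i ∈ S, (y i - x i) * (u i) t := by
        rw [mul_sum]
        refine sum_congr rfl fun i _ => ?_
        simp only [hu]
        ring
      rw [h5]
      have h6 : ∑ i ∈ S, (y i - x i) * (u i) t = 2 * v t := by
        rw [← h4]
      rw [h6]
      ring
    rw [h3]
    unfold C0
    ring
  have h3 : ∑ t, α j (f.symm t) = ∑ t, α j t := Equiv.sum_comp f.symm (fun t => α j t)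
  rw [h2]
  rw [h3] at h1
  exact mul_le_mul_of_nonneg_left h1 (by unfold C0; positivity)

end P262S
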