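import Vale.Agent.P262S.Body

/-! P262S, module SPLIT (Chobanyan's transference). -/

namespace P262S

open Finset MeasureTheory

/-- deviation of the `q`-th initial part -/
noncomputable def sdev {n : ℕ} {ι : Type} (S : Finset ι) (u : ι → E n) (K : ℕ) (p : ι → ℕ)
    (q : ℕ) : E n :=
  ∑ i ∈ S.filter (fun i => p i ≤ q), u i - ((q : ℝ) / K) • ∑ i ∈ S, u i

/-- one step of the transference -/
theorem split_step {n : ℕ} {ι : Type} [DecidableEq ι] (V : Set (E n)) (hc : Convex ℝ V)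
    (hs : ∀ z ∈ V, -z ∈ V) (S : Finset ι) (u : ι → E n) (K : ℕ) (hK : 1 ≤ K)
    (hsig : ∀ p : ι → ℕ, (∀ i ∈ S, 1 ≤ p i ∧ p i ≤ K) →
      ∃ ε : ι → ℝ, (∀ i ∈ S, ε i = 1 ∨ ε i = -1) ∧
      ∀ q ≤ K, ∑ i ∈ S.filter (fun i => p i ≤ q), ε i • u i ∈ V)
    (M : ℝ) (hM : 0 ≤ M) (p : ι → ℕ) (hp : ∀ i ∈ S, 1 ≤ p i ∧ p i ≤ K)
    (h : ∀ q ≤ K, ∃ v ∈ V, sdev S u K p q = M • v) :
    ∃ p' : ι → ℕ, (∀ i ∈ S, 1 ≤ p' i ∧ p' i ≤ K) ∧
      ∀ q ≤ K, ∃ v ∈ V, sdev S u K p' q = ((M + 1) / 2) • v := by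
  obtain ⟨ε, e1, e2⟩ := hsig p hp
  have hKpos : (0 : ℝ) < K := by exact_mod_cast hK
  set p' : ι → ℕ := fun i => if ε i = 1 then (p i + 1) / 2 else K + 1 - (p i + 1) / 2 with hp'
  have hcomb : ∀ v ∈ V, ∀ v' ∈ V, ∃ v'' ∈ V, (1 / 2 : ℝ) • (M • v + v') =
      ((M + 1) / 2) • v'' := by
    intro v hv v' hv'
    have hM1 : 0 < M + 1 := by linarith
    refine ⟨(M / (M + 1)) • v + (1 / (M + 1)) • v', hc hv hv' (by positivity) (by positivity)
      (by field_simp), ?_⟩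
    rw [smul_add, smul_add, smul_smul, smul_smul, smul_smul]
    congr 2
    · field_simp
    · field_simp
  refine ⟨p', fun i hi => ?_, fun q hq => ?_⟩
  · have h1 := hp i hi
    simp only [hp']
    split_ifs <;> omega
  · by_cases hq2 : 2 * q ≤ K
    · obtain ⟨v, hv, hv2⟩ := h (2 * q) hq2
      have hs2 := e2 (2 * q) hq2
      obtain ⟨v'', h3, h4⟩ := hcomb v hv _ hs2
      refine ⟨v'', h3, ?_⟩
      rw [← h4, ← hv2]
      unfold sdev
      have h5 : ∑ i ∈ S.filter (fun i => p' i ≤ q), u i =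
          (1 / 2 : ℝ) • (∑ i ∈ S.filter (fun i => p i ≤ 2 * q), u i +
            ∑ i ∈ S.filter (fun i => p i ≤ 2 * q), ε i • u i) := by
        rw [← sum_add_distrib, smul_sum, sum_filter, sum_filter]
        refine sum_congr rfl fun i hi => ?_
        have h1 := hp i hi
        rcases e1 i hi with h2 | h2
        · have hpi : p' i = (p i + 1) / 2 := by simp [hp', h2]
          have hiff : p' i ≤ q ↔ p i ≤ 2 * q := by omega
          simp only [hiff]
          split_ifs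
          · rw [h2, one_smul, ← two_smul ℝ (u i), smul_smul]
            norm_num
          · rfl
        · have hne : ε i ≠ 1 := by rw [h2]; norm_num
          have hpi : p' i = K + 1 - (p i + 1) / 2 := by simp [hp', hne]
          have hno : ¬ p' i ≤ q := by omega
          rw [if_neg hno, h2]
          split_ifs
          · simp
          · rfl
      rw [h5]
      push_cast
      rw [smul_add, smul_add, smul_sub, smul_smul]
      have h6 : (1 / 2 : ℝ) * (2 * q / K) = q / K := by ring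
      rw [h6]
      abel
    · obtain ⟨v, hv, hv2⟩ := h (2 * (K - q)) (by omega)
      have hs2 := hs _ (e2 (2 * (K - q)) (by omega))
      obtain ⟨v'', h3, h4⟩ := hcomb v hv _ hs2
      refine ⟨-v'', hs _ h3, ?_⟩
      rw [smul_neg, ← h4, ← hv2]
      unfold sdev
      have h5 : ∑ i ∈ S.filter (fun i => p' i ≤ q), u i = ∑ i ∈ S, u i -
          (1 / 2 : ℝ) • (∑ i ∈ S.filter (fun i => p i ≤ 2 * (K - q)), u i -
            ∑ i ∈ S.filter (fun i => p i ≤ 2 * (K - q)), ε i • u i) := by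
        rw [← sum_sub_distrib, smul_sum, sum_filter, sum_filter, ← sum_sub_distrib]
        refine sum_congr rfl fun i hi => ?_
        have h1 := hp i hi
        rcases e1 i hi with h2 | h2
        · have hpi : p' i = (p i + 1) / 2 := by simp [hp', h2]
          have hyes : p' i ≤ q := by omega
          rw [if_pos hyes, h2]
          split_ifs
          · simp
          · simp
        · have hne : ε i ≠ 1 := by rw [h2]; norm_num
          have hpi : p' i = K + 1 - (p i + 1) / 2 := by simp [hp', hne]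
          have hiff : p' i ≤ q ↔ ¬ p i ≤ 2 * (K - q) := by omega
          by_cases hh : p i ≤ 2 * (K - q)
          · rw [if_pos hh, if_neg (by rw [hiff]; exact not_not.2 hh), h2]
            have : u i - (-1 : ℝ) • u i = (2 : ℝ) • u i := by
              rw [neg_smul, one_smul, two_smul]; abel
            rw [this, smul_smul]
            norm_num
          · rw [if_neg hh, if_pos (hiff.2 hh), sub_zero]
      rw [h5]
      have h6 : ((2 * (K - q) : ℕ) : ℝ) / K = 2 * (1 - (q : ℝ) / K) := by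
        push_cast [Nat.cast_sub hq]
        field_simp
      rw [h6]
      set A := ∑ i ∈ S, u i
      set B := ∑ i ∈ S.filter (fun i => p i ≤ 2 * (K - q)), u i
      set D := ∑ i ∈ S.filter (fun i => p i ≤ 2 * (K - q)), ε i • u i
      module

theorem split_iter {n : ℕ} {ι : Type} [DecidableEq ι] (V : Set (E n)) (hc : Convex ℝ V)
    (hs : ∀ z ∈ V, -z ∈ V) (S : Finset ι) (u : ι → E n) (K : ℕ) (hK : 1 ≤ K)
    (hsig : ∀ p : ι → ℕ, (∀ i ∈ S, 1 ≤ p i ∧ p i ≤ K) →
      ∃ ε : ι → ℝ, (∀ i ∈ S, ε i = 1 ∨ ε i = -1) ∧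
      ∀ q ≤ K, ∑ i ∈ S.filter (fun i => p i ≤ q), ε i • u i ∈ V) (m : ℕ) :
    ∀ p : ι → ℕ, (∀ i ∈ S, 1 ≤ p i ∧ p i ≤ K) →
    (∀ q ≤ K, ∃ v ∈ V, sdev S u K p q = (1 + (2 : ℝ) ^ m) • v) →
    ∃ p' : ι → ℕ, (∀ i ∈ S, 1 ≤ p' i ∧ p' i ≤ K) ∧
      ∀ q ≤ K, ∃ v ∈ V, sdev S u K p' q = (2 : ℝ) • v := by
  induction m with
  | zero =>
    intro p hp h
    refine ⟨p, hp, fun q hq => ?_⟩
    obtain ⟨v, hv, h2⟩ := h q hq
    refine ⟨v, hv, ?_⟩
    rw [h2]
    norm_num
  | succ m ih =>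
    intro p hp h
    obtain ⟨p', h1, h2⟩ := split_step V hc hs S u K hK hsig (1 + (2 : ℝ) ^ (m + 1))
      (by positivity) p hp h
    refine ih p' h1 fun q hq => ?_
    obtain ⟨v, hv, h3⟩ := h2 q hq
    refine ⟨v, hv, ?_⟩
    rw [h3]
    congr 1
    rw [pow_succ]
    ring

theorem split_E {n : ℕ} {ι : Type} [DecidableEq ι] (V : Set (E n)) (hc : Convex ℝ V)
    (hs : ∀ z ∈ V, -z ∈ V) (hball : ∃ r : ℝ, 0 < r ∧ ∀ z : E n, ‖z‖ ≤ r → z ∈ V)
    (S : Finset ι) (u : ι → E n) (hu : ∀ i ∈ S, ‖u i‖ ≤ 1) (K : ℕ) (hK : 1 ≤ K)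
    (hsig : ∀ p : ι → ℕ, (∀ i ∈ S, 1 ≤ p i ∧ p i ≤ K) →
      ∃ ε : ι → ℝ, (∀ i ∈ S, ε i = 1 ∨ ε i = -1) ∧
      ∀ q ≤ K, ∑ i ∈ S.filter (fun i => p i ≤ q), ε i • u i ∈ V) :
    ∃ p : ι → ℕ, (∀ i ∈ S, 1 ≤ p i ∧ p i ≤ K) ∧
      ∀ q ≤ K, ∃ v ∈ V, sdev S u K p q = (2 : ℝ) • v := by
  obtain ⟨r, hr, hball⟩ := hball
  have hKpos : (0 : ℝ) < K := by exact_mod_cast hK
  obtain ⟨m, hm⟩ : ∃ m : ℕ, (2 * (S.card : ℝ)) / r < 2 ^ m :=
    pow_unbounded_of_one_lt _ (by norm_num)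
  refine split_iter V hc hs S u K hK hsig m (fun _ => 1) (fun _ _ => ⟨le_rfl, hK⟩)
    fun q hq => ?_
  have hM : (0 : ℝ) < 1 + 2 ^ m := by positivity
  refine ⟨(1 / (1 + (2 : ℝ) ^ m)) • sdev S u K (fun _ => 1) q, hball _ ?_, ?_⟩
  · have h1 : ‖sdev S u K (fun _ => 1) q‖ ≤ 2 * S.card := by
      unfold sdev
      refine (norm_sub_le _ _).trans ?_
      have h2 : ∀ S' ⊆ S, ‖∑ i ∈ S', u i‖ ≤ S.card := by
        intro S' hS'
        refine (norm_sum_le _ _).trans ?_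
        refine (sum_le_card_nsmul S' _ 1 fun i hi => hu i (hS' hi)).trans ?_
        rw [nsmul_eq_mul, mul_one]
        exact_mod_cast card_le_card hS'
      have h3 : ‖((q : ℝ) / K) • ∑ i ∈ S, u i‖ ≤ S.card := by
        rw [norm_smul, Real.norm_eq_abs, abs_of_nonneg (by positivity)]
        have h4 : (q : ℝ) / K ≤ 1 := by
          rw [div_le_one hKpos]; exact_mod_cast hq
        calc (q : ℝ) / K * ‖∑ i ∈ S, u i‖ ≤ 1 * S.card :=
              mul_le_mul h4 (h2 S (Subset.refl _)) (norm_nonneg _) zero_le_one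
          _ = _ := one_mul _
      have h5 := h2 (S.filter (fun _ => (1 : ℕ) ≤ q)) (filter_subset _ _)
      linarith
    rw [norm_smul, Real.norm_eq_abs, abs_of_pos (by positivity), div_mul_eq_mul_div, one_mul,
      div_le_iff₀ hM]
    rw [div_lt_iff₀ hr] at hm
    nlinarith
  · rw [smul_smul, mul_one_div_cancel hM.ne', one_smul]

theorem split (hm : MarkStatement) (ht : TailStatement) : SplitStatement := by
  intro T ι κ _ _ S w K J α L hK hw hα hL
  classical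
  set n := Fintype.card T
  let f : T ≃ Fin n := Fintype.equivFin T
  obtain ⟨V, v1, v2, v3, v4, v5, v6⟩ := exists_body ht n J (fun j t => α j (f.symm t)) L K
    hK (fun j hj t => hα j hj _) hL
  set u : ι → E n := fun i => WithLp.toLp 2 (fun t => w i (f.symm t) / 2048) with hu
  have hun : ∀ i ∈ S, ‖u i‖ ≤ 1 / 2048 := by
    intro i hi
    have h1 : ‖u i‖ ^ 2 ≤ (1 / 2048) ^ 2 := by
      rw [EuclideanSpace.norm_sq_eq]
      have h2 : ∑ t, ‖(u i) t‖ ^ 2 = (1 / 2048) ^ 2 * ∑ t, (w i t) ^ 2 := by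
        rw [mul_sum, ← Equiv.sum_comp f.symm]
        refine sum_congr rfl fun t _ => ?_
        simp only [hu]
        rw [Real.norm_eq_abs, sq_abs]
        ring
      rw [h2]
      have := hw i hi
      nlinarith
    exact abs_le_of_sq_le_sq' h1 (by norm_num) |>.2
  obtain ⟨p, p1, p2⟩ := split_E V v2 v3 v6 S u (fun i hi => (hun i hi).trans (by norm_num)) K hK
    (fun p hp => hm n V v1 v2 v3 K hK v4 ι S u hun p hp)
  refine ⟨p, p1, fun q hq j hj => ?_⟩
  obtain ⟨v, hv, h0⟩ := p2 q hq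
  have h1 := v5 v hv j hj
  have h2 : ∑ t, α j t * (∑ i ∈ S.filter (fun i => p i ≤ q), w i t
          - ((q : ℝ) / K) * ∑ i ∈ S, w i t) ^ 2 =
      C0 * qf (fun t => α j (f.symm t)) v := by
    unfold qf
    rw [mul_sum, ← Equiv.sum_comp f.symm]
    refine sum_congr rfl fun t _ => ?_
    have h3 : ∑ i ∈ S.filter (fun i => p i ≤ q), w i (f.symm t)
          - ((q : ℝ) / K) * ∑ i ∈ S, w i (f.symm t) = 4096 * v t := by
      have h4 := congrArg (fun z : E n => z t) h0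
      simp only [sdev, PiLp.sub_apply, PiLp.smul_apply, smul_eq_mul, WithLp.ofLp_sum,
        Finset.sum_apply] at h4
      have h5 : ∀ A : Finset ι, ∑ i ∈ A, w i (f.symm t) = 2048 * ∑ i ∈ A, (u i) t := by
        intro A
        rw [mul_sum]
        refine sum_congr rfl fun i _ => ?_
        simp only [hu]
        ring
      rw [h5, h5]
      linarith
    rw [h3]
    unfold C0
    ring
  have h3 : ∑ t, α j (f.symm t) = ∑ t, α j t := Equiv.sum_comp f.symm (fun t => α j t)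
  rw [h2]
  rw [h3] at h1
  exact mul_le_mul_of_nonneg_left h1 (by unfold C0; positivity)

end P262S
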