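import Vale.Agent.P262S.Defs

/-! P262, module STEPA: all cuts are re-rounded. -/

set_option linter.unusedSectionVars false

namespace P262S

open Finset

/-! ### weighted norms -/

/-- weighted Euclidean norm -/
noncomputable def nrm {κ : Type} (F : Finset κ) (a : κ → ℝ) (x : κ → ℝ) : ℝ :=
  Real.sqrt (∑ k ∈ F, a k * (x k) ^ 2)

section nrm
variable {κ : Type} (F : Finset κ) (a : κ → ℝ)

lemma nrm_nonneg (x : κ → ℝ) : 0 ≤ nrm F a x := Real.sqrt_nonneg _

lemma nrm_sq (ha : ∀ k ∈ F, 0 ≤ a k) (x : κ → ℝ) : (nrm F a x) ^ 2 = ∑ k ∈ F, a k * (x k) ^ 2 :=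
  Real.sq_sqrt (Finset.sum_nonneg fun k hk => mul_nonneg (ha k hk) (sq_nonneg _))

lemma nrm_le {x : κ → ℝ} {B : ℝ} (hB : 0 ≤ B) (h : ∑ k ∈ F, a k * (x k) ^ 2 ≤ B ^ 2) :
    nrm F a x ≤ B := by
  unfold nrm
  rw [← Real.sqrt_sq hB]
  exact Real.sqrt_le_sqrt h

lemma sum_le_of_nrm (ha : ∀ k ∈ F, 0 ≤ a k) {x : κ → ℝ} {B : ℝ} (h : nrm F a x ≤ B) :
    ∑ k ∈ F, a k * (x k) ^ 2 ≤ B ^ 2 := by
  rw [← nrm_sq F a ha x]
  exact pow_le_pow_left₀ (nrm_nonneg F a x) h 2

lemma nrm_congr {x y : κ → ℝ} (h : ∀ k ∈ F, x k = y k) : nrm F a x = nrm F a y := by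
  unfold nrm
  rw [Finset.sum_congr rfl fun k hk => by rw [h k hk]]

lemma nrm_smul (c : ℝ) (x : κ → ℝ) : nrm F a (fun k => c * x k) = |c| * nrm F a x := by
  unfold nrm
  have : ∑ k ∈ F, a k * (c * x k) ^ 2 = c ^ 2 * ∑ k ∈ F, a k * (x k) ^ 2 := by
    rw [Finset.mul_sum]; exact Finset.sum_congr rfl fun k _ => by ring
  rw [this, Real.sqrt_mul (sq_nonneg c), Real.sqrt_sq_eq_abs]

lemma nrm_add (ha : ∀ k ∈ F, 0 ≤ a k) (x y : κ → ℝ) :
    nrm F a (fun k => x k + y k) ≤ nrm F a x + nrm F a y := by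
  apply nrm_le F a (add_nonneg (nrm_nonneg F a x) (nrm_nonneg F a y))
  have h1 := nrm_sq F a ha x
  have h2 := nrm_sq F a ha y
  have h3 : ∑ k ∈ F, a k * (x k * y k) ≤ nrm F a x * nrm F a y := by
    have h4 : (∑ k ∈ F, (Real.sqrt (a k) * x k) * (Real.sqrt (a k) * y k)) ^ 2 ≤
        (∑ k ∈ F, (Real.sqrt (a k) * x k) ^ 2) * ∑ k ∈ F, (Real.sqrt (a k) * y k) ^ 2 :=
      Finset.sum_mul_sq_le_sq_mul_sq _ _ _
    have e1 : ∑ k ∈ F, (Real.sqrt (a k) * x k) * (Real.sqrt (a k) * y k) =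
        ∑ k ∈ F, a k * (x k * y k) := Finset.sum_congr rfl fun k hk => by
      have := Real.mul_self_sqrt (ha k hk)
      calc _ = (Real.sqrt (a k) * Real.sqrt (a k)) * (x k * y k) := by ring
        _ = _ := by rw [this]
    have e2 : ∀ z : κ → ℝ, ∑ k ∈ F, (Real.sqrt (a k) * z k) ^ 2 = ∑ k ∈ F, a k * (z k) ^ 2 :=
      fun z => Finset.sum_congr rfl fun k hk => by
        rw [mul_pow, Real.sq_sqrt (ha k hk)]
    rw [e1, e2, e2, ← h1, ← h2, ← mul_pow] at h4
    exact le_of_sq_le_sq' h4 (mul_nonneg (nrm_nonneg F a x) (nrm_nonneg F a y))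
  have e3 : ∑ k ∈ F, a k * (x k + y k) ^ 2 = ∑ k ∈ F, a k * (x k) ^ 2 +
      2 * ∑ k ∈ F, a k * (x k * y k) + ∑ k ∈ F, a k * (y k) ^ 2 := by
    rw [Finset.mul_sum, ← Finset.sum_add_distrib, ← Finset.sum_add_distrib]
    exact Finset.sum_congr rfl fun k _ => by ring
  rw [e3, ← h1, ← h2]
  nlinarith [h3]
where
  le_of_sq_le_sq' {a b : ℝ} (h : a ^ 2 ≤ b ^ 2) (hb : 0 ≤ b) : a ≤ b := by
    nlinarith [sq_nonneg (a + b), abs_le_of_sq_le_sq' h hb |>.2]

end nrm

/-! ### positions -/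

section pos
variable {d : ℕ} {ι : Type} [Fintype ι] [DecidableEq ι] (v : ι → Fin d → ℝ)

lemma pre_succ (pos : ι → ℕ) (j : ℕ) (k : Fin d) :
    pre v pos (j + 1) k = pre v pos j k + ∑ i ∈ univ.filter (fun i => pos i = j), v i k := by
  unfold pre
  rw [← Finset.sum_union]
  · apply Finset.sum_congr _ (fun _ _ => rfl)
    ext i
    simp only [Finset.mem_filter, Finset.mem_univ, true_and, Finset.mem_union]
    omega
  · rw [Finset.disjoint_left]
    intro i hi hj
    simp only [Finset.mem_filter, Finset.mem_univ, true_and] at hi hj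
    omega

lemma pre_one (pos : ι → ℕ) (h : ∀ i, 1 ≤ pos i) (k : Fin d) : pre v pos 1 k = 0 := by
  unfold pre
  apply Finset.sum_eq_zero
  intro i hi
  simp only [Finset.mem_filter, Finset.mem_univ, true_and] at hi
  have := h i
  omega

lemma pre_top (pos : ι → ℕ) (N : ℕ) (h : ∀ i, pos i < 2 * N) (hs : ∀ k, ∑ i, v i k = 0)
    (k : Fin d) : pre v pos (2 * N) k = 0 := by
  unfold pre
  rw [← hs k]
  apply Finset.sum_congr _ (fun _ _ => rfl)
  ext i
  simp only [Finset.mem_filter, Finset.mem_univ, true_and, iff_true]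
  exact h i

/-- pairs that are re-rounded in a pass -/
def sel (par N q : ℕ) : Prop := q % 2 = par ∧ q + 1 < N

open Classical in
/-- new positions -/
noncomputable def npos (par N : ℕ) (pos : ι → ℕ) (F : ℕ → Finset ι) (i : ι) : ℕ :=
  if h : ∃ q, sel par N q ∧ (pos i = 2 * q + 1 ∨ pos i = 2 * q + 3) then
    (if i ∈ F h.choose then 2 * h.choose + 1 else 2 * h.choose + 3)
  else pos i

variable {par N : ℕ} {pos : ι → ℕ} {F : ℕ → Finset ι}

lemma npos_pair {q : ℕ} (hq : sel par N q) {i : ι} (hi : pos i = 2 * q + 1 ∨ pos i = 2 * q + 3) :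
    npos par N pos F i = if i ∈ F q then 2 * q + 1 else 2 * q + 3 := by
  have hex : ∃ q, sel par N q ∧ (pos i = 2 * q + 1 ∨ pos i = 2 * q + 3) := ⟨q, hq, hi⟩
  have h1 := hex.choose_spec
  have h2 : hex.choose = q := by
    obtain ⟨⟨h3, _⟩, h4⟩ := h1
    have h5 := hq.1
    omega
  unfold npos
  rw [dif_pos hex, h2]

lemma npos_else {i : ι} (h : ∀ q, sel par N q → pos i ≠ 2 * q + 1 ∧ pos i ≠ 2 * q + 3) :
    npos par N pos F i = pos i := by
  unfold npos
  rw [dif_neg]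
  rintro ⟨q, hq, h1⟩
  have := h q hq
  omega

/-- description of the new position -/
lemma npos_cases (i : ι) : (npos par N pos F i = pos i ∧
      (∀ q, sel par N q → pos i ≠ 2 * q + 1 ∧ pos i ≠ 2 * q + 3)) ∨
    ∃ q, sel par N q ∧ (pos i = 2 * q + 1 ∨ pos i = 2 * q + 3) ∧
      ((i ∈ F q ∧ npos par N pos F i = 2 * q + 1) ∨
        (i ∉ F q ∧ npos par N pos F i = 2 * q + 3)) := by
  by_cases hex : ∃ q, sel par N q ∧ (pos i = 2 * q + 1 ∨ pos i = 2 * q + 3)
  · obtain ⟨q, hq, hi⟩ := hex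
    right
    refine ⟨q, hq, hi, ?_⟩
    rw [npos_pair hq hi]
    by_cases h : i ∈ F q
    · left; exact ⟨h, if_pos h⟩
    · right; exact ⟨h, if_neg h⟩
  · left
    push Not at hex
    exact ⟨npos_else hex, hex⟩

lemma part_sel {q : ℕ} (hq : sel par N q) (hF : F q ⊆ part pos q ∪ part pos (q + 1)) :
    part (npos par N pos F) q = F q := by
  ext i
  simp only [part, Finset.mem_filter, Finset.mem_univ, true_and]
  constructor
  · intro h
    rcases npos_cases (par := par) (N := N) (pos := pos) (F := F) i with ⟨h1, h2⟩ | ⟨r, hr, h2, h3⟩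
    · have := h2 q hq
      omega
    · have h4 := hr.1
      have h5 := hq.1
      rcases h3 with ⟨h6, h7⟩ | ⟨h6, h7⟩
      · have : r = q := by omega
        rwa [this] at h6
      · omega
  · intro h
    have h1 := hF h
    simp only [part, Finset.mem_union, Finset.mem_filter, Finset.mem_univ, true_and] at h1
    rw [npos_pair hq (by omega), if_pos h]

lemma part_sel' {q : ℕ} (hq : sel par N q) :
    part (npos par N pos F) (q + 1) = (part pos q ∪ part pos (q + 1)) \ F q := by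
  ext i
  simp only [part, Finset.mem_filter, Finset.mem_univ, true_and, Finset.mem_sdiff,
    Finset.mem_union]
  constructor
  · intro h
    rcases npos_cases (par := par) (N := N) (pos := pos) (F := F) i with ⟨h1, h2⟩ | ⟨r, hr, h2, h3⟩
    · have := h2 q hq
      omega
    · have h4 := hr.1
      have h5 := hq.1
      rcases h3 with ⟨h6, h7⟩ | ⟨h6, h7⟩
      · omega
      · have : r = q := by omega
        rw [this] at h6 h2
        exact ⟨by omega, h6⟩
  · rintro ⟨h1, h2⟩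
    rw [npos_pair hq (by omega), if_neg h2]
    omega

lemma part_else {r : ℕ} (h1 : ¬ sel par N r) (h2 : ∀ q, sel par N q → r ≠ q + 1) :
    part (npos par N pos F) r = part pos r := by
  ext i
  simp only [part, Finset.mem_filter, Finset.mem_univ, true_and]
  constructor
  · intro h
    rcases npos_cases (par := par) (N := N) (pos := pos) (F := F) i with ⟨h3, h4⟩ | ⟨q, hq, h4, h5⟩
    · omega
    · have h6 := h2 q hq
      rcases h5 with ⟨h7, h8⟩ | ⟨h7, h8⟩
      · have : q = r := by omega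
        rw [this] at hq
        exact absurd hq h1
      · omega
  · intro h
    rw [npos_else]
    · exact h
    · intro q hq
      have h6 := h2 q hq
      constructor
      · intro h7
        have : q = r := by omega
        rw [this] at hq
        exact h1 hq
      · omega

lemma sep_eq (r : ℕ) : univ.filter (fun i => npos par N pos F i = 2 * r) =
    univ.filter (fun i => pos i = 2 * r) := by
  ext i
  simp only [Finset.mem_filter, Finset.mem_univ, true_and]
  rcases npos_cases (par := par) (N := N) (pos := pos) (F := F) i with ⟨h3, h4⟩ | ⟨q, hq, h4, h5⟩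
  · rw [h3]
  · rcases h5 with ⟨h7, h8⟩ | ⟨h7, h8⟩ <;> omega

lemma pre_else {j : ℕ} (h : ∀ q, sel par N q → j ≠ 2 * q + 2 ∧ j ≠ 2 * q + 3) (k : Fin d) :
    pre v (npos par N pos F) j k = pre v pos j k := by
  unfold pre
  apply Finset.sum_congr _ (fun _ _ => rfl)
  ext i
  simp only [Finset.mem_filter, Finset.mem_univ, true_and]
  rcases npos_cases (par := par) (N := N) (pos := pos) (F := F) i with ⟨h3, h4⟩ | ⟨q, hq, h4, h5⟩
  · rw [h3]
  · have := h q hq
    rcases h5 with ⟨h7, h8⟩ | ⟨h7, h8⟩ <;> omega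

lemma pre_sel {q : ℕ} (hq : sel par N q) (hF : F q ⊆ part pos q ∪ part pos (q + 1)) (k : Fin d) :
    pre v (npos par N pos F) (2 * q + 2) k = pre v pos (2 * q + 1) k + ∑ i ∈ F q, v i k := by
  rw [pre_succ, pre_else v (j := 2 * q + 1)]
  · have := part_sel (par := par) hq hF
    unfold part at this
    rw [this]
  · intro r hr
    have h1 := hr.1
    have h2 := hq.1
    omega

lemma pre_sel' {q : ℕ} (hq : sel par N q) (hF : F q ⊆ part pos q ∪ part pos (q + 1)) (k : Fin d) :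
    pre v (npos par N pos F) (2 * q + 3) k = pre v pos (2 * q + 1) k + ∑ i ∈ F q, v i k +
      ∑ i ∈ univ.filter (fun i => pos i = 2 * q + 2), v i k := by
  rw [pre_succ, pre_sel v hq hF]
  have := sep_eq (par := par) (N := N) (pos := pos) (F := F) (q + 1)
  have e : 2 * (q + 1) = 2 * q + 2 := by ring
  rw [e] at this
  rw [this]

end pos


/-! ### norms of the recursion -/

section stage
variable {d : ℕ} (c : Cst) (g : Stg d)

/-- norm on dead coordinates -/
noncomputable def dN (s : ℕ) (x : Fin d → ℝ) : ℝ :=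
  nrm (univ.filter (fun k => g.t k < s)) (fun k => (2 : ℝ) ^ (s - g.t k)) x

/-- norm on the coordinates with `t k = s` -/
noncomputable def uN (s : ℕ) (x : Fin d → ℝ) : ℝ :=
  nrm (univ.filter (fun k => g.t k = s)) (fun _ => (1 : ℝ)) x

lemma dN_nonneg (s : ℕ) (x : Fin d → ℝ) : 0 ≤ dN g s x := nrm_nonneg _ _ _
lemma uN_nonneg (s : ℕ) (x : Fin d → ℝ) : 0 ≤ uN g s x := nrm_nonneg _ _ _

lemma dN_sq (s : ℕ) (x : Fin d → ℝ) : (dN g s x) ^ 2 = Dif g s x :=
  nrm_sq _ _ (fun _ _ => by positivity) x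

lemma uN_sq (s : ℕ) (x : Fin d → ℝ) : (uN g s x) ^ 2 = Usq g s x := by
  unfold uN
  rw [nrm_sq _ _ (fun _ _ => by positivity) x]
  unfold Usq
  exact Finset.sum_congr rfl fun k _ => by rw [one_mul]

lemma dN_add (s : ℕ) (x y : Fin d → ℝ) : dN g s (fun k => x k + y k) ≤ dN g s x + dN g s y :=
  nrm_add _ _ (fun _ _ => by positivity) x y

lemma uN_add (s : ℕ) (x y : Fin d → ℝ) : uN g s (fun k => x k + y k) ≤ uN g s x + uN g s y :=
  nrm_add _ _ (fun _ _ => by positivity) x y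

lemma dN_smul (s : ℕ) (b : ℝ) (x : Fin d → ℝ) : dN g s (fun k => b * x k) = |b| * dN g s x :=
  nrm_smul _ _ b x

lemma uN_smul (s : ℕ) (b : ℝ) (x : Fin d → ℝ) : uN g s (fun k => b * x k) = |b| * uN g s x :=
  nrm_smul _ _ b x

lemma dN_congr (s : ℕ) {x y : Fin d → ℝ} (h : ∀ k, g.t k ≤ s → x k = y k) :
    dN g s x = dN g s y :=
  nrm_congr _ _ fun k hk => h k (by simp only [Finset.mem_filter] at hk; omega)

lemma uN_congr (s : ℕ) {x y : Fin d → ℝ} (h : ∀ k, g.t k ≤ s → x k = y k) :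
    uN g s x = uN g s y :=
  nrm_congr _ _ fun k hk => h k (by simp only [Finset.mem_filter] at hk; omega)

lemma dN_sub (s : ℕ) (x y : Fin d → ℝ) : dN g s (fun k => x k - y k) ≤ dN g s x + dN g s y := by
  have h := dN_add g s x (fun k => (-1) * y k)
  rw [dN_smul] at h
  simp only [abs_neg, abs_one, one_mul] at h
  refine le_trans (le_of_eq ?_) h
  exact dN_congr g s fun k _ => by ring

lemma uN_sub (s : ℕ) (x y : Fin d → ℝ) : uN g s (fun k => x k - y k) ≤ uN g s x + uN g s y := by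
  have h := uN_add g s x (fun k => (-1) * y k)
  rw [uN_smul] at h
  simp only [abs_neg, abs_one, one_mul] at h
  refine le_trans (le_of_eq ?_) h
  exact uN_congr g s fun k _ => by ring

lemma dN_le (s : ℕ) {x : Fin d → ℝ} {B : ℝ} (h : Dif g s x ≤ B) : dN g s x ≤ Real.sqrt B := by
  apply Real.le_sqrt_of_sq_le
  rw [dN_sq]; exact h

lemma uN_le (s : ℕ) {x : Fin d → ℝ} {B : ℝ} (h : Usq g s x ≤ B) : uN g s x ≤ Real.sqrt B := by
  apply Real.le_sqrt_of_sq_le
  rw [uN_sq]; exact h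

lemma Close_mono {ι : Type} {v : ι → Fin d → ℝ} {s : ℕ} {S : Finset ι} {ϑ ϑ' : ℝ}
    (hw : WtFacts c g) (hY : 0 ≤ c.Y) (h : ϑ ≤ ϑ') (hS : Close c g v s ϑ S) :
    Close c g v s ϑ' S := by
  intro w hw0
  refine (hS w hw0).trans ?_
  apply mul_le_mul_of_nonneg_right h
  apply Finset.sum_nonneg
  intro k _
  by_cases hk : g.t k < s
  · rw [hw0 k hk]; simp
  · exact mul_nonneg (hY.trans (hw.wt_ge s k (not_lt.1 hk))) (sq_nonneg _)

lemma Rs_mono {ι : Type} {v : ι → Fin d → ℝ} {s : ℕ} {S S' : Finset ι} (h : S ⊆ S') :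
    Rs g v s S ≤ Rs g v s S' :=
  Finset.sum_le_sum_of_subset_of_nonneg h fun _ _ _ =>
    Finset.sum_nonneg fun _ _ => by positivity

lemma Rs_union {ι : Type} [DecidableEq ι] {v : ι → Fin d → ℝ} {s : ℕ} {S S' : Finset ι}
    (h : Disjoint S S') : Rs g v s (S ∪ S') = Rs g v s S + Rs g v s S' :=
  Finset.sum_union h

/-- one term of the potential estimate -/
lemma psi_term (n : ℕ) (a e : ℝ) :
    (1 + (3 / 2) * (1 / 2 : ℝ) ^ n) * (a + e) ^ 2 ≤
      (1 + 2 * (1 / 2 : ℝ) ^ n) * a ^ 2 + 25 * ((2 : ℝ) ^ n * e ^ 2) := by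
  set r : ℝ := (1 / 2 : ℝ) ^ n with hr
  set Z : ℝ := (2 : ℝ) ^ n with hZ
  have h1 : r * Z = 1 := by
    rw [hr, hZ, ← mul_pow]; norm_num
  have hZ1 : 1 ≤ Z := one_le_pow₀ (by norm_num)
  have hr0 : 0 < r := by positivity
  have hr1 : r ≤ 1 := pow_le_one₀ (by norm_num) (by norm_num)
  have h2 : 2 * (a * e) ≤ r / 8 * a ^ 2 + 8 * Z * e ^ 2 := by
    have : 0 ≤ r / 8 * (a - 8 * Z * e) ^ 2 := by positivity
    have e1 : r / 8 * (a - 8 * Z * e) ^ 2 =
        r / 8 * a ^ 2 - 2 * (r * Z) * (a * e) + 8 * (r * Z) * Z * e ^ 2 := by ring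
    rw [e1, h1] at this
    linarith
  have h3 : (a + e) ^ 2 ≤ (1 + r / 8) * a ^ 2 + (1 + 8 * Z) * e ^ 2 := by
    have : (a + e) ^ 2 = a ^ 2 + 2 * (a * e) + e ^ 2 := by ring
    rw [this]; linarith
  calc (1 + (3 / 2) * r) * (a + e) ^ 2 ≤
      (1 + (3 / 2) * r) * ((1 + r / 8) * a ^ 2 + (1 + 8 * Z) * e ^ 2) :=
        mul_le_mul_of_nonneg_left h3 (by positivity)
    _ = ((1 + (3 / 2) * r) * (1 + r / 8)) * a ^ 2 +
        ((1 + (3 / 2) * r) * (1 + 8 * Z)) * e ^ 2 := by ring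
    _ ≤ (1 + 2 * r) * a ^ 2 + (25 * Z) * e ^ 2 := by
        apply add_le_add
        · apply mul_le_mul_of_nonneg_right _ (sq_nonneg _)
          nlinarith
        · apply mul_le_mul_of_nonneg_right _ (sq_nonneg _)
          nlinarith
    _ = _ := by ring

lemma PsiM_shift (s : ℕ) {x a e : Fin d → ℝ} (h : ∀ k, g.t k ≤ s → x k = a k + e k) :
    PsiM g s x ≤ Psi g s a + 25 * ((dN g s e) ^ 2 + (uN g s e) ^ 2) := by
  rw [dN_sq, uN_sq]
  have hsplit : ∑ k ∈ univ.filter (fun k => g.t k ≤ s), (2 : ℝ) ^ (s - g.t k) * (e k) ^ 2 =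
      Dif g s e + Usq g s e := by
    unfold Dif Usq
    have e1 : univ.filter (fun k => g.t k ≤ s) =
        univ.filter (fun k => g.t k < s) ∪ univ.filter (fun k => g.t k = s) := by
      ext k
      simp only [Finset.mem_filter, Finset.mem_univ, true_and, Finset.mem_union]
      omega
    rw [e1, Finset.sum_union]
    · congr 1
      apply Finset.sum_congr rfl
      intro k hk
      simp only [Finset.mem_filter, Finset.mem_univ, true_and] at hk
      rw [hk, Nat.sub_self, pow_zero, one_mul]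
    · rw [Finset.disjoint_left]
      intro k hk hk'
      simp only [Finset.mem_filter, Finset.mem_univ, true_and] at hk hk'
      omega
  rw [← hsplit]
  unfold PsiM Psi
  rw [Finset.mul_sum, ← Finset.sum_add_distrib]
  apply Finset.sum_le_sum
  intro k hk
  simp only [Finset.mem_filter, Finset.mem_univ, true_and] at hk
  rw [h k hk]
  exact psi_term (s - g.t k) (a k) (e k)

end stage

/-! ### simple facts -/

section facts
variable {d : ℕ} (c : Cst) (g : Stg d)

lemma ind_cases (s : ℕ) : (g.ind s = 1 ∧ ∃ k, g.t k = s) ∨ (g.ind s = 0 ∧ ∀ k, g.t k ≠ s) := by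
  unfold Stg.ind
  by_cases h : ∃ k, g.t k = s
  · left; exact ⟨if_pos h, h⟩
  · right; exact ⟨if_neg h, fun k hk => h ⟨k, hk⟩⟩

lemma ind_nonneg_sa (s : ℕ) : 0 ≤ g.ind s := by
  rcases ind_cases g s with ⟨h, _⟩ | ⟨h, _⟩
  · rw [h]; norm_num
  · rw [h]

lemma W_nonneg_sa (s : ℕ) : 0 ≤ g.W s := Finset.sum_nonneg fun _ _ => by positivity

lemma Rb_pos (s : ℕ) : 0 < Rb g s := by
  induction s with
  | zero => simp [Rb]
  | succ n ih =>
    have := ind_nonneg_sa g n
    simp only [Rb]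
    positivity

lemma Y_ge (hc : c.Good) : 1 ≤ c.Y := by
  have h1 := hc.hY
  have h2 := hc.hLa8
  have h3 : (0 : ℝ) < C0 := by unfold C0; positivity
  have h4 : (1 : ℝ) ≤ C0 := by unfold C0; norm_num
  nlinarith

lemma Db_nonneg (hY : 0 ≤ c.Y) (s : ℕ) : 0 ≤ Db c g s := by
  induction s with
  | zero => simp [Db]
  | succ n ih =>
    have h1 := ind_nonneg_sa g n
    have h2 := (Rb_pos g n).le
    have h3 := W_nonneg_sa g n
    simp only [Db]
    positivity

lemma Be_nonneg (hY : 0 ≤ c.Y) (s : ℕ) : 0 ≤ Be c g s := by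
  induction s with
  | zero => simp [Be]
  | succ n ih =>
    have h1 := ind_nonneg_sa g n
    have h1' := ind_nonneg_sa g (n + 1)
    have h2 := (Rb_pos g n).le
    have h3 := W_nonneg_sa g n
    have h4 := Db_nonneg c g hY n
    simp only [Be]
    positivity

lemma M_ge (hg : StgGood c g) (s : ℕ) : (1 : ℝ) ≤ g.M s := by
  unfold Stg.M
  split_ifs
  · simp
  · exact_mod_cast hg.m_pos _

lemma Ast_le_Nst (s : ℕ) (k0 : Fin d) (x : Fin d → ℝ) : Ast g s k0 x ≤ Nst g s k0 x := by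
  unfold Ast Nst
  apply Finset.sum_le_sum_of_subset_of_nonneg
  · intro k hk
    simp only [Finset.mem_filter, Finset.mem_univ, true_and] at hk ⊢
    exact ⟨hk.1.le, hk.2⟩
  · intro _ _ _; exact sq_nonneg _

/-- `Usq` is controlled by `Nst` -/
lemma Usq_le_of_Nst (hg : StgGood c g) (hY : 0 ≤ c.Y) (s : ℕ) (x : Fin d → ℝ)
    (h : ∀ k0, Nst g s k0 x ≤ c.Y * (g.cnt s k0 + g.M s)) :
    Usq g s x ≤ c.Y * (g.u s + g.M s) := by
  by_cases he : (univ.filter (fun k => g.t k = s)).Nonempty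
  · set k0 := (univ.filter (fun k => g.t k = s)).max' he with hk0
    have hmem : k0 ∈ univ.filter (fun k => g.t k = s) := Finset.max'_mem _ he
    have ht : g.t k0 = s := (Finset.mem_filter.1 hmem).2
    have e : univ.filter (fun k => s ≤ g.t k ∧ k ≤ k0) = univ.filter (fun k => g.t k = s) := by
      ext k
      simp only [Finset.mem_filter, Finset.mem_univ, true_and]
      constructor
      · rintro ⟨h1, h2⟩
        have := hg.t_mono h2
        omega
      · intro h1
        refine ⟨h1.ge, Finset.le_max' _ _ ?_⟩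
        simp [h1]
    have h1 := h k0
    unfold Nst Stg.cnt at h1
    rw [e] at h1
    exact h1
  · rw [Finset.not_nonempty_iff_eq_empty] at he
    unfold Usq
    rw [he]
    simp only [Finset.sum_empty]
    positivity

lemma uN_zero_of (s : ℕ) (h : ∀ k, g.t k ≠ s) (x : Fin d → ℝ) : uN g s x = 0 := by
  unfold uN nrm
  rw [Finset.sum_eq_zero, Real.sqrt_zero]
  intro k hk
  simp only [Finset.mem_filter] at hk
  exact absurd hk.2 (h k)

lemma Ast_add_le (s : ℕ) (k0 : Fin d) (x y : Fin d → ℝ) :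
    Ast g s k0 (fun k => x k + y k) ≤ 2 * Ast g s k0 x + 2 * Ast g s k0 y := by
  unfold Ast
  rw [Finset.mul_sum, Finset.mul_sum, ← Finset.sum_add_distrib]
  apply Finset.sum_le_sum
  intro k _
  nlinarith [sq_nonneg (x k - y k)]

lemma Ast_half_le (s : ℕ) (k0 : Fin d) (b : ℝ) (hb : b ^ 2 = 1 / 4) (h : Fin d → ℝ)
    (hh : ∑ k, (h k) ^ 2 ≤ 1) : Ast g s k0 (fun k => b * h k) ≤ 1 / 4 := by
  unfold Ast
  have h1 : ∑ k ∈ univ.filter (fun k => s < g.t k ∧ k ≤ k0), (b * h k) ^ 2 =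
      b ^ 2 * ∑ k ∈ univ.filter (fun k => s < g.t k ∧ k ≤ k0), (h k) ^ 2 := by
    rw [Finset.mul_sum]; exact Finset.sum_congr rfl fun k _ => by ring
  rw [h1, hb]
  have h2 : ∑ k ∈ univ.filter (fun k => s < g.t k ∧ k ≤ k0), (h k) ^ 2 ≤ ∑ k, (h k) ^ 2 :=
    Finset.sum_le_sum_of_subset_of_nonneg (Finset.filter_subset _ _) fun _ _ _ => sq_nonneg _
  linarith

/-- the sum over a separator -/
lemma sep_sum {ι : Type} [Fintype ι] (v : ι → Fin d → ℝ) (hv : ∀ i, ∑ k, (v i k) ^ 2 ≤ 1)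
    (T : Finset ι) (hT : T.card ≤ 1) : ∑ k, (∑ i ∈ T, v i k) ^ 2 ≤ 1 := by
  rcases Nat.lt_or_ge T.card 1 with h | h
  · have : T = ∅ := Finset.card_eq_zero.1 (by omega)
    rw [this]; simp
  · obtain ⟨i, hi⟩ := Finset.card_eq_one.1 (le_antisymm hT h)
    rw [hi]
    simp only [Finset.sum_singleton]
    exact hv i

end facts

/-! ### one pass -/

section pass
variable {d : ℕ} {c : Cst} {g : Stg d} {ι : Type} [Fintype ι] [DecidableEq ι]

/-- conclusion of P1 for one pair -/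
lemma pass (h1 : P1Statement) (hc : c.Good) (hg : StgGood c g) (v : ι → Fin d → ℝ)
    (hv : ∀ i, ∑ k, (v i k) ^ 2 ≤ 1) (hw : WtFacts c g)
    (par N s : ℕ) (hs : 1 ≤ s) (ϑ R Δ β : ℝ) (hϑ : 0 ≤ ϑ) (hϑ2 : ϑ ≤ 2) (hR : 0 < R)
    (pos : ι → ℕ) (p1 : ∀ i, 1 ≤ pos i) (p2 : ∀ i, pos i < 2 * N)
    (p3 : ∀ q, (univ.filter (fun i => pos i = 2 * q)).card ≤ 1)
    (hC : ∀ q < N, Close c g v s ϑ (part pos q))
    (hRs : ∀ q < N, Rs g v s (part pos q) ≤ R)
    (hD : ∀ q < N, dN g s (fun k => ∑ i ∈ part pos q, v i k) ≤ Δ)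
    (hA : ∀ j, 1 ≤ j → j ≤ 2 * N → ∀ k0, Ast g s k0 (pre v pos j) ≤
      c.Y * (g.cnt s k0 + g.M s))
    (hU : ∀ j, 1 ≤ j → j ≤ 2 * N → uN g s (pre v pos j) ≤ β) :
    ∃ pos' : ι → ℕ, (∀ i, 1 ≤ pos' i) ∧ (∀ i, pos' i < 2 * N) ∧
      (∀ q, (univ.filter (fun i => pos' i = 2 * q)).card ≤ 1) ∧
      (∀ q < N, Close c g v s (ϑ + 1) (part pos' q)) ∧
      (∀ q < N, Rs g v s (part pos' q) ≤ 2 * R) ∧
      (∀ q < N, dN g s (fun k => ∑ i ∈ part pos' q, v i k) ≤
        Δ + Real.sqrt (c.Y * R * (g.W s + 1))) ∧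
      (∀ j, (∀ q, sel par N q → j ≠ 2 * q + 2 ∧ j ≠ 2 * q + 3) → ∀ k,
        pre v pos' j k = pre v pos j k) ∧
      (∀ j q, sel par N q → (j = 2 * q + 2 ∨ j = 2 * q + 3) →
        (∀ k0, Ast g s k0 (pre v pos' j) ≤ c.Y / 25 * (g.cnt s k0 + 1) + 1 / 2) ∧
        ∃ E : Fin d → ℝ, (∀ k, g.t k ≤ s → pre v pos' j k = pre v pos j k + E k) ∧
          dN g s E ≤ Δ + Real.sqrt (c.Y * R * (g.W s + 1)) ∧
          uN g s E ≤ 2 * β + Real.sqrt (c.Y * (g.u s + 1))) := by
  classical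
  set h : ℕ → Fin d → ℝ := fun q k => ∑ i ∈ univ.filter (fun i => pos i = 2 * q + 2), v i k with hh
  have hsep : ∀ q, ∑ k, (h q k) ^ 2 ≤ 1 := by
    intro q
    apply sep_sum v hv
    have := p3 (q + 1)
    have e : 2 * (q + 1) = 2 * q + 2 := by ring
    rw [e] at this
    exact this
  have hdisj : ∀ q, Disjoint (part pos q) (part pos (q + 1)) := by
    intro q
    rw [Finset.disjoint_left]
    intro i hi hj
    simp only [part, Finset.mem_filter, Finset.mem_univ, true_and] at hi hj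
    omega
  have hpre2 : ∀ q k, pre v pos (2 * q + 2) k = pre v pos (2 * q + 1) k +
      ∑ i ∈ part pos q, v i k := fun q k => pre_succ v pos (2 * q + 1) k
  have hpre3 : ∀ q k, pre v pos (2 * q + 3) k = pre v pos (2 * q + 2) k + h q k :=
    fun q k => pre_succ v pos (2 * q + 2) k
  have hpre4 : ∀ q k, pre v pos (2 * q + 4) k = pre v pos (2 * q + 3) k +
      ∑ i ∈ part pos (q + 1), v i k := fun q k => pre_succ v pos (2 * q + 3) k
  -- the sets given by P1
  have key : ∀ q, ∃ S' : Finset ι, sel par N q → ∃ S2' : Finset ι, Disjoint S' S2' ∧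
      S' ∪ S2' = part pos q ∪ part pos (q + 1) ∧
      Close c g v s (ϑ + 1) S' ∧ Close c g v s (ϑ + 1) S2' ∧
      (∀ k0, Ast g s k0 (fun k => pre v pos (2 * q + 1) k + ∑ i ∈ S', v i k + h q k / 2) ≤
        c.Y / 50 * (g.cnt s k0 + 1)) ∧
      ∃ e : Fin d → ℝ,
        (∀ k, g.t k ≤ s → ∑ i ∈ S', v i k =
          (1 / 2) * (∑ i ∈ part pos q, v i k + ∑ i ∈ part pos (q + 1), v i k) + e k) ∧
        Usq g s e ≤ c.Y * (g.u s + 1) ∧ Dif g s e ≤ c.Y * R * (g.W s + 1) := by
    intro q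
    by_cases hq : sel par N q
    · have hq2 := hq.2
      obtain ⟨S', S2', a1, a2, a3, a4, a5, a6⟩ := h1 c hc d g hg ι v hv s hs ϑ R hϑ hϑ2 hR
        (part pos q) (part pos (q + 1)) (hdisj q) (hC q (by omega)) (hC (q + 1) hq2)
        (hRs q (by omega)) (hRs (q + 1) hq2) (pre v pos (2 * q + 1)) (pre v pos (2 * q + 4))
        (h q) (hsep q) (fun k => by rw [hpre4, hpre3, hpre2])
        (hA _ (by omega) (by omega)) (hA _ (by omega) (by omega))
      exact ⟨S', fun _ => ⟨S2', a1, a2, a3, a4, a5, a6⟩⟩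
    · exact ⟨∅, fun h => absurd h hq⟩
  choose F hF using key
  have hFsub : ∀ q, sel par N q → F q ⊆ part pos q ∪ part pos (q + 1) := by
    intro q hq
    obtain ⟨S2', a1, a2, _⟩ := hF q hq
    rw [← a2]
    exact Finset.subset_union_left
  have hex0 : 0 ≤ Real.sqrt (c.Y * R * (g.W s + 1)) := Real.sqrt_nonneg _
  have hparts : ∀ q, sel par N q → ∃ S2', part (npos par N pos F) q = F q ∧
      part (npos par N pos F) (q + 1) = S2' ∧ Disjoint (F q) S2' ∧
      F q ∪ S2' = part pos q ∪ part pos (q + 1) ∧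
      Close c g v s (ϑ + 1) (F q) ∧ Close c g v s (ϑ + 1) S2' ∧
      dN g s (fun k => ∑ i ∈ F q, v i k) ≤ Δ + Real.sqrt (c.Y * R * (g.W s + 1)) ∧
      dN g s (fun k => ∑ i ∈ S2', v i k) ≤ Δ + Real.sqrt (c.Y * R * (g.W s + 1)) := by
    intro q hq
    have hq2 := hq.2
    obtain ⟨S2', a1, a2, a3, a4, a5, e, a6, a7, a8⟩ := hF q hq
    refine ⟨S2', part_sel hq (hFsub q hq), ?_, a1, a2, a3, a4, ?_, ?_⟩
    · rw [part_sel' hq, ← a2, Finset.union_sdiff_left]
      exact Finset.sdiff_eq_self_of_disjoint a1.symm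
    · have e1 : dN g s (fun k => ∑ i ∈ F q, v i k) = dN g s (fun k =>
          (1 / 2) * (∑ i ∈ part pos q, v i k + ∑ i ∈ part pos (q + 1), v i k) + e k) :=
        dN_congr g s a6
      rw [e1]
      have b1 := dN_add g s (fun k => (1 / 2) * (∑ i ∈ part pos q, v i k +
        ∑ i ∈ part pos (q + 1), v i k)) e
      have b2 := dN_smul g s (1 / 2) (fun k => ∑ i ∈ part pos q, v i k +
        ∑ i ∈ part pos (q + 1), v i k)
      have b3 := dN_add g s (fun k => ∑ i ∈ part pos q, v i k)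
        (fun k => ∑ i ∈ part pos (q + 1), v i k)
      have b4 := hD q (by omega)
      have b5 := hD (q + 1) hq2
      have b6 := dN_le g s a8
      rw [abs_of_pos (by norm_num : (0 : ℝ) < 1 / 2)] at b2
      beta_reduce at b1 b2 b3 ⊢
      linarith
    · have e0 : ∀ k, ∑ i ∈ F q, v i k + ∑ i ∈ S2', v i k =
          ∑ i ∈ part pos q, v i k + ∑ i ∈ part pos (q + 1), v i k := by
        intro k
        rw [← Finset.sum_union a1, a2, Finset.sum_union (hdisj q)]
      have e1 : dN g s (fun k => ∑ i ∈ S2', v i k) = dN g s (fun k =>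
          (1 / 2) * (∑ i ∈ part pos q, v i k + ∑ i ∈ part pos (q + 1), v i k) - e k) := by
        apply dN_congr g s
        intro k hk
        have := a6 k hk
        have := e0 k
        linarith
      rw [e1]
      have b1 := dN_sub g s (fun k => (1 / 2) * (∑ i ∈ part pos q, v i k +
        ∑ i ∈ part pos (q + 1), v i k)) e
      have b2 := dN_smul g s (1 / 2) (fun k => ∑ i ∈ part pos q, v i k +
        ∑ i ∈ part pos (q + 1), v i k)
      have b3 := dN_add g s (fun k => ∑ i ∈ part pos q, v i k)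
        (fun k => ∑ i ∈ part pos (q + 1), v i k)
      have b4 := hD q (by omega)
      have b5 := hD (q + 1) hq2
      have b6 := dN_le g s a8
      rw [abs_of_pos (by norm_num : (0 : ℝ) < 1 / 2)] at b2
      beta_reduce at b1 b2 b3 ⊢
      linarith
  -- every part of the new structure
  have hall : ∀ q < N, Close c g v s (ϑ + 1) (part (npos par N pos F) q) ∧
      Rs g v s (part (npos par N pos F) q) ≤ 2 * R ∧
      dN g s (fun k => ∑ i ∈ part (npos par N pos F) q, v i k) ≤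
        Δ + Real.sqrt (c.Y * R * (g.W s + 1)) := by
    intro q hqN
    by_cases hq : sel par N q
    · obtain ⟨S2', b1, b2, b3, b4, b5, b6, b7, b8⟩ := hparts q hq
      rw [b1]
      refine ⟨b5, ?_, b7⟩
      calc Rs g v s (F q) ≤ Rs g v s (F q ∪ S2') := Rs_mono g Finset.subset_union_left
        _ = Rs g v s (part pos q) + Rs g v s (part pos (q + 1)) := by
            rw [b4, Rs_union g (hdisj q)]
        _ ≤ 2 * R := by
            have c1 := hRs q hqN
            have c2 := hRs (q + 1) hq.2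
            linarith
    · by_cases hq' : ∃ r, sel par N r ∧ q = r + 1
      · obtain ⟨r, hr, rfl⟩ := hq'
        obtain ⟨S2', b1, b2, b3, b4, b5, b6, b7, b8⟩ := hparts r hr
        rw [b2]
        refine ⟨b6, ?_, b8⟩
        calc Rs g v s S2' ≤ Rs g v s (F r ∪ S2') := Rs_mono g Finset.subset_union_right
          _ = Rs g v s (part pos r) + Rs g v s (part pos (r + 1)) := by
              rw [b4, Rs_union g (hdisj r)]
          _ ≤ 2 * R := by
              have c1 := hRs r (by omega)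
              have c2 := hRs (r + 1) hqN
              linarith
      · push Not at hq'
        rw [part_else hq hq']
        refine ⟨Close_mono c g hw (by linarith [Y_ge c hc]) (by linarith) (hC q hqN), ?_, ?_⟩
        · have := hRs q hqN
          linarith
        · have := hD q hqN
          linarith
  refine ⟨npos par N pos F, ?_, ?_, ?_, fun q hq => (hall q hq).1, fun q hq => (hall q hq).2.1,
    fun q hq => (hall q hq).2.2, fun j hj k => pre_else v hj k, ?_⟩
  · intro i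
    rcases npos_cases (par := par) (N := N) (pos := pos) (F := F) i with ⟨h3, _⟩ | ⟨q, _, _, h5⟩
    · rw [h3]; exact p1 i
    · rcases h5 with ⟨_, h8⟩ | ⟨_, h8⟩ <;> omega
  · intro i
    rcases npos_cases (par := par) (N := N) (pos := pos) (F := F) i with ⟨h3, _⟩ | ⟨q, hq, _, h5⟩
    · rw [h3]; exact p2 i
    · have := hq.2
      rcases h5 with ⟨_, h8⟩ | ⟨_, h8⟩ <;> omega
  · intro q
    rw [sep_eq]
    exact p3 q
  · intro j q hq hj
    have hq2 := hq.2
    obtain ⟨S2', a1, a2, a3, a4, a5, e, a6, a7, a8⟩ := hF q hq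
    have f2 := fun k => pre_sel v (k := k) hq (hFsub q hq)
    have f3 := fun k => pre_sel' v (k := k) hq (hFsub q hq)
    constructor
    · intro k0
      have g1 := a5 k0
      rcases hj with rfl | rfl
      · have e1 : pre v (npos par N pos F) (2 * q + 2) = fun k =>
            (pre v pos (2 * q + 1) k + ∑ i ∈ F q, v i k + h q k / 2) + (-(1 / 2)) * h q k := by
          funext k
          rw [f2]; ring
        rw [e1]
        have g2 := Ast_add_le g s k0 (fun k => pre v pos (2 * q + 1) k + ∑ i ∈ F q, v i k +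
          h q k / 2) (fun k => (-(1 / 2)) * h q k)
        have g3 := Ast_half_le g s k0 (-(1 / 2)) (by norm_num) (h q) (hsep q)
        beta_reduce at g2 ⊢
        linarith
      · have e1 : pre v (npos par N pos F) (2 * q + 3) = fun k =>
            (pre v pos (2 * q + 1) k + ∑ i ∈ F q, v i k + h q k / 2) + (1 / 2) * h q k := by
          funext k
          rw [f3]
          simp only [hh]
          ring
        rw [e1]
        have g2 := Ast_add_le g s k0 (fun k => pre v pos (2 * q + 1) k + ∑ i ∈ F q, v i k +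
          h q k / 2) (fun k => (1 / 2) * h q k)
        have g3 := Ast_half_le g s k0 (1 / 2) (by norm_num) (h q) (hsep q)
        beta_reduce at g2 ⊢
        linarith
    · refine ⟨fun k => (1 / 2) * (∑ i ∈ part pos (q + 1), v i k - ∑ i ∈ part pos q, v i k) + e k,
        ?_, ?_, ?_⟩
      · intro k hk
        have g1 := a6 k hk
        rcases hj with rfl | rfl
        · rw [f2, hpre2, g1]; ring
        · rw [f3, hpre3, hpre2, g1]
          simp only [hh]
          ring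
      · have b1 := dN_add g s (fun k => (1 / 2) * (∑ i ∈ part pos (q + 1), v i k -
          ∑ i ∈ part pos q, v i k)) e
        have b2 := dN_smul g s (1 / 2) (fun k => ∑ i ∈ part pos (q + 1), v i k -
          ∑ i ∈ part pos q, v i k)
        have b3 := dN_sub g s (fun k => ∑ i ∈ part pos (q + 1), v i k)
          (fun k => ∑ i ∈ part pos q, v i k)
        have b4 := hD q (by omega)
        have b5 := hD (q + 1) hq2
        have b6 := dN_le g s a8
        rw [abs_of_pos (by norm_num : (0 : ℝ) < 1 / 2)] at b2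
        beta_reduce at b1 b2 b3 ⊢
        linarith
      · have b1 := uN_add g s (fun k => (1 / 2) * (∑ i ∈ part pos (q + 1), v i k -
          ∑ i ∈ part pos q, v i k)) e
        have b2 := uN_smul g s (1 / 2) (fun k => ∑ i ∈ part pos (q + 1), v i k -
          ∑ i ∈ part pos q, v i k)
        have b3 := uN_sub g s (fun k => ∑ i ∈ part pos (q + 1), v i k)
          (fun k => ∑ i ∈ part pos q, v i k)
        have b4 : uN g s (fun k => ∑ i ∈ part pos q, v i k) ≤ β + β := by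
          have : uN g s (fun k => ∑ i ∈ part pos q, v i k) =
              uN g s (fun k => pre v pos (2 * q + 2) k - pre v pos (2 * q + 1) k) := by
            apply uN_congr g s
            intro k _
            rw [hpre2]; ring
          rw [this]
          refine (uN_sub g s _ _).trans (add_le_add (hU _ (by omega) (by omega))
            (hU _ (by omega) (by omega)))
        have b5 : uN g s (fun k => ∑ i ∈ part pos (q + 1), v i k) ≤ β + β := by
          have : uN g s (fun k => ∑ i ∈ part pos (q + 1), v i k) =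
              uN g s (fun k => pre v pos (2 * q + 4) k - pre v pos (2 * q + 3) k) := by
            apply uN_congr g s
            intro k _
            rw [hpre4]; ring
          rw [this]
          refine (uN_sub g s _ _).trans (add_le_add (hU _ (by omega) (by omega))
            (hU _ (by omega) (by omega)))
        have b6 := uN_le g s a7
        rw [abs_of_pos (by norm_num : (0 : ℝ) < 1 / 2)] at b2
        beta_reduce at b1 b2 b3 ⊢
        linarith

end pass

lemma Usq_of_uN {d : ℕ} (g : Stg d) (s : ℕ) {x : Fin d → ℝ} {B : ℝ} (h : uN g s x ≤ B) :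
    Usq g s x ≤ B ^ 2 := by
  rw [← uN_sq]
  exact pow_le_pow_left₀ (uN_nonneg g s x) h 2

lemma Dif_of_dN {d : ℕ} (g : Stg d) (s : ℕ) {x : Fin d → ℝ} {B : ℝ} (h : dN g s x ≤ B) :
    Dif g s x ≤ B ^ 2 := by
  rw [← dN_sq]
  exact pow_le_pow_left₀ (dN_nonneg g s x) h 2

lemma psi_arith {P Ps B D dn un x x' z DD : ℝ} (e4 : P ≤ Ps + 25 * (dn + un)) (e5 : Ps ≤ B)
    (e6 : dn ≤ 2 * D + (25 / 2) * x) (e7 : un ≤ 81 * z) (hx : x ≤ x') (hx0 : 0 ≤ x')
    (hz : 0 ≤ z) (hD : D ≤ DD) (hD0 : 0 ≤ DD) :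
    P ≤ B + (5000 * DD + 5000 * x' + 5000 * z) := by linarith

lemma usq_arith {Yv u M m β un i : ℝ} (hY : 0 ≤ Yv) (hβ : β ^ 2 = Yv * (u + M)) (hu : u ≤ m)
    (h0 : 0 ≤ un) (h : un ≤ 9 * β) (hi : i = 1) : un ^ 2 ≤ 81 * (Yv * (i * (M + m))) := by
  rw [hi, one_mul]
  have e8 : un ^ 2 ≤ (9 * β) ^ 2 := pow_le_pow_left₀ h0 h 2
  rw [mul_pow, hβ] at e8
  have e9 : Yv * (u + M) ≤ Yv * (M + m) := mul_le_mul_of_nonneg_left (by linarith) hY
  linarith

/-- the case `s = 0` -/
lemma stepA_zero {d : ℕ} {c : Cst} {g : Stg d} {ι : Type} [Fintype ι] [DecidableEq ι]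
    (hw : WtFacts c g) (hY0 : 0 ≤ c.Y) (v : ι → Fin d → ℝ)
    (hsum : ∀ k, ∑ i, v i k = 0) (N : ℕ) (pos : ι → ℕ) (hI : Inv c g v 0 N pos) :
    Mid c g v 0 N pos := by
  have hRb := Rb_pos g 0
  have hDb := Db_nonneg c g hY0 0
  have hBe := Be_nonneg c g hY0 0
  have hW := W_nonneg_sa g 0
  have hind := ind_nonneg_sa g 0
  have hN1 : N = 1 := hI.one rfl
  have hz : ∀ j, 1 ≤ j → j ≤ 2 * N → pre v pos j = fun _ => 0 := by
    intro j ha hb
    funext k
    have : j = 1 ∨ j = 2 * N := by omega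
    rcases this with rfl | rfl
    · exact pre_one v pos hI.pos_ge k
    · exact pre_top v pos N hI.pos_lt hsum k
  refine ⟨hI.N_pos, hI.pos_ge, hI.pos_lt, hI.sep, ?_, ?_, ?_, ?_, ?_, ?_⟩
  · intro q hq
    exact Close_mono c g hw hY0 (by norm_num) (hI.close q hq)
  · intro q hq
    have := hI.rs q hq
    linarith
  · intro q hq
    have := hI.db q hq
    have h3 : 0 ≤ 20 * c.Y * Rb g 0 * (g.W 0 + 1) := by positivity
    linarith
  · intro j a b
    rw [hz j a b]
    have : Usq g 0 (fun _ => 0) = 0 := by unfold Usq; simp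
    rw [this]
    positivity
  · intro j a b k0
    rw [hz j a b]
    have : Ast g 0 k0 (fun _ => 0) = 0 := by unfold Ast; simp
    rw [this]
    positivity
  · intro j a b
    rw [hz j a b]
    have : PsiM g 0 (fun _ => 0) = 0 := by unfold PsiM; simp
    rw [this]
    positivity

/-- both passes -/
lemma twopass (h1 : P1Statement) {d : ℕ} {c : Cst} {g : Stg d} {ι : Type} [Fintype ι]
    [DecidableEq ι] (hc : c.Good) (hg : StgGood c g) (v : ι → Fin d → ℝ)
    (hv : ∀ i, ∑ k, (v i k) ^ 2 ≤ 1) (hw : WtFacts c g) (s N : ℕ) (hs : 1 ≤ s) (pos : ι → ℕ)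
    (hI : Inv c g v s N pos) (Δ0 x0 β0 : ℝ) (hΔ0 : Δ0 = Real.sqrt (Db c g s))
    (hx0 : x0 = Real.sqrt (c.Y * Rb g s * (g.W s + 1)))
    (hβ0 : β0 = Real.sqrt (c.Y * (g.u s + g.M s))) :
    ∃ posB : ι → ℕ, (∀ i, 1 ≤ posB i) ∧ (∀ i, posB i < 2 * N) ∧
      (∀ q, (univ.filter (fun i => posB i = 2 * q)).card ≤ 1) ∧
      (∀ q < N, Close c g v s 3 (part posB q)) ∧
      (∀ q < N, Rs g v s (part posB q) ≤ 4 * Rb g s) ∧
      (∀ q < N, dN g s (fun k => ∑ i ∈ part posB q, v i k) ≤ Δ0 + (5 / 2) * x0) ∧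
      (∀ j, 1 ≤ j → j ≤ 2 * N → (j = 1 ∨ j = 2 * N) ∨
        ((∀ k0, Ast g s k0 (pre v posB j) ≤ c.Y / 25 * (g.cnt s k0 + 1) + 1 / 2) ∧
        ∃ E : Fin d → ℝ, (∀ k, g.t k ≤ s → pre v posB j k = pre v pos j k + E k) ∧
          dN g s E ≤ Δ0 + (5 / 2) * x0 ∧ uN g s E ≤ 9 * β0)) ∧
      (∀ j, 1 ≤ j → j ≤ 2 * N → uN g s (pre v pos j) ≤ β0) := by
  have hY := Y_ge c hc
  have hY0 : 0 ≤ c.Y := by linarith
  have hM := M_ge c g hg s
  have hRb := Rb_pos g s
  have hW := W_nonneg_sa g s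
  have hu0 : (0 : ℝ) ≤ g.u s := Nat.cast_nonneg _
  set x1 : ℝ := Real.sqrt (c.Y * (2 * Rb g s) * (g.W s + 1)) with hx1
  set eu : ℝ := Real.sqrt (c.Y * (g.u s + 1)) with heu
  have hΔ00 : 0 ≤ Δ0 := hΔ0 ▸ Real.sqrt_nonneg _
  have hx00 : 0 ≤ x0 := hx0 ▸ Real.sqrt_nonneg _
  have hβ00 : 0 ≤ β0 := hβ0 ▸ Real.sqrt_nonneg _
  have hx0sq : x0 ^ 2 = c.Y * Rb g s * (g.W s + 1) := by rw [hx0, Real.sq_sqrt (by positivity)]
  have hx1sq : x1 ^ 2 = c.Y * (2 * Rb g s) * (g.W s + 1) := Real.sq_sqrt (by positivity)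
  have heuβ : eu ≤ β0 := by
    rw [hβ0]
    apply Real.sqrt_le_sqrt
    apply mul_le_mul_of_nonneg_left _ hY0
    linarith
  have hx01 : x1 ≤ (3 / 2) * x0 := by
    have : x1 ^ 2 ≤ ((3 / 2) * x0) ^ 2 := by
      rw [hx1sq, mul_pow, hx0sq]
      have : 0 ≤ c.Y * Rb g s * (g.W s + 1) := by positivity
      nlinarith
    exact (abs_le_of_sq_le_sq' this (by positivity)).2
  -- pass A
  have hA0 : ∀ j, 1 ≤ j → j ≤ 2 * N → ∀ k0, Ast g s k0 (pre v pos j) ≤
      c.Y * (g.cnt s k0 + g.M s) := fun j a b k0 =>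
    (Ast_le_Nst g s k0 _).trans (hI.nst j a b k0)
  have hU0 : ∀ j, 1 ≤ j → j ≤ 2 * N → uN g s (pre v pos j) ≤ β0 := fun j a b => by
    rw [hβ0]
    exact uN_le g s (Usq_le_of_Nst c g hg hY0 s _ (hI.nst j a b))
  obtain ⟨posA, a1, a2, a3, a4, a5, a6, a7, a8⟩ := pass h1 hc hg v hv hw 0 N s hs 1 (Rb g s)
    Δ0 β0 (by norm_num) (by norm_num) hRb pos hI.pos_ge hI.pos_lt hI.sep hI.close hI.rs
    (fun q hq => by rw [hΔ0]; exact dN_le g s (hI.db q hq)) hA0 hU0
  have hsmall : ∀ (k0 : Fin d) (z : ℝ), z ≤ c.Y / 25 * (g.cnt s k0 + 1) + 1 / 2 →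
      z ≤ c.Y * (g.cnt s k0 + g.M s) := by
    intro k0 z hz
    have : (0 : ℝ) ≤ g.cnt s k0 := Nat.cast_nonneg _
    have e1 : 0 ≤ c.Y * g.cnt s k0 := by positivity
    have e2 : c.Y ≤ c.Y * g.M s := by nlinarith
    have e3 : c.Y / 25 * (g.cnt s k0 + 1) = (c.Y * g.cnt s k0) / 25 + c.Y / 25 := by ring
    have e4 : c.Y * (g.cnt s k0 + g.M s) = c.Y * g.cnt s k0 + c.Y * g.M s := by ring
    rw [e4]
    rw [e3] at hz
    linarith
  have hA1 : ∀ j, 1 ≤ j → j ≤ 2 * N → ∀ k0, Ast g s k0 (pre v posA j) ≤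
      c.Y * (g.cnt s k0 + g.M s) := by
    intro j a b k0
    by_cases hj : ∀ q, sel 0 N q → j ≠ 2 * q + 2 ∧ j ≠ 2 * q + 3
    · have : pre v posA j = pre v pos j := funext fun k => a7 j hj k
      rw [this]
      exact hA0 j a b k0
    · push Not at hj
      obtain ⟨q, hq, hj2⟩ := hj
      exact hsmall k0 _ ((a8 j q hq (by tauto)).1 k0)
  have hU1 : ∀ j, 1 ≤ j → j ≤ 2 * N → uN g s (pre v posA j) ≤ 4 * β0 := by
    intro j a b
    by_cases hj : ∀ q, sel 0 N q → j ≠ 2 * q + 2 ∧ j ≠ 2 * q + 3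
    · have : pre v posA j = pre v pos j := funext fun k => a7 j hj k
      rw [this]
      have := hU0 j a b
      linarith
    · push Not at hj
      obtain ⟨q, hq, hj2⟩ := hj
      obtain ⟨E, e1, e2, e3⟩ := (a8 j q hq (by tauto)).2
      rw [uN_congr g s e1]
      have e4 := uN_add g s (pre v pos j) E
      have e5 := hU0 j a b
      linarith
  rw [← hx0] at a6 a8
  -- pass B
  obtain ⟨posB, b1, b2, b3, b4, b5, b6, b7, b8⟩ := pass h1 hc hg v hv hw 1 N s hs (1 + 1)
    (2 * Rb g s) (Δ0 + x0) (4 * β0) (by norm_num) (by norm_num) (by positivity) posA a1 a2 a3 a4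
    a5 a6 hA1 hU1
  refine ⟨posB, b1, b2, b3, ?_, ?_, ?_, ?_, hU0⟩
  · intro q hq
    have := b4 q hq
    norm_num at this
    exact this
  · intro q hq
    have := b5 q hq
    linarith
  · intro q hq
    have := b6 q hq
    linarith
  -- the interior boundaries
  intro j ha hb
  by_cases hj : j = 1 ∨ j = 2 * N
  · left; exact hj
  right
  have hjf : ∃ q, q + 1 < N ∧ (j = 2 * q + 2 ∨ j = 2 * q + 3) :=
    ⟨(j - 2) / 2, by omega, by omega⟩
  obtain ⟨q, hqN, hj2⟩ := hjf
  rcases Nat.mod_two_eq_zero_or_one q with hq | hq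
  · -- changed in pass A only
    have h2 : ∀ r, sel 1 N r → j ≠ 2 * r + 2 ∧ j ≠ 2 * r + 3 := by
      intro r hr
      have := hr.1
      omega
    have h3 : pre v posB j = pre v posA j := funext fun k => b7 j h2 k
    rw [h3]
    obtain ⟨c1, E, c2, c3, c4⟩ := a8 j q ⟨hq, hqN⟩ hj2
    refine ⟨c1, E, c2, ?_, ?_⟩
    · linarith
    · linarith
  · -- changed in pass B only
    have h2 : ∀ r, sel 0 N r → j ≠ 2 * r + 2 ∧ j ≠ 2 * r + 3 := by
      intro r hr
      have := hr.1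
      omega
    have h3 : pre v posA j = pre v pos j := funext fun k => a7 j h2 k
    obtain ⟨c1, E, c2, c3, c4⟩ := b8 j q ⟨hq, hqN⟩ hj2
    rw [h3] at c2
    refine ⟨c1, E, c2, ?_, ?_⟩
    · linarith
    · linarith

/-- STEPA -/
theorem stepA (h1 : P1Statement) (hwt : WtStatement) : StepAStatement := by
  intro c hc d g hg ι _ _ v hv hsum s N pos hI
  have hw := hwt c hc d g hg
  have hY := Y_ge c hc
  have hY0 : 0 ≤ c.Y := by linarith
  by_cases hs : 1 ≤ s
  swap
  · have hs0 : s = 0 := by omega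
    subst hs0
    exact ⟨pos, stepA_zero hw hY0 v hsum N pos hI⟩
  have hM := M_ge c g hg s
  have hRb := Rb_pos g s
  have hDb := Db_nonneg c g hY0 s
  have hBe := Be_nonneg c g hY0 s
  have hW := W_nonneg_sa g s
  have hind := ind_nonneg_sa g s
  have hm : (1 : ℝ) ≤ g.m s := by exact_mod_cast hg.m_pos s
  have hum : (g.u s : ℝ) ≤ g.m s := by exact_mod_cast hg.u_le s
  have hu0 : (0 : ℝ) ≤ g.u s := Nat.cast_nonneg _
  obtain ⟨Δ0, hΔ0⟩ : ∃ z, z = Real.sqrt (Db c g s) := ⟨_, rfl⟩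
  obtain ⟨x0, hx0⟩ : ∃ z, z = Real.sqrt (c.Y * Rb g s * (g.W s + 1)) := ⟨_, rfl⟩
  obtain ⟨β0, hβ0⟩ : ∃ z, z = Real.sqrt (c.Y * (g.u s + g.M s)) := ⟨_, rfl⟩
  obtain ⟨posB, b1, b2, b3, b4, b5, b6, hint, hU0⟩ := twopass h1 hc hg v hv hw s N hs pos hI
    Δ0 x0 β0 hΔ0 hx0 hβ0
  have hΔ00 : 0 ≤ Δ0 := hΔ0 ▸ Real.sqrt_nonneg _
  have hx00 : 0 ≤ x0 := hx0 ▸ Real.sqrt_nonneg _
  have hβ00 : 0 ≤ β0 := hβ0 ▸ Real.sqrt_nonneg _
  have hΔsq : Δ0 ^ 2 = Db c g s := by rw [hΔ0, Real.sq_sqrt hDb]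
  have hx0sq : x0 ^ 2 = c.Y * Rb g s * (g.W s + 1) := by rw [hx0, Real.sq_sqrt (by positivity)]
  have hβsq : β0 ^ 2 = c.Y * (g.u s + g.M s) := by rw [hβ0, Real.sq_sqrt (by positivity)]
  -- the boundaries 1 and 2N
  have hzero : ∀ j, j = 1 ∨ j = 2 * N → pre v posB j = fun _ => 0 := by
    intro j hj
    funext k
    rcases hj with rfl | rfl
    · exact pre_one v posB b1 k
    · exact pre_top v posB N b2 hsum k
  have hdsq : (Δ0 + (5 / 2) * x0) ^ 2 ≤ 2 * Db c g s + (25 / 2) *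
      (c.Y * Rb g s * (g.W s + 1)) := by
    rw [← hΔsq, ← hx0sq]
    nlinarith [sq_nonneg (Δ0 - (5 / 2) * x0)]
  refine ⟨posB, hI.N_pos, b1, b2, b3, b4, b5, ?_, ?_, ?_, ?_⟩
  · intro q hq
    have e2 := Dif_of_dN g s (b6 q hq)
    have e3 : 0 ≤ c.Y * Rb g s * (g.W s + 1) := by positivity
    have e4 : 20 * c.Y * Rb g s * (g.W s + 1) = 20 * (c.Y * Rb g s * (g.W s + 1)) := by ring
    rw [e4]
    linarith
  · intro j a b
    rcases hint j a b with h | ⟨_, E, e1, _, e3⟩
    · rw [hzero j h]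
      have : Usq g s (fun _ => 0) = 0 := by unfold Usq; simp
      rw [this]
      positivity
    · have e4 : uN g s (pre v posB j) ≤ 10 * β0 := by
        rw [uN_congr g s e1]
        have e5 := uN_add g s (pre v pos j) E
        have e6 := hU0 j a b
        linarith
      have e5 := Usq_of_uN g s e4
      rw [mul_pow, hβsq] at e5
      calc _ ≤ _ := e5
        _ = _ := by ring
  · intro j a b k0
    rcases hint j a b with h | ⟨e1, _⟩
    · rw [hzero j h]
      have : Ast g s k0 (fun _ => 0) = 0 := by unfold Ast; simp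
      rw [this]
      positivity
    · exact e1 k0
  · intro j a b
    rcases hint j a b with h | ⟨_, E, e1, e2, e3⟩
    · rw [hzero j h]
      have : PsiM g s (fun _ => 0) = 0 := by unfold PsiM; simp
      rw [this]
      positivity
    · have e4 := PsiM_shift g s e1
      have e5 := hI.psi j a b
      have e6 : (dN g s E) ^ 2 ≤ (Δ0 + (5 / 2) * x0) ^ 2 :=
        pow_le_pow_left₀ (dN_nonneg g s E) e2 2
      have e7 : (uN g s E) ^ 2 ≤ 81 * (c.Y * (g.ind s * (g.M s + g.m s))) := by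
        rcases ind_cases g s with ⟨i1, _⟩ | ⟨i1, i2⟩
        · exact usq_arith hY0 hβsq hum (uN_nonneg g s E) e3 i1
        · rw [uN_zero_of g s i2, i1]
          norm_num
      have e10 : c.Y * Rb g s * (g.W s + 1) ≤ c.Y * (Rb g s * (g.W s + g.m s)) := by
        rw [mul_assoc]
        apply mul_le_mul_of_nonneg_left _ hY0
        apply mul_le_mul_of_nonneg_left _ hRb.le
        linarith
      have e11 : Db c g s ≤ c.Y * Db c g s := by nlinarith
      have e12 : 0 ≤ c.Y * (Rb g s * (g.W s + g.m s)) := by positivity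
      have e13 : 0 ≤ c.Y * (g.ind s * (g.M s + g.m s)) := by positivity
      have e14 : 5000 * c.Y * (Db c g s + Rb g s * (g.W s + g.m s) +
          g.ind s * (g.M s + g.m s)) = 5000 * (c.Y * Db c g s) +
          5000 * (c.Y * (Rb g s * (g.W s + g.m s))) +
          5000 * (c.Y * (g.ind s * (g.M s + g.m s))) := by ring
      rw [e14]
      exact psi_arith e4 e5 (e6.trans hdsq) e7 e10 e12 e13 e11 (by positivity)

end P262S
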