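import Vale.Agent.P262S.Defs

/-! P262S: STEPB, every part is split into `K` parts (bookkeeping of parts, separators, boundaries). -/

namespace P262S
namespace StepB

open Finset

variable {d : ℕ}

/-! ### constants -/

lemma La_ge {c : Cst} (hc : c.Good) : 8 ≤ c.La := hc.hLa8

lemma Y_ge {c : Cst} (hc : c.Good) : 100 ≤ c.Y := by
  have h1 := hc.hY
  have h2 := hc.hLa8
  have : (10000 : ℝ) * C0 * 8 ≤ 10000 * C0 * c.La := by
    apply mul_le_mul_of_nonneg_left h2
    unfold C0; positivity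
  have h3 : (100 : ℝ) ≤ 10000 * C0 * 8 := by unfold C0; norm_num
  linarith

lemma Th_ge {c : Cst} (hc : c.Good) : 1 ≤ c.Th := by
  have h1 := hc.hTh
  have h2 := Y_ge hc
  have : (1 : ℝ) ≤ (400 * c.Y) ^ 4 := one_le_pow₀ (by linarith)
  linarith

lemma Ks_ge {c : Cst} (hc : c.Good) : 16 ≤ (c.Ks : ℝ) := by
  have h1 := hc.hK
  have h2 := Y_ge hc
  have h3 := Th_ge hc
  have h4 : (1 : ℝ) ≤ c.Y ^ 2 := one_le_pow₀ (by linarith)
  have h5 : (1 : ℝ) ≤ c.Th * c.Y ^ 2 := by nlinarith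
  have h6 : (16 : ℝ) ≤ 2 ^ 40 * (c.Th * c.Y ^ 2) := by
    have : (16 : ℝ) ≤ 2 ^ 40 * 1 := by norm_num
    nlinarith
  nlinarith

lemma K_ge {c : Cst} (hc : c.Good) {g : Stg d} (hg : StgGood c g) (s : ℕ) :
    16 ≤ c.K g s := by
  have h1 := Ks_ge hc
  have h1' : 16 ≤ c.Ks := by exact_mod_cast h1
  unfold Cst.K
  have h2 : 1 ≤ g.m s ^ 8 := Nat.one_le_pow _ _ (hg.m_pos s)
  nlinarith

lemma Rb_pos (g : Stg d) (s : ℕ) : 0 < Rb g s := by
  induction s with
  | zero => simp [Rb]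
  | succ n ih =>
    have : 0 ≤ g.ind n := by unfold Stg.ind; split <;> norm_num
    simp only [Rb]
    linarith

lemma ind_nonneg (g : Stg d) (s : ℕ) : 0 ≤ g.ind s := by unfold Stg.ind; split <;> norm_num

lemma W_nonneg (g : Stg d) (s : ℕ) : 0 ≤ g.W s := by
  unfold Stg.W; exact sum_nonneg fun _ _ => by positivity

lemma Db_nonneg {c : Cst} (hc : c.Good) (g : Stg d) (s : ℕ) : 0 ≤ Db c g s := by
  have hY : 0 ≤ c.Y := by linarith [Y_ge hc]
  induction s with
  | zero => simp [Db]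
  | succ n ih =>
    simp only [Db]
    have h1 := Rb_pos g n
    have h2 := ind_nonneg g n
    have h3 := W_nonneg g n
    have : 0 ≤ Rb g n * (g.W n + g.m n) + g.ind n * (g.M n + g.m n) := by positivity
    positivity

/-! ### quadratic functionals -/

lemma sq_add_le {F : Finset (Fin d)} (a : Fin d → ℝ) (ha : ∀ k ∈ F, 0 ≤ a k) (x y : Fin d → ℝ) :
    ∑ k ∈ F, a k * (x k + y k) ^ 2 ≤ 2 * ∑ k ∈ F, a k * (x k) ^ 2 + 2 * ∑ k ∈ F, a k * (y k) ^ 2 := by
  rw [mul_sum, mul_sum, ← sum_add_distrib]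
  apply sum_le_sum
  intro k hk
  nlinarith [mul_nonneg (ha k hk) (sq_nonneg (x k - y k))]

lemma sq_add3_le {F : Finset (Fin d)} (a : Fin d → ℝ) (ha : ∀ k ∈ F, 0 ≤ a k)
    (x y z : Fin d → ℝ) :
    ∑ k ∈ F, a k * (x k + y k - z k) ^ 2 ≤
      3 * (∑ k ∈ F, a k * (x k) ^ 2 + ∑ k ∈ F, a k * (y k) ^ 2 + ∑ k ∈ F, a k * (z k) ^ 2) := by
  rw [← sum_add_distrib, ← sum_add_distrib, mul_sum]
  apply sum_le_sum
  intro k hk
  have h := ha k hk
  have h2 : (x k + y k - z k) ^ 2 ≤ 3 * ((x k) ^ 2 + (y k) ^ 2 + (z k) ^ 2) := by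
    nlinarith [sq_nonneg (x k - y k), sq_nonneg (x k + z k), sq_nonneg (y k + z k)]
  calc a k * (x k + y k - z k) ^ 2 ≤ a k * (3 * ((x k) ^ 2 + (y k) ^ 2 + (z k) ^ 2)) :=
        mul_le_mul_of_nonneg_left h2 h
    _ = _ := by ring

lemma sq_conv_le {F : Finset (Fin d)} (a : Fin d → ℝ) (ha : ∀ k ∈ F, 0 ≤ a k)
    (x y : Fin d → ℝ) {θ : ℝ} (h0 : 0 ≤ θ) (h1 : θ ≤ 1) :
    ∑ k ∈ F, a k * ((1 - θ) * x k + θ * y k) ^ 2 ≤
      (1 - θ) * ∑ k ∈ F, a k * (x k) ^ 2 + θ * ∑ k ∈ F, a k * (y k) ^ 2 := by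
  rw [mul_sum, mul_sum, ← sum_add_distrib]
  apply sum_le_sum
  intro k hk
  have h := ha k hk
  have h2 : ((1 - θ) * x k + θ * y k) ^ 2 ≤ (1 - θ) * (x k) ^ 2 + θ * (y k) ^ 2 := by
    nlinarith [mul_nonneg (mul_nonneg h0 (sub_nonneg.2 h1)) (sq_nonneg (x k - y k))]
  calc a k * ((1 - θ) * x k + θ * y k) ^ 2
      ≤ a k * ((1 - θ) * (x k) ^ 2 + θ * (y k) ^ 2) := mul_le_mul_of_nonneg_left h2 h
    _ = _ := by ring

/-- `T s x = Dif s x + Usq s x` -/
noncomputable def T (g : Stg d) (s : ℕ) (x : Fin d → ℝ) : ℝ :=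
  ∑ k ∈ univ.filter (fun k => g.t k ≤ s), (2 : ℝ) ^ (s - g.t k) * (x k) ^ 2

lemma T_eq (g : Stg d) (s : ℕ) (x : Fin d → ℝ) : T g s x = Dif g s x + Usq g s x := by
  classical
  unfold T Dif Usq
  have h : univ.filter (fun k => g.t k ≤ s) =
      univ.filter (fun k => g.t k < s) ∪ univ.filter (fun k => g.t k = s) := by
    ext k; simp only [mem_filter, mem_univ, true_and, mem_union]; omega
  rw [h, sum_union]
  · congr 1
    apply sum_congr rfl
    intro k hk
    simp only [mem_filter, mem_univ, true_and] at hk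
    rw [hk]; simp
  · rw [disjoint_left]
    intro k hk hk'
    simp only [mem_filter, mem_univ, true_and] at hk hk'
    omega

lemma Dif_succ (g : Stg d) (s : ℕ) (x : Fin d → ℝ) : Dif g (s + 1) x = 2 * T g s x := by
  classical
  unfold T Dif
  rw [mul_sum]
  have h : univ.filter (fun k => g.t k < s + 1) = univ.filter (fun k => g.t k ≤ s) := by
    ext k; simp only [mem_filter, mem_univ, true_and]; omega
  rw [h]
  apply sum_congr rfl
  intro k hk
  simp only [mem_filter, mem_univ, true_and] at hk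
  have : s + 1 - g.t k = (s - g.t k) + 1 := by omega
  rw [this, pow_succ]
  ring

lemma Ast_eq (g : Stg d) (s : ℕ) (k0 : Fin d) (x : Fin d → ℝ) :
    Nst g (s + 1) k0 x = Ast g s k0 x := by
  unfold Nst Ast
  rfl

lemma Ast_le_Nst (g : Stg d) (s : ℕ) (k0 : Fin d) (x : Fin d → ℝ) :
    Ast g s k0 x ≤ Nst g s k0 x := by
  unfold Nst Ast
  apply sum_le_sum_of_subset_of_nonneg
  · intro k hk
    simp only [mem_filter, mem_univ, true_and] at hk ⊢
    omega
  · intros; positivity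

lemma usq_zero (g : Stg d) (s : ℕ) (x : Fin d → ℝ) (h : ¬ ∃ k, g.t k = s) : Usq g s x = 0 := by
  unfold Usq
  apply sum_eq_zero
  intro k hk
  simp only [mem_filter, mem_univ, true_and] at hk
  exact absurd ⟨k, hk⟩ h

lemma usq_ind (g : Stg d) (s : ℕ) (x : Fin d → ℝ) {B : ℝ} (h : Usq g s x ≤ B) :
    Usq g s x ≤ g.ind s * B := by
  by_cases hk : ∃ k, g.t k = s
  · unfold Stg.ind; rw [if_pos hk]; linarith
  · unfold Stg.ind; rw [if_neg hk, usq_zero g s x hk]; simp

lemma usq_le (g : Stg d) (hmono : Monotone g.t) (s : ℕ) (x : Fin d → ℝ) {A B : ℝ} (hA : 0 ≤ A)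
    (h : ∀ k0, Nst g s k0 x ≤ A * (g.cnt s k0 + B)) :
    Usq g s x ≤ g.ind s * (A * (g.u s + B)) := by
  classical
  by_cases hk : ∃ k, g.t k = s
  · have hne : (univ.filter (fun k => g.t k = s)).Nonempty := by
      obtain ⟨k, hk⟩ := hk
      exact ⟨k, by simp [hk]⟩
    set k0 := (univ.filter (fun k => g.t k = s)).max' hne with hk0
    have hk0m : g.t k0 = s := by
      have := (univ.filter (fun k => g.t k = s)).max'_mem hne
      simpa using this
    have h1 : Usq g s x ≤ Nst g s k0 x := by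
      unfold Usq Nst
      apply sum_le_sum_of_subset_of_nonneg
      · intro k hk'
        have h2 : k ≤ k0 := (univ.filter (fun k => g.t k = s)).le_max' k hk'
        simp only [mem_filter, mem_univ, true_and] at hk' ⊢
        exact ⟨by omega, h2⟩
      · intros; positivity
    have h2 : (g.cnt s k0 : ℝ) ≤ g.u s := by
      have : g.cnt s k0 ≤ g.u s := by
        unfold Stg.cnt Stg.u
        apply card_le_card
        intro k hk'
        simp only [mem_filter, mem_univ, true_and] at hk' ⊢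
        have := hmono hk'.2
        omega
      exact_mod_cast this
    unfold Stg.ind; rw [if_pos hk, one_mul]
    refine h1.trans ((h k0).trans ?_)
    apply mul_le_mul_of_nonneg_left _ hA
    linarith
  · unfold Stg.ind; rw [if_neg hk, usq_zero g s x hk]; simp

lemma cnt_le (g : Stg d) (s : ℕ) (k0 : Fin d) :
    (g.cnt s k0 : ℝ) ≤ g.cnt (s + 1) k0 + g.u s := by
  classical
  have : g.cnt s k0 ≤ g.cnt (s + 1) k0 + g.u s := by
    unfold Stg.cnt Stg.u
    refine (card_le_card ?_).trans (card_union_le _ _)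
    intro k hk
    simp only [mem_filter, mem_univ, true_and, mem_union] at hk ⊢
    omega
  exact_mod_cast this

lemma psi_pt {z a e : ℝ} (h0 : 0 < z) (h1 : z ≤ 1) :
    (1 + z) * (a + e) ^ 2 ≤ (1 + 3 / 2 * z) * a ^ 2 + 18 * (1 / z) * e ^ 2 := by
  have h2 : z * (1 / z) = 1 := by field_simp
  set w := 1 / z with hw
  have hw1 : 1 ≤ w := by
    rw [hw, le_div_iff₀ h0]; linarith
  have h3 : 0 ≤ (z * a - 8 * e) ^ 2 * w := by positivity
  have h3' : 0 ≤ (z * a + 8 * e) ^ 2 * w := by positivity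
  have e1 : (z * a - 8 * e) ^ 2 * w = z * a ^ 2 * (z * w) - 16 * (z * w) * a * e
      + 64 * w * e ^ 2 := by ring
  have e2 : (z * a + 8 * e) ^ 2 * w = z * a ^ 2 * (z * w) + 16 * (z * w) * a * e
      + 64 * w * e ^ 2 := by ring
  rw [e1, h2] at h3
  rw [e2, h2] at h3'
  have h4 : (1 + z) * e ^ 2 ≤ 2 * w * e ^ 2 := by
    apply mul_le_mul_of_nonneg_right _ (sq_nonneg e)
    linarith
  have h5 : z * (a * e) ≤ |a * e| := by
    calc z * (a * e) ≤ |z * (a * e)| := le_abs_self _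
      _ = z * |a * e| := by rw [abs_mul, abs_of_pos h0]
      _ ≤ 1 * |a * e| := mul_le_mul_of_nonneg_right h1 (abs_nonneg _)
      _ = _ := one_mul _
  have h6 : a * e ≤ |a * e| := le_abs_self _
  have h7 : 8 * |a * e| ≤ z * a ^ 2 / 2 + 32 * w * e ^ 2 := by
    rcases abs_cases (a * e) with h | h
    · rw [h.1]; nlinarith
    · rw [h.1]; nlinarith
  nlinarith

lemma psi_step (g : Stg d) (s : ℕ) (x y e : Fin d → ℝ) {θ : ℝ} (h0 : 0 ≤ θ) (h1 : θ ≤ 1) :
    Psi g (s + 1) (fun k => (1 - θ) * x k + θ * y k + e k) ≤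
      (1 - θ) * PsiM g s x + θ * PsiM g s y + 18 * T g s e +
      3 * Usq g (s + 1) (fun k => (1 - θ) * x k + θ * y k + e k) := by
  classical
  have hsplit : Psi g (s + 1) (fun k => (1 - θ) * x k + θ * y k + e k) =
      ∑ k ∈ univ.filter (fun k => g.t k ≤ s), (1 + (1 / 2 : ℝ) ^ (s - g.t k)) *
        (((1 - θ) * x k + θ * y k) + e k) ^ 2 +
      3 * Usq g (s + 1) (fun k => (1 - θ) * x k + θ * y k + e k) := by
    unfold Psi Usq
    have h : univ.filter (fun k => g.t k ≤ s + 1) =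
        univ.filter (fun k => g.t k ≤ s) ∪ univ.filter (fun k => g.t k = s + 1) := by
      ext k; simp only [mem_filter, mem_univ, true_and, mem_union]; omega
    rw [h, sum_union]
    · congr 1
      · apply sum_congr rfl
        intro k hk
        simp only [mem_filter, mem_univ, true_and] at hk
        have : s + 1 - g.t k = (s - g.t k) + 1 := by omega
        rw [this, pow_succ]
        ring
      · rw [mul_sum]
        apply sum_congr rfl
        intro k hk
        simp only [mem_filter, mem_univ, true_and] at hk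
        rw [hk, Nat.sub_self, pow_zero]
        ring
    · rw [disjoint_left]
      intro k hk hk'
      simp only [mem_filter, mem_univ, true_and] at hk hk'
      omega
  rw [hsplit]
  have hmain : ∑ k ∈ univ.filter (fun k => g.t k ≤ s), (1 + (1 / 2 : ℝ) ^ (s - g.t k)) *
        (((1 - θ) * x k + θ * y k) + e k) ^ 2 ≤
      ∑ k ∈ univ.filter (fun k => g.t k ≤ s), (1 + (3 / 2) * (1 / 2 : ℝ) ^ (s - g.t k)) *
        ((1 - θ) * x k + θ * y k) ^ 2 + 18 * T g s e := by
    unfold T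
    rw [mul_sum, ← sum_add_distrib]
    apply sum_le_sum
    intro k hk
    have hz : (0 : ℝ) < (1 / 2) ^ (s - g.t k) := by positivity
    have hz1 : ((1 : ℝ) / 2) ^ (s - g.t k) ≤ 1 := pow_le_one₀ (by norm_num) (by norm_num)
    have h := psi_pt (a := (1 - θ) * x k + θ * y k) (e := e k) hz hz1
    have h2 : 1 / ((1 : ℝ) / 2) ^ (s - g.t k) = 2 ^ (s - g.t k) := by
      rw [one_div, ← inv_pow]; norm_num
    rw [h2] at h
    linarith
  have hconv := sq_conv_le (F := univ.filter (fun k => g.t k ≤ s))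
    (fun k => 1 + (3 / 2) * (1 / 2 : ℝ) ^ (s - g.t k)) (fun k _ => by positivity) x y h0 h1
  unfold PsiM
  linarith

lemma num_db {X Td Te1 Te2 K2 D Y R W m i u M : ℝ}
    (hT3 : X ≤ 3 * (K2 * Td + Te2 + Te1))
    (hTd2 : K2 * Td ≤ 1 / 256 * ((2 * D + 20 * Y * R * (W + 1)) + i * (400 * Y * (u + M))))
    (e1 : Te1 ≤ Y * (4 * R) * (W + m) + i * (Y / 10 * (u + m)))
    (e2 : Te2 ≤ Y * (4 * R) * (W + m) + i * (Y / 10 * (u + m)))
    (hD : 0 ≤ D)
    (q1 : Y * R * (W + 1) ≤ Y * R * (W + m))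
    (q2 : Y * (i * (u + M)) ≤ Y * (i * (M + m)))
    (q3 : Y * (i * (u + m)) ≤ 2 * (Y * (i * (M + m))))
    (q4 : 0 ≤ Y * R * (W + m)) (q5 : 0 ≤ Y * (i * (M + m))) :
    2 * X ≤ D / 16 + 10 ^ 5 * Y * (R * (W + m) + i * (M + m)) := by
  have r1 : Y * (4 * R) * (W + m) = 4 * (Y * R * (W + m)) := by ring
  have r2 : i * (Y / 10 * (u + m)) = (Y * (i * (u + m))) / 10 := by ring
  have r3 : 20 * Y * R * (W + 1) = 20 * (Y * R * (W + 1)) := by ring
  have r4 : i * (400 * Y * (u + M)) = 400 * (Y * (i * (u + M))) := by ring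
  have r5 : 10 ^ 5 * Y * (R * (W + m) + i * (M + m)) =
      10 ^ 5 * (Y * R * (W + m)) + 10 ^ 5 * (Y * (i * (M + m))) := by ring
  rw [r1, r2] at e1 e2
  rw [r3, r4] at hTd2
  rw [r5]
  linarith

lemma num_psi {P p1 Te Us B Y D R W m i u M i' u' : ℝ}
    (hst : P ≤ p1 + 18 * Te + 3 * Us)
    (hcv : p1 ≤ B + 5000 * Y * (D + R * (W + m) + i * (M + m)))
    (e1 : Te ≤ Y * (4 * R) * (W + m) + i * (Y / 10 * (u + m)))
    (hus : Us ≤ i' * (Y * (u' + m)))
    (_hY : 0 ≤ Y) (_hD : 0 ≤ D)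
    (q3 : Y * (i * (u + m)) ≤ 2 * (Y * (i * (M + m))))
    (q4 : 0 ≤ Y * R * (W + m)) (q5 : 0 ≤ Y * (i * (M + m))) (q6 : 0 ≤ Y * D)
    (q7 : Y * (i' * (u' + m)) ≤ 2 * (Y * (i' * m))) (q8 : 0 ≤ Y * (i' * m)) :
    P ≤ B + 10 ^ 5 * Y * (D + R * (W + m) + i * (M + m) + i' * m) := by
  have r1 : Y * (4 * R) * (W + m) = 4 * (Y * R * (W + m)) := by ring
  have r2 : i * (Y / 10 * (u + m)) = (Y * (i * (u + m))) / 10 := by ring
  have r3 : 5000 * Y * (D + R * (W + m) + i * (M + m)) =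
      5000 * (Y * D) + 5000 * (Y * R * (W + m)) + 5000 * (Y * (i * (M + m))) := by ring
  have r4 : i' * (Y * (u' + m)) = Y * (i' * (u' + m)) := by ring
  have r5 : 10 ^ 5 * Y * (D + R * (W + m) + i * (M + m) + i' * m) =
      10 ^ 5 * (Y * D) + 10 ^ 5 * (Y * R * (W + m)) + 10 ^ 5 * (Y * (i * (M + m))) +
      10 ^ 5 * (Y * (i' * m)) := by ring
  rw [r1, r2] at e1
  rw [r3] at hcv
  rw [r4] at hus
  rw [r5]
  linarith

lemma conv_le {a b B θ : ℝ} (ha : a ≤ B) (hb : b ≤ B) (h0 : 0 ≤ θ) (h1 : θ ≤ 1) :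
    (1 - θ) * a + θ * b ≤ B := by nlinarith

lemma num_db' {X Td Te1 Te2 K2 D Y R W m i u M : ℝ}
    (hT3 : X ≤ 3 * (K2 * Td + Te2 + Te1))
    (hTd : Td ≤ (2 * D + 20 * Y * R * (W + 1)) + i * (400 * Y * (u + M)))
    (hK0 : 0 ≤ K2) (hK : K2 ≤ 1 / 256)
    (e1 : Te1 ≤ Y * (4 * R) * (W + m) + i * (Y / 10 * (u + m)))
    (e2 : Te2 ≤ Y * (4 * R) * (W + m) + i * (Y / 10 * (u + m)))
    (hD : 0 ≤ D) (hY : 0 ≤ Y) (hR : 0 ≤ R) (hW : 0 ≤ W) (hm : 1 ≤ m) (hi : 0 ≤ i)
    (hu0 : 0 ≤ u) (hu : u ≤ m) (hM : 0 ≤ M) :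
    2 * X ≤ D / 16 + 10 ^ 5 * Y * (R * (W + m) + i * (M + m)) := by
  have hTd0 : 0 ≤ (2 * D + 20 * Y * R * (W + 1)) + i * (400 * Y * (u + M)) := by positivity
  have hTd2 : K2 * Td ≤
      1 / 256 * ((2 * D + 20 * Y * R * (W + 1)) + i * (400 * Y * (u + M))) := by
    calc K2 * Td ≤ K2 * ((2 * D + 20 * Y * R * (W + 1)) + i * (400 * Y * (u + M))) :=
          mul_le_mul_of_nonneg_left hTd hK0
      _ ≤ _ := mul_le_mul_of_nonneg_right hK hTd0
  have hYR : 0 ≤ Y * R := by positivity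
  have q1 : Y * R * (W + 1) ≤ Y * R * (W + m) :=
    mul_le_mul_of_nonneg_left (by linarith) hYR
  have q2 : Y * (i * (u + M)) ≤ Y * (i * (M + m)) :=
    mul_le_mul_of_nonneg_left (mul_le_mul_of_nonneg_left (by linarith) hi) hY
  have q3 : Y * (i * (u + m)) ≤ 2 * (Y * (i * (M + m))) := by
    have : i * (u + m) ≤ 2 * (i * (M + m)) := by
      have : i * (u + m) ≤ i * (2 * (M + m)) :=
        mul_le_mul_of_nonneg_left (by linarith) hi
      linarith
    calc Y * (i * (u + m)) ≤ Y * (2 * (i * (M + m))) := mul_le_mul_of_nonneg_left this hY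
      _ = _ := by ring
  have q4 : 0 ≤ Y * R * (W + m) := by positivity
  have q5 : 0 ≤ Y * (i * (M + m)) := by positivity
  exact num_db hT3 hTd2 e1 e2 hD q1 q2 q3 q4 q5

lemma num_psi' {P p1 Te Us B Y D R W m i u M i' u' : ℝ}
    (hst : P ≤ p1 + 18 * Te + 3 * Us)
    (hcv : p1 ≤ B + 5000 * Y * (D + R * (W + m) + i * (M + m)))
    (e1 : Te ≤ Y * (4 * R) * (W + m) + i * (Y / 10 * (u + m)))
    (hus : Us ≤ i' * (Y * (u' + m)))
    (hD : 0 ≤ D) (hY : 0 ≤ Y) (hR : 0 ≤ R) (hW : 0 ≤ W) (hm : 1 ≤ m) (hi : 0 ≤ i)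
    (hu : u ≤ m) (hM : 0 ≤ M) (hi' : 0 ≤ i') (hu' : u' ≤ m) :
    P ≤ B + 10 ^ 5 * Y * (D + R * (W + m) + i * (M + m) + i' * m) := by
  have q3 : Y * (i * (u + m)) ≤ 2 * (Y * (i * (M + m))) := by
    have : i * (u + m) ≤ 2 * (i * (M + m)) := by
      have : i * (u + m) ≤ i * (2 * (M + m)) :=
        mul_le_mul_of_nonneg_left (by linarith) hi
      linarith
    calc Y * (i * (u + m)) ≤ Y * (2 * (i * (M + m))) := mul_le_mul_of_nonneg_left this hY
      _ = _ := by ring
  have q4 : 0 ≤ Y * R * (W + m) := by positivity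
  have q5 : 0 ≤ Y * (i * (M + m)) := by positivity
  have q6 : 0 ≤ Y * D := by positivity
  have q7 : Y * (i' * (u' + m)) ≤ 2 * (Y * (i' * m)) := by
    have : i' * (u' + m) ≤ 2 * (i' * m) := by
      have : i' * (u' + m) ≤ i' * (2 * m) := mul_le_mul_of_nonneg_left (by linarith) hi'
      linarith
    calc Y * (i' * (u' + m)) ≤ Y * (2 * (i' * m)) := mul_le_mul_of_nonneg_left this hY
      _ = _ := by ring
  have q8 : 0 ≤ Y * (i' * m) := by positivity
  exact num_psi hst hcv e1 hus hY hD q3 q4 q5 q6 q7 q8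

lemma num_nst {X A1 A2 Y c c' m u : ℝ} (h : X ≤ 2 * A1 + 2 * A2)
    (h1 : A1 ≤ Y / 25 * (c + 1) + 1 / 2) (h2 : A2 ≤ Y / 10 * (c + m))
    (hc : c ≤ c' + u) (hu : u ≤ m) (hm : 1 ≤ m) (hY : 100 ≤ Y) (hc' : 0 ≤ c') :
    X ≤ Y * (c' + m) := by
  have hYc : Y * c ≤ Y * (c' + m) := mul_le_mul_of_nonneg_left (by linarith) (by linarith)
  have hYm : Y * 1 ≤ Y * m := mul_le_mul_of_nonneg_left hm (by linarith)
  have hYc0 : 0 ≤ Y * c' := by positivity
  nlinarith

lemma usq_dd (g : Stg d) (s : ℕ) (x y : Fin d → ℝ) {B : ℝ} (hx : Usq g s x ≤ B)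
    (hy : Usq g s y ≤ B) : Usq g s (fun k => y k - x k) ≤ 4 * B := by
  have : Usq g s (fun k => y k - x k) ≤ 2 * Usq g s y + 2 * Usq g s x := by
    unfold Usq
    rw [mul_sum, mul_sum, ← sum_add_distrib]
    apply sum_le_sum
    intro k _
    nlinarith [sq_nonneg (y k + x k)]
  linarith

lemma T_smul (g : Stg d) (s : ℕ) (x : Fin d → ℝ) (c : ℝ) :
    T g s (fun k => c * x k) = c ^ 2 * T g s x := by
  unfold T
  rw [mul_sum]
  apply sum_congr rfl
  intro k _
  ring

/-! ### the new positions -/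

section pos

variable {ι : Type}

/-- new positions -/
def npos (K : ℕ) (pos : ι → ℕ) (loc : ℕ → ι → ℕ) (i : ι) : ℕ :=
  if pos i % 2 = 0 then 2 * (K * (pos i / 2)) else 2 * (K * (pos i / 2)) + loc (pos i / 2) i

lemma npos_even {K : ℕ} {pos : ι → ℕ} {loc : ℕ → ι → ℕ} {i : ι} {a : ℕ} (h : pos i = 2 * a) :
    npos K pos loc i = 2 * (K * a) := by
  unfold npos
  have h1 : pos i % 2 = 0 := by omega
  have h2 : pos i / 2 = a := by omega
  rw [if_pos h1, h2]

lemma npos_odd {K : ℕ} {pos : ι → ℕ} {loc : ℕ → ι → ℕ} {i : ι} {q : ℕ} (h : pos i = 2 * q + 1) :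
    npos K pos loc i = 2 * (K * q) + loc q i := by
  unfold npos
  have h1 : ¬ pos i % 2 = 0 := by omega
  have h2 : pos i / 2 = q := by omega
  rw [if_neg h1, h2]

lemma pos_cases (pos : ι → ℕ) (i : ι) : (∃ a, pos i = 2 * a) ∨ (∃ q, pos i = 2 * q + 1) := by
  rcases Nat.even_or_odd' (pos i) with ⟨a, h | h⟩
  · exact Or.inl ⟨a, h⟩
  · exact Or.inr ⟨a, h⟩

lemma mul_cases (K a q : ℕ) : K * a ≤ K * q ∧ a ≤ q ∨ K * q + K ≤ K * a ∧ q + 1 ≤ a := by
  rcases Nat.lt_or_ge q a with h | h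
  · right
    refine ⟨?_, h⟩
    calc K * q + K = K * (q + 1) := by ring
      _ ≤ K * a := Nat.mul_le_mul_left K h
  · left; exact ⟨Nat.mul_le_mul_left K h, h⟩

variable {K : ℕ} {pos : ι → ℕ} {loc : ℕ → ι → ℕ}

lemma npos_lt_iff (_hK : 1 ≤ K)
    (hloc : ∀ i q, pos i = 2 * q + 1 → 1 ≤ loc q i ∧ loc q i < 2 * K) {q j : ℕ}
    (hj1 : 1 ≤ j) (hj2 : j ≤ 2 * K) (i : ι) :
    npos K pos loc i < 2 * (K * q) + j ↔
      pos i < 2 * q + 1 ∨ (pos i = 2 * q + 1 ∧ loc q i < j) := by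
  rcases pos_cases pos i with ⟨a, h⟩ | ⟨a, h⟩
  · rw [npos_even h]
    rcases mul_cases K a q with ⟨h1, h2⟩ | ⟨h1, h2⟩
    · constructor
      · intro _; left; omega
      · intro _; omega
    · constructor
      · intro _; exfalso; omega
      · rintro (h3 | ⟨h3, _⟩) <;> omega
  · rw [npos_odd h]
    obtain ⟨l1, l2⟩ := hloc i a h
    rcases Nat.lt_trichotomy a q with h2 | h2 | h2
    · have : K * a + K ≤ K * q := by
        calc K * a + K = K * (a + 1) := by ring
          _ ≤ K * q := Nat.mul_le_mul_left K h2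
      constructor
      · intro _; left; omega
      · intro _; omega
    · subst h2
      constructor
      · intro h3; right; exact ⟨h, by omega⟩
      · rintro (h3 | ⟨_, h3⟩) <;> omega
    · have : K * q + K ≤ K * a := by
        calc K * q + K = K * (q + 1) := by ring
          _ ≤ K * a := Nat.mul_le_mul_left K h2
      constructor
      · intro _; exfalso; omega
      · rintro (h3 | ⟨h3, _⟩) <;> omega

lemma npos_odd_iff (_hK : 1 ≤ K)
    (hloc : ∀ i q, pos i = 2 * q + 1 → 1 ≤ loc q i ∧ loc q i < 2 * K) {q r : ℕ}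
    (hr : r < K) (i : ι) :
    npos K pos loc i = 2 * (K * q + r) + 1 ↔ pos i = 2 * q + 1 ∧ loc q i = 2 * r + 1 := by
  rcases pos_cases pos i with ⟨a, h⟩ | ⟨a, h⟩
  · rw [npos_even h]
    constructor
    · intro h1; omega
    · rintro ⟨h1, _⟩; omega
  · rw [npos_odd h]
    obtain ⟨l1, l2⟩ := hloc i a h
    rcases Nat.lt_trichotomy a q with h2 | h2 | h2
    · have : K * a + K ≤ K * q := by
        calc K * a + K = K * (a + 1) := by ring
          _ ≤ K * q := Nat.mul_le_mul_left K h2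
      constructor
      · intro _; exfalso; omega
      · rintro ⟨h3, _⟩; omega
    · subst h2
      constructor
      · intro h3; exact ⟨h, by omega⟩
      · rintro ⟨_, h3⟩; omega
    · have : K * q + K ≤ K * a := by
        calc K * q + K = K * (q + 1) := by ring
          _ ≤ K * a := Nat.mul_le_mul_left K h2
      constructor
      · intro _; exfalso; omega
      · rintro ⟨h3, _⟩; omega

lemma npos_sep [Fintype ι] [DecidableEq ι] (hK : 1 ≤ K)
    (hloc : ∀ i q, pos i = 2 * q + 1 → 1 ≤ loc q i ∧ loc q i < 2 * K)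
    (hsep : ∀ q, (univ.filter (fun i => pos i = 2 * q)).card ≤ 1)
    (hsep' : ∀ q r, ((part pos q).filter (fun i => loc q i = 2 * r)).card ≤ 1) (x : ℕ) :
    (univ.filter (fun i => npos K pos loc i = 2 * x)).card ≤ 1 := by
  have hx : x = K * (x / K) + x % K := (Nat.div_add_mod x K).symm
  set q := x / K with hq
  set r := x % K with hr
  have hrK : r < K := Nat.mod_lt _ (by omega)
  by_cases h0 : r = 0
  · refine (card_le_card ?_).trans (hsep q)
    intro i hi
    simp only [mem_filter, mem_univ, true_and] at hi ⊢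
    rw [hx, h0] at hi
    rcases pos_cases pos i with ⟨a, h⟩ | ⟨a, h⟩
    · rw [npos_even h] at hi
      have : K * a = K * q := by omega
      have := Nat.eq_of_mul_eq_mul_left (by omega) this
      omega
    · rw [npos_odd h] at hi
      obtain ⟨l1, l2⟩ := hloc i a h
      exfalso
      rcases mul_cases K q a with ⟨h1, h2⟩ | ⟨h1, h2⟩
      · omega
      · omega
  · refine (card_le_card ?_).trans (hsep' q r)
    intro i hi
    simp only [mem_filter, mem_univ, true_and, part] at hi ⊢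
    rw [hx] at hi
    rcases pos_cases pos i with ⟨a, h⟩ | ⟨a, h⟩
    · rw [npos_even h] at hi
      exfalso
      rcases mul_cases K a q with ⟨h1, h2⟩ | ⟨h1, h2⟩
      · omega
      · omega
    · rw [npos_odd h] at hi
      obtain ⟨l1, l2⟩ := hloc i a h
      rcases Nat.lt_trichotomy a q with h2 | h2 | h2
      · exfalso
        have : K * a + K ≤ K * q := by
          calc K * a + K = K * (a + 1) := by ring
            _ ≤ K * q := Nat.mul_le_mul_left K h2
        omega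
      · subst h2
        exact ⟨h, by omega⟩
      · exfalso
        have : K * q + K ≤ K * a := by
          calc K * q + K = K * (q + 1) := by ring
            _ ≤ K * a := Nat.mul_le_mul_left K h2
        omega

variable [Fintype ι] [DecidableEq ι] (v : ι → Fin d → ℝ)

lemma pre_npos (hK : 1 ≤ K)
    (hloc : ∀ i q, pos i = 2 * q + 1 → 1 ≤ loc q i ∧ loc q i < 2 * K) {q j : ℕ}
    (hj1 : 1 ≤ j) (hj2 : j ≤ 2 * K) (k : Fin d) :
    pre v (npos K pos loc) (2 * (K * q) + j) k =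
      pre v pos (2 * q + 1) k + ∑ i ∈ (part pos q).filter (fun i => loc q i < j), v i k := by
  unfold pre part
  rw [← sum_union]
  · apply sum_congr _ (fun _ _ => rfl)
    ext i
    simp only [mem_filter, mem_univ, true_and, mem_union]
    exact npos_lt_iff hK hloc hj1 hj2 i
  · rw [disjoint_left]
    intro i hi hi'
    simp only [mem_filter, mem_univ, true_and] at hi hi'
    omega

lemma pre_succ (q : ℕ) (k : Fin d) :
    pre v pos (2 * q + 2) k = pre v pos (2 * q + 1) k + ∑ i ∈ part pos q, v i k := by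
  unfold pre part
  rw [← sum_union]
  · apply sum_congr _ (fun _ _ => rfl)
    ext i
    simp only [mem_filter, mem_univ, true_and, mem_union]
    omega
  · rw [disjoint_left]
    intro i hi hi'
    simp only [mem_filter, mem_univ, true_and] at hi hi'
    omega

lemma part_npos (hK : 1 ≤ K)
    (hloc : ∀ i q, pos i = 2 * q + 1 → 1 ≤ loc q i ∧ loc q i < 2 * K) {q r : ℕ}
    (hr : r < K) :
    part (npos K pos loc) (K * q + r) = (part pos q).filter (fun i => loc q i = 2 * r + 1) := by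
  unfold part
  ext i
  simp only [mem_filter, mem_univ, true_and]
  exact npos_odd_iff hK hloc hr i

lemma sum_part_eq (S : Finset ι) (lc : ι → ℕ) (r : ℕ) (k : Fin d) :
    ∑ i ∈ S.filter (fun i => lc i = 2 * r + 1), v i k =
      ∑ i ∈ S.filter (fun i => lc i < 2 * r + 2), v i k -
      ∑ i ∈ S.filter (fun i => lc i < 2 * r + 1), v i k := by
  rw [eq_sub_iff_add_eq, ← sum_union]
  · apply sum_congr _ (fun _ _ => rfl)
    ext i
    simp only [mem_filter, mem_union]
    constructor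
    · rintro (⟨h1, h2⟩ | ⟨h1, h2⟩)
      · exact ⟨h1, by omega⟩
      · exact ⟨h1, by omega⟩
    · rintro ⟨h1, h2⟩
      rcases Nat.lt_or_ge (lc i) (2 * r + 1) with h3 | h3
      · right; exact ⟨h1, h3⟩
      · left; exact ⟨h1, by omega⟩
  · rw [disjoint_left]
    intro i hi hi'
    simp only [mem_filter] at hi hi'
    omega

end pos

end StepB

open StepB Finset in
theorem stepB (h2 : P2Statement) (_hw : WtStatement) : StepBStatement := by
  classical
  intro c hc d g hg ι _ _ v hv hsum s N pos hM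
  have hRb := Rb_pos g s
  have hR : 0 < 4 * Rb g s := by linarith
  have hY : 100 ≤ c.Y := Y_ge hc
  have hY0 : 0 ≤ c.Y := by linarith
  have hK16 : 16 ≤ c.K g s := K_ge hc hg s
  have hW := W_nonneg g s
  have hDb := Db_nonneg hc g s
  have hind := ind_nonneg g s
  have hind' := ind_nonneg g (s + 1)
  have hm1 : (1 : ℝ) ≤ g.m s := by exact_mod_cast hg.m_pos s
  have hu : (g.u s : ℝ) ≤ g.m s := by exact_mod_cast hg.u_le s
  have hu' : (g.u (s + 1) : ℝ) ≤ g.m s := by exact_mod_cast hg.u_le' s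
  have hu0 : (0 : ℝ) ≤ g.u s := by positivity
  have hM0 : (0 : ℝ) ≤ g.M s := by positivity
  have hP : ∀ q, ∃ loc : ι → ℕ, q < N →
      ((∀ i ∈ part pos q, 1 ≤ loc i ∧ loc i < 2 * c.K g s) ∧
      (∀ r, ((part pos q).filter (fun i => loc i = 2 * r)).card ≤ 1) ∧
      (∀ r < c.K g s, Close c g v (s + 1) 1 ((part pos q).filter (fun i => loc i = 2 * r + 1)) ∧
        Rs g v (s + 1) ((part pos q).filter (fun i => loc i = 2 * r + 1)) ≤
          4 * Rb g s / 64 + g.ind s) ∧
      ∀ j, 1 ≤ j → j ≤ 2 * c.K g s →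
        (∀ k0, Nst g s k0 (fun k => ∑ i ∈ (part pos q).filter (fun i => loc i < j), v i k
            - (((j / 2 : ℕ) : ℝ) / c.K g s) * ∑ i ∈ part pos q, v i k) ≤
          c.Y / 10 * (g.cnt s k0 + g.m s)) ∧
        Dif g s (fun k => ∑ i ∈ (part pos q).filter (fun i => loc i < j), v i k
            - (((j / 2 : ℕ) : ℝ) / c.K g s) * ∑ i ∈ part pos q, v i k) ≤
          c.Y * (4 * Rb g s) * (g.W s + g.m s)) := by
    intro q
    by_cases hq : q < N
    · obtain ⟨loc, hl⟩ := h2 c hc d g hg ι v hv s (4 * Rb g s) hR (part pos q)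
        (hM.close q hq) (hM.rs q hq)
      exact ⟨loc, fun _ => hl⟩
    · exact ⟨fun _ => 0, fun h => absurd h hq⟩
  choose loc hloc using hP
  generalize hKdef : c.K g s = K at *
  have hK1 : 1 ≤ K := by omega
  have hKr : (16 : ℝ) ≤ (K : ℝ) := by exact_mod_cast hK16
  have hloc' : ∀ i q, pos i = 2 * q + 1 → 1 ≤ loc q i ∧ loc q i < 2 * K := by
    intro i q h
    have h1 := hM.pos_lt i
    have hq : q < N := by omega
    exact (hloc q hq).1 i (by simp [part, h])
  have hsep' : ∀ q r, ((part pos q).filter (fun i => loc q i = 2 * r)).card ≤ 1 := by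
    intro q r
    by_cases hq : q < N
    · exact (hloc q hq).2.1 r
    · have : part pos q = ∅ := by
        unfold part
        apply filter_eq_empty_iff.2
        intro i _ h
        have := hM.pos_lt i
        omega
      rw [this]; simp
  -- the errors
  set dd : ℕ → Fin d → ℝ := fun q k => ∑ i ∈ part pos q, v i k with hdd
  set eps : ℕ → ℕ → Fin d → ℝ := fun q j k =>
    ∑ i ∈ (part pos q).filter (fun i => loc q i < j), v i k
      - (((j / 2 : ℕ) : ℝ) / K) * ∑ i ∈ part pos q, v i k with heps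
  have hepsN : ∀ q < N, ∀ j, 1 ≤ j → j ≤ 2 * K → ∀ k0,
      Nst g s k0 (eps q j) ≤ c.Y / 10 * (g.cnt s k0 + g.m s) :=
    fun q hq j h1 h3 k0 => ((hloc q hq).2.2.2 j h1 h3).1 k0
  have hepsT : ∀ q < N, ∀ j, 1 ≤ j → j ≤ 2 * K →
      T g s (eps q j) ≤ c.Y * (4 * Rb g s) * (g.W s + g.m s) +
        g.ind s * (c.Y / 10 * (g.u s + g.m s)) := by
    intro q hq j h1 h3
    rw [T_eq]
    have e1 := ((hloc q hq).2.2.2 j h1 h3).2
    have e2 := usq_le g hg.t_mono s (eps q j) (A := c.Y / 10) (B := g.m s) (by positivity)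
      (hepsN q hq j h1 h3)
    exact add_le_add e1 e2
  -- decomposition of the new boundaries
  have hpre : ∀ q < N, ∀ j, 1 ≤ j → j ≤ 2 * K →
      pre v (npos K pos loc) (2 * (K * q) + j) = fun k =>
        (1 - ((j / 2 : ℕ) : ℝ) / K) * pre v pos (2 * q + 1) k +
        (((j / 2 : ℕ) : ℝ) / K) * pre v pos (2 * q + 2) k + eps q j k := by
    intro q hq j h1 h3
    funext k
    rw [pre_npos v hK1 hloc' h1 h3 k, pre_succ v q k]
    simp only [heps]
    ring
  have hidx : ∀ j', 1 ≤ j' → j' ≤ 2 * (K * N) →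
      ∃ q j, q < N ∧ 1 ≤ j ∧ j ≤ 2 * K ∧ j' = 2 * (K * q) + j := by
    intro j' h1 h3
    refine ⟨(j' - 1) / (2 * K), (j' - 1) % (2 * K) + 1, ?_, by omega, ?_, ?_⟩
    · apply Nat.div_lt_of_lt_mul
      have : 2 * K * N = 2 * (K * N) := by ring
      rw [this]; omega
    · have := Nat.mod_lt (j' - 1) (show 0 < 2 * K by omega)
      omega
    · have := Nat.div_add_mod (j' - 1) (2 * K)
      have e : 2 * K * ((j' - 1) / (2 * K)) = 2 * (K * ((j' - 1) / (2 * K))) := by ring
      rw [e] at this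
      omega
  have hth : ∀ j, j ≤ 2 * K → (0 : ℝ) ≤ ((j / 2 : ℕ) : ℝ) / K ∧ ((j / 2 : ℕ) : ℝ) / K ≤ 1 := by
    intro j h
    constructor
    · positivity
    · rw [div_le_one (by linarith)]
      have : j / 2 ≤ K := by omega
      exact_mod_cast this
  have hMs : (g.M (s + 1) : ℝ) = g.m s := by simp [Stg.M]
  have hnst : ∀ j', 1 ≤ j' → j' ≤ 2 * (K * N) → ∀ k0,
      Nst g (s + 1) k0 (pre v (npos K pos loc) j') ≤ c.Y * (g.cnt (s + 1) k0 + g.m s) := by
    intro j' h1 h3 k0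
    obtain ⟨q, j, hq, hj1, hj2, rfl⟩ := hidx j' h1 h3
    rw [hpre q hq j hj1 hj2, Ast_eq]
    obtain ⟨t0, t1⟩ := hth j hj2
    have a1 := hM.al (2 * q + 1) (by omega) (by omega) k0
    have a2 := hM.al (2 * q + 2) (by omega) (by omega) k0
    have e1 := (Ast_le_Nst g s k0 (eps q j)).trans (hepsN q hq j hj1 hj2 k0)
    have cn := cnt_le g s k0
    have hcv : Ast g s k0 (fun k => (1 - ((j / 2 : ℕ) : ℝ) / K) * pre v pos (2 * q + 1) k +
        (((j / 2 : ℕ) : ℝ) / K) * pre v pos (2 * q + 2) k) ≤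
        c.Y / 25 * (g.cnt s k0 + 1) + 1 / 2 := by
      have := sq_conv_le (F := univ.filter (fun k => s < g.t k ∧ k ≤ k0)) (fun _ => 1)
        (fun _ _ => zero_le_one) (pre v pos (2 * q + 1)) (pre v pos (2 * q + 2)) t0 t1
      simp only [one_mul] at this
      unfold Ast at a1 a2 ⊢
      exact this.trans (conv_le a1 a2 t0 t1)
    have hadd : Ast g s k0 (fun k => (1 - ((j / 2 : ℕ) : ℝ) / K) * pre v pos (2 * q + 1) k +
        (((j / 2 : ℕ) : ℝ) / K) * pre v pos (2 * q + 2) k + eps q j k) ≤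
        2 * Ast g s k0 (fun k => (1 - ((j / 2 : ℕ) : ℝ) / K) * pre v pos (2 * q + 1) k +
        (((j / 2 : ℕ) : ℝ) / K) * pre v pos (2 * q + 2) k) + 2 * Ast g s k0 (eps q j) := by
      have := sq_add_le (F := univ.filter (fun k => s < g.t k ∧ k ≤ k0)) (fun _ => 1)
        (fun _ _ => zero_le_one)
        (fun k => (1 - ((j / 2 : ℕ) : ℝ) / K) * pre v pos (2 * q + 1) k +
        (((j / 2 : ℕ) : ℝ) / K) * pre v pos (2 * q + 2) k) (eps q j)
      simp only [one_mul] at this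
      exact this
    exact num_nst hadd hcv e1 cn hu hm1 hY (by positivity)
  refine ⟨K * N, npos K pos loc, ?_⟩
  have hN1 := hM.N_pos
  have hdiv : ∀ r' < K * N, ∃ q r, q < N ∧ r < K ∧ r' = K * q + r := by
    intro r' h
    refine ⟨r' / K, r' % K, Nat.div_lt_of_lt_mul h, Nat.mod_lt _ (by omega),
      (Nat.div_add_mod _ _).symm⟩
  constructor
  · exact Nat.mul_pos (by omega) (by omega)
  · intro h; omega
  · intro i
    rcases pos_cases pos i with ⟨a, h⟩ | ⟨a, h⟩
    · rw [npos_even h]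
      have := hM.pos_ge i
      have ha : 1 ≤ a := by omega
      have : 1 ≤ K * a := Nat.mul_pos (by omega) (by omega)
      omega
    · rw [npos_odd h]
      have := (hloc' i a h).1
      omega
  · intro i
    have hlt := hM.pos_lt i
    rcases pos_cases pos i with ⟨a, h⟩ | ⟨a, h⟩
    · rw [npos_even h]
      have : K * a + K ≤ K * N := by
        calc K * a + K = K * (a + 1) := by ring
          _ ≤ K * N := Nat.mul_le_mul_left K (by omega)
      omega
    · rw [npos_odd h]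
      have h5 := (hloc' i a h).2
      have : K * a + K ≤ K * N := by
        calc K * a + K = K * (a + 1) := by ring
          _ ≤ K * N := Nat.mul_le_mul_left K (by omega)
      omega
  · intro x
    exact npos_sep hK1 hloc' hM.sep hsep' x
  · intro r' hr'
    obtain ⟨q, r, hq, hr, rfl⟩ := hdiv r' hr'
    rw [part_npos hK1 hloc' hr]
    exact ((hloc q hq).2.2.1 r hr).1
  · intro r' hr'
    obtain ⟨q, r, hq, hr, rfl⟩ := hdiv r' hr'
    rw [part_npos hK1 hloc' hr]
    have := ((hloc q hq).2.2.1 r hr).2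
    simp only [Rb]
    linarith
  · intro r' hr'
    obtain ⟨q, r, hq, hr, rfl⟩ := hdiv r' hr'
    rw [part_npos hK1 hloc' hr]
    have hx : (fun k => ∑ i ∈ (part pos q).filter (fun i => loc q i = 2 * r + 1), v i k) =
        fun k => (1 / (K : ℝ)) * dd q k + eps q (2 * r + 2) k - eps q (2 * r + 1) k := by
      funext k
      rw [sum_part_eq]
      simp only [heps, hdd]
      have e1 : (2 * r + 2) / 2 = r + 1 := by omega
      have e2 : (2 * r + 1) / 2 = r := by omega
      rw [e1, e2]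
      push_cast
      ring
    rw [hx, Dif_succ]
    have h3 := sq_add3_le (F := univ.filter (fun k => g.t k ≤ s))
      (fun k => (2 : ℝ) ^ (s - g.t k)) (fun k _ => by positivity)
      (fun k => (1 / (K : ℝ)) * dd q k) (eps q (2 * r + 2)) (eps q (2 * r + 1))
    have e1 := hepsT q hq (2 * r + 1) (by omega) (by omega)
    have e2 := hepsT q hq (2 * r + 2) (by omega) (by omega)
    have hT3 : T g s (fun k => (1 / (K : ℝ)) * dd q k + eps q (2 * r + 2) k
        - eps q (2 * r + 1) k) ≤ 3 * (T g s (fun k => (1 / (K : ℝ)) * dd q k) +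
        T g s (eps q (2 * r + 2)) + T g s (eps q (2 * r + 1))) := h3
    rw [T_smul] at hT3
    have hus : Usq g s (dd q) ≤ g.ind s * (400 * c.Y * (g.u s + g.M s)) := by
      apply usq_ind
      have hsub : dd q = fun k => pre v pos (2 * q + 2) k - pre v pos (2 * q + 1) k := by
        funext k
        rw [pre_succ v q k]; simp [hdd]
      have u1 := hM.usq (2 * q + 1) (by omega) (by omega)
      have u2 := hM.usq (2 * q + 2) (by omega) (by omega)
      rw [hsub]
      refine (usq_dd g s _ _ u1 u2).trans (le_of_eq (by ring))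
    have hTd : T g s (dd q) ≤ (2 * Db c g s + 20 * c.Y * Rb g s * (g.W s + 1)) +
        g.ind s * (400 * c.Y * (g.u s + g.M s)) := by
      rw [T_eq]; exact add_le_add (hM.db q hq) hus
    have hK2 : (1 / (K : ℝ)) ^ 2 ≤ 1 / 256 := by
      rw [div_pow, one_pow]
      apply one_div_le_one_div_of_le (by norm_num)
      nlinarith
    simp only [Db]
    exact num_db' hT3 hTd (by positivity) hK2 e1 e2 hDb hY0 hRb.le hW hm1 hind hu0 hu hM0
  · intro j' h1 h3 k0
    rw [hMs]
    exact hnst j' h1 h3 k0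
  · intro j' h1 h3
    have hnst' := fun k0 => hnst j' h1 h3 k0
    have hus := usq_le g hg.t_mono (s + 1) (pre v (npos K pos loc) j') (A := c.Y)
      (B := g.m s) hY0 hnst'
    obtain ⟨q, j, hq, hj1, hj2, rfl⟩ := hidx j' h1 h3
    rw [hpre q hq j hj1 hj2] at hus ⊢
    obtain ⟨t0, t1⟩ := hth j hj2
    have p1 := hM.psi (2 * q + 1) (by omega) (by omega)
    have p2 := hM.psi (2 * q + 2) (by omega) (by omega)
    have hst := psi_step g s (pre v pos (2 * q + 1)) (pre v pos (2 * q + 2)) (eps q j) t0 t1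
    have e1 := hepsT q hq j hj1 hj2
    have hcv := conv_le p1 p2 t0 t1
    simp only [Be]
    exact num_psi' hst hcv e1 hus hDb hY0 hRb.le hW hm1 hind hu hM0 hind' hu'

end P262S
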