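import Vale.Agent.P262S.Defs

/-! P262S, module STG: the adaptive sequence of stages. -/

namespace P262S

open Finset

namespace StgBuild

variable {d : ℕ}

theorem good_nums {c : Cst} (hc : c.Good) : 1 ≤ c.Y ∧ 1 ≤ c.Th ∧ 1000 ≤ c.Ks := by
  have h1 := hc.hY
  have h2 := hc.hLa8
  have h3 := hc.hTh
  have h4 := hc.hK
  unfold C0 at h1
  have hY : 1 ≤ c.Y := by nlinarith
  have hTh : 1 ≤ c.Th := by
    refine le_trans ?_ h3
    exact one_le_pow₀ (by linarith)
  refine ⟨hY, hTh, ?_⟩
  have h5 : (1000 : ℝ) ≤ c.Ks := by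
    refine le_trans ?_ h4
    have h6 : (1 : ℝ) ≤ c.Th * c.Y ^ 2 := one_le_mul_of_one_le_of_one_le hTh (one_le_pow₀ hY)
    nlinarith
  exact_mod_cast h5

/-- tails of the reciprocals -/
noncomputable def tl (lam : Fin d → ℝ) (k : Fin d) : ℝ :=
  ∑ k' ∈ univ.filter (fun k' => k ≤ k'), 1 / lam k'

theorem tl_anti {lam : Fin d → ℝ} (hl : ∀ k, 0 < lam k) {k k' : Fin d} (h : k ≤ k') :
    tl lam k' ≤ tl lam k := by
  refine sum_le_sum_of_subset_of_nonneg ?_ fun i _ _ => (one_div_pos.2 (hl i)).le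
  intro i hi
  simp only [mem_filter, mem_univ, true_and] at hi ⊢
  exact h.trans hi

theorem tl_ge {lam : Fin d → ℝ} (hl : ∀ k, 0 < lam k) (k : Fin d) : 1 / lam k ≤ tl lam k :=
  single_le_sum (f := fun k' => 1 / lam k') (fun i _ => (one_div_pos.2 (hl i)).le)
    (by simp)

theorem tl_pos {lam : Fin d → ℝ} (hl : ∀ k, 0 < lam k) (k : Fin d) : 0 < tl lam k :=
  (one_div_pos.2 (hl k)).trans_le (tl_ge hl k)

/-- condition of being alive -/
def cnd (c : Cst) (lam : Fin d → ℝ) (p : ℝ) (m : ℕ) (k : Fin d) : Prop :=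
  tl lam k / p ≤ 1 / (c.Th * (m : ℝ) ^ 4)

structure St (d : ℕ) where
  A : Finset (Fin d)
  H : Finset (Fin d)
  p : ℝ
  M : ℕ

open Classical in
/-- next alive set -/
noncomputable def nxt (c : Cst) (lam : Fin d → ℝ) (H : Finset (Fin d)) (p : ℝ) (m : ℕ) :
    Finset (Fin d) :=
  H.filter (fun k => cnd c lam (p * (1 / ((c.Ks * m ^ 8 : ℕ) : ℝ))) m k)

theorem mem_nxt {c : Cst} {lam : Fin d → ℝ} {H : Finset (Fin d)} {p : ℝ} {m : ℕ} {k : Fin d} :
    k ∈ nxt c lam H p m ↔ k ∈ H ∧ cnd c lam (p * (1 / ((c.Ks * m ^ 8 : ℕ) : ℝ))) m k := by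
  classical
  simp only [nxt, mem_filter]

theorem nxt_sub {c : Cst} {lam : Fin d → ℝ} {H : Finset (Fin d)} {p : ℝ} {m : ℕ} :
    nxt c lam H p m ⊆ H := fun _ h => (mem_nxt.1 h).1

def Ok (c : Cst) (lam : Fin d → ℝ) (st : St d) (m : ℕ) : Prop :=
  1 ≤ m ∧ st.M ≤ 2 * m ∧ (st.A \ st.H).card ≤ m ∧ (st.H \ nxt c lam st.H st.p m).card ≤ m

theorem exists_ok (c : Cst) (lam : Fin d → ℝ) (st : St d) : ∃ m, Ok c lam st m := by
  refine ⟨st.M + d + 1, by omega, by omega, ?_, ?_⟩
  · have := card_le_univ (st.A \ st.H)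
    rw [Fintype.card_fin] at this
    omega
  · have := card_le_univ (st.H \ nxt c lam st.H st.p (st.M + d + 1))
    rw [Fintype.card_fin] at this
    omega

open Classical in
noncomputable def pick (c : Cst) (lam : Fin d → ℝ) (st : St d) : ℕ := Nat.find (exists_ok c lam st)

theorem pick_ok (c : Cst) (lam : Fin d → ℝ) (st : St d) : Ok c lam st (pick c lam st) := by
  classical
  exact Nat.find_spec (exists_ok c lam st)

theorem pick_min (c : Cst) (lam : Fin d → ℝ) (st : St d) {m : ℕ} (h : m < pick c lam st) :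
    ¬ Ok c lam st m := by
  classical
  exact Nat.find_min (exists_ok c lam st) h

open Classical in
noncomputable def seq (c : Cst) (lam : Fin d → ℝ) : ℕ → St d
  | 0 => ⟨univ, univ.filter (fun k => cnd c lam 1 1 k), 1, 1⟩
  | s + 1 => ⟨(seq c lam s).H, nxt c lam (seq c lam s).H (seq c lam s).p
      (pick c lam (seq c lam s)),
      (seq c lam s).p * (1 / ((c.Ks * (pick c lam (seq c lam s)) ^ 8 : ℕ) : ℝ)),
      pick c lam (seq c lam s)⟩

variable {c : Cst} {lam : Fin d → ℝ}

theorem H_sub_A (s : ℕ) : (seq c lam s).H ⊆ (seq c lam s).A := by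
  cases s with
  | zero => exact subset_univ _
  | succ s => exact nxt_sub

theorem M_pos (s : ℕ) : 1 ≤ (seq c lam s).M := by
  cases s with
  | zero => exact le_rfl
  | succ s => exact (pick_ok c lam (seq c lam s)).1

theorem p_pos (hK : 1000 ≤ c.Ks) (s : ℕ) : 0 < (seq c lam s).p := by
  induction s with
  | zero => exact one_pos
  | succ s ih =>
    simp only [seq]
    have h1 := (pick_ok c lam (seq c lam s)).1
    have h2 : 0 < c.Ks * (pick c lam (seq c lam s)) ^ 8 :=
      Nat.mul_pos (by omega) (Nat.pow_pos (by omega))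
    have h3 : (0 : ℝ) < ((c.Ks * (pick c lam (seq c lam s)) ^ 8 : ℕ) : ℝ) := by exact_mod_cast h2
    positivity

theorem p_le (hK : 1000 ≤ c.Ks) (s : ℕ) : (seq c lam s).p ≤ (1 / 2) ^ s := by
  induction s with
  | zero => simp [seq]
  | succ s ih =>
    simp only [seq]
    have h1 := (pick_ok c lam (seq c lam s)).1
    have h2 : 2 ≤ c.Ks * (pick c lam (seq c lam s)) ^ 8 := by
      have := Nat.one_le_pow 8 _ h1
      nlinarith
    have h3 : (2 : ℝ) ≤ ((c.Ks * (pick c lam (seq c lam s)) ^ 8 : ℕ) : ℝ) := by exact_mod_cast h2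
    rw [pow_succ]
    exact mul_le_mul ih (one_div_le_one_div_of_le two_pos h3)
      (one_div_nonneg.2 (by linarith)) (pow_nonneg (by norm_num) _)

theorem mem_cnd {s : ℕ} {k : Fin d} (h : k ∈ (seq c lam s).H) :
    cnd c lam (seq c lam s).p (seq c lam s).M k := by
  cases s with
  | zero =>
    simp only [seq, mem_filter] at h ⊢
    simpa using h.2
  | succ s => exact (mem_nxt.1 h).2

theorem not_mem_cnd {s : ℕ} {k : Fin d} (h : k ∉ (seq c lam s).H) (h' : k ∈ (seq c lam s).A) :
    ¬ cnd c lam (seq c lam s).p (seq c lam s).M k := by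
  cases s with
  | zero =>
    simp only [seq, mem_filter, mem_univ, true_and] at h ⊢
    simpa using h
  | succ s => exact fun hh => h (mem_nxt.2 ⟨h', hh⟩)

theorem upset (hl : ∀ k, 0 < lam k) (hK : 1000 ≤ c.Ks) (s : ℕ) :
    ∀ k k' : Fin d, k ≤ k' → k ∈ (seq c lam s).H → k' ∈ (seq c lam s).H := by
  induction s with
  | zero =>
    intro k k' hkk' hk
    simp only [seq, mem_filter, mem_univ, true_and, cnd, div_one] at hk ⊢
    exact (tl_anti hl hkk').trans hk
  | succ s ih =>
    intro k k' hkk' hk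
    have hp := p_pos (lam := lam) hK (s + 1)
    have hk1 := mem_nxt.1 hk
    refine mem_nxt.2 ⟨ih k k' hkk' hk1.1, le_trans ?_ hk1.2⟩
    exact div_le_div_of_nonneg_right (tl_anti hl hkk') hp.le

theorem H_anti (s : ℕ) : (seq c lam (s + 1)).H ⊆ (seq c lam s).H := nxt_sub

theorem H_anti' {s s' : ℕ} (h : s ≤ s') : (seq c lam s').H ⊆ (seq c lam s).H := by
  induction s', h using Nat.le_induction with
  | base => exact Subset.refl _
  | succ n _ ih => exact (H_anti n).trans ih

theorem exists_leave (hl : ∀ k, 0 < lam k) (hc : c.Good) (k : Fin d) :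
    ∃ s, k ∉ (seq c lam s).H := by
  by_contra hcon
  push Not at hcon
  obtain ⟨_, hTh, hK⟩ := good_nums hc
  have h1 := tl_pos hl k
  obtain ⟨s, hs⟩ := exists_pow_lt_of_lt_one h1 (show (1 / 2 : ℝ) < 1 by norm_num)
  have h2 := mem_cnd (hcon s)
  have hp := p_pos (lam := lam) hK s
  have hp2 := p_le (lam := lam) hK s
  unfold cnd at h2
  rw [div_le_iff₀ hp] at h2
  have hM : (1 : ℝ) ≤ ((seq c lam s).M : ℝ) := by exact_mod_cast M_pos s
  have h3 : 1 / (c.Th * ((seq c lam s).M : ℝ) ^ 4) ≤ 1 := by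
    rw [div_le_one (by positivity)]
    exact one_le_mul_of_one_le_of_one_le hTh (one_le_pow₀ hM)
  nlinarith

open Classical in
noncomputable def tt (hl : ∀ k, 0 < lam k) (hc : c.Good) (k : Fin d) : ℕ :=
  Nat.find (exists_leave hl hc k)

theorem lt_tt (hl : ∀ k, 0 < lam k) (hc : c.Good) (k : Fin d) (s : ℕ) :
    s < tt hl hc k ↔ k ∈ (seq c lam s).H := by
  classical
  unfold tt
  rw [Nat.lt_find_iff]
  constructor
  · intro h
    exact not_not.1 (h s le_rfl)
  · intro h m hm
    exact not_not.2 (H_anti' hm h)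

theorem tt_eq (hl : ∀ k, 0 < lam k) (hc : c.Good) (k : Fin d) (s : ℕ) :
    tt hl hc k = s ↔ k ∈ (seq c lam s).A \ (seq c lam s).H := by
  cases s with
  | zero =>
    have := lt_tt hl hc k 0
    rw [mem_sdiff, ← this]
    constructor
    · intro h
      exact ⟨by simp [seq], by omega⟩
    · rintro ⟨_, h⟩
      omega
  | succ s =>
    have h1 := lt_tt hl hc k s
    have h2 := lt_tt hl hc k (s + 1)
    have h3 : k ∈ (seq c lam (s + 1)).A ↔ k ∈ (seq c lam s).H := Iff.rfl
    rw [mem_sdiff, h3, ← h1, ← h2]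
    omega

noncomputable def gg (hl : ∀ k, 0 < lam k) (hc : c.Good) : Stg d :=
  ⟨lam, tt hl hc, fun s => pick c lam (seq c lam s)⟩

theorem gg_M (hl : ∀ k, 0 < lam k) (hc : c.Good) (s : ℕ) :
    (gg hl hc).M s = (seq c lam s).M := by
  cases s with
  | zero => rfl
  | succ s => rfl

theorem gg_p (hl : ∀ k, 0 < lam k) (hc : c.Good) (s : ℕ) :
    c.p (gg hl hc) s = (seq c lam s).p := by
  induction s with
  | zero => simp [Cst.p, seq]
  | succ s ih =>
    unfold Cst.p at ih ⊢
    rw [prod_range_succ, ih]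
    rfl

theorem gg_u (hl : ∀ k, 0 < lam k) (hc : c.Good) (s : ℕ) :
    (gg hl hc).u s = ((seq c lam s).A \ (seq c lam s).H).card := by
  unfold Stg.u
  congr 1
  ext k
  rw [mem_filter]
  simp only [mem_univ, true_and]
  exact tt_eq hl hc k s

theorem sum_H_le (hl : ∀ k, 0 < lam k) (hc : c.Good) (s : ℕ) :
    ∑ k ∈ univ.filter (fun k => s < (gg hl hc).t k), 1 / c.lm (gg hl hc) s k ≤
      1 / (c.Th * ((gg hl hc).M s : ℝ) ^ 4) := by
  obtain ⟨_, hTh, hK⟩ := good_nums hc
  have hp := p_pos (lam := lam) hK s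
  have hM : (1 : ℝ) ≤ ((seq c lam s).M : ℝ) := by exact_mod_cast M_pos s
  have hset : univ.filter (fun k => s < (gg hl hc).t k) = (seq c lam s).H := by
    ext k
    rw [mem_filter]
    simp only [mem_univ, true_and]
    exact lt_tt hl hc k s
  rw [hset, gg_M]
  rcases (seq c lam s).H.eq_empty_or_nonempty with he | hne
  · rw [he, sum_empty]; positivity
  · obtain ⟨k0, hk0, hmin⟩ := exists_min_image _ id hne
    have h1 := mem_cnd hk0
    refine le_trans ?_ h1
    unfold tl
    rw [sum_div]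
    have h2 : ∀ k, 1 / c.lm (gg hl hc) s k = 1 / lam k / (seq c lam s).p := by
      intro k
      unfold Cst.lm
      rw [gg_p]
      have := (hl k).ne'
      have := hp.ne'
      show 1 / ((seq c lam s).p * lam k) = _
      field_simp
    simp_rw [h2]
    refine sum_le_sum_of_subset_of_nonneg ?_ fun i _ _ =>
      div_nonneg (one_div_pos.2 (hl i)).le hp.le
    intro k hk
    rw [mem_filter]
    exact ⟨mem_univ _, hmin k hk⟩

theorem pick_le (hl : ∀ k, 0 < lam k) (hc : c.Good) (s : ℕ) :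
    (((gg hl hc).m s : ℝ) - 1) ≤ (((gg hl hc).M s : ℝ) - 1) / 2 + (gg hl hc).u s +
      (gg hl hc).u (s + 1) := by
  obtain ⟨_, hTh, hK⟩ := good_nums hc
  rw [gg_M, gg_u, gg_u]
  show ((pick c lam (seq c lam s) : ℝ) - 1) ≤ _
  have hM : (1 : ℝ) ≤ ((seq c lam s).M : ℝ) := by exact_mod_cast M_pos s
  have hok := pick_ok c lam (seq c lam s)
  by_cases h1 : pick c lam (seq c lam s) = 1
  · rw [h1]
    have : (0 : ℝ) ≤ (((seq c lam s).M : ℝ) - 1) / 2 := by linarith
    push_cast
    have h2 : (0 : ℝ) ≤ (((seq c lam s).A \ (seq c lam s).H).card : ℝ) := by positivity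
    have h3 : (0 : ℝ) ≤ (((seq c lam (s + 1)).A \ (seq c lam (s + 1)).H).card : ℝ) := by
      positivity
    linarith
  · have h2 : 2 ≤ pick c lam (seq c lam s) := by
      have := hok.1
      omega
    have hnot := pick_min c lam (seq c lam s)
      (m := pick c lam (seq c lam s) - 1) (by omega)
    have key : 2 * (pick c lam (seq c lam s) - 1) < (seq c lam s).M ∨
        pick c lam (seq c lam s) - 1 < ((seq c lam s).A \ (seq c lam s).H).card ∨
        pick c lam (seq c lam s) - 1 <
          ((seq c lam (s + 1)).A \ (seq c lam (s + 1)).H).card := by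
      by_contra hcon
      push Not at hcon
      obtain ⟨c1, c2, c3⟩ := hcon
      refine hnot ⟨by omega, c1, c2, le_trans (card_le_card ?_) c3⟩
      -- monotonicity
      show (seq c lam s).H \ nxt c lam (seq c lam s).H (seq c lam s).p
          (pick c lam (seq c lam s) - 1) ⊆ (seq c lam s).H \
          nxt c lam (seq c lam s).H (seq c lam s).p (pick c lam (seq c lam s))
      refine sdiff_subset_sdiff (Subset.refl _) ?_
      intro k hk
      rw [mem_nxt] at hk ⊢
      refine ⟨hk.1, ?_⟩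
      have hk2 := hk.2
      unfold cnd at hk2 ⊢
      set a := pick c lam (seq c lam s)
      have hp := p_pos (lam := lam) hK s
      have hb1 : 1 ≤ a - 1 := by omega
      have hab : a - 1 ≤ a := by omega
      have e1 : (0 : ℝ) < ((c.Ks * (a - 1) ^ 8 : ℕ) : ℝ) := by
        have : 0 < c.Ks * (a - 1) ^ 8 := Nat.mul_pos (by omega) (Nat.pow_pos (by omega))
        exact_mod_cast this
      have e2 : ((c.Ks * (a - 1) ^ 8 : ℕ) : ℝ) ≤ ((c.Ks * a ^ 8 : ℕ) : ℝ) := by
        have : c.Ks * (a - 1) ^ 8 ≤ c.Ks * a ^ 8 := by gcongr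
        exact_mod_cast this
      have e3 : ((a - 1 : ℕ) : ℝ) ≤ (a : ℝ) := by exact_mod_cast hab
      have e4 : (1 : ℝ) ≤ ((a - 1 : ℕ) : ℝ) := by exact_mod_cast hb1
      have htl := tl_pos hl k
      calc tl lam k / ((seq c lam s).p * (1 / ((c.Ks * (a - 1) ^ 8 : ℕ) : ℝ)))
          = (tl lam k / (seq c lam s).p) * ((c.Ks * (a - 1) ^ 8 : ℕ) : ℝ) := by
            field_simp
        _ ≤ (tl lam k / (seq c lam s).p) * ((c.Ks * a ^ 8 : ℕ) : ℝ) := by
            refine mul_le_mul_of_nonneg_left e2 (by positivity)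
        _ = tl lam k / ((seq c lam s).p * (1 / ((c.Ks * a ^ 8 : ℕ) : ℝ))) := by
            field_simp
        _ ≤ 1 / (c.Th * (a : ℝ) ^ 4) := hk2
        _ ≤ 1 / (c.Th * ((a - 1 : ℕ) : ℝ) ^ 4) := by
            refine one_div_le_one_div_of_le (by positivity) ?_
            gcongr
    have hcast : ((pick c lam (seq c lam s) - 1 : ℕ) : ℝ) =
        (pick c lam (seq c lam s) : ℝ) - 1 := by
      rw [Nat.cast_sub (by omega)]
      simp
    have g2 : (0 : ℝ) ≤ (((seq c lam s).A \ (seq c lam s).H).card : ℝ) := by positivity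
    have g3 : (0 : ℝ) ≤ (((seq c lam (s + 1)).A \ (seq c lam (s + 1)).H).card : ℝ) := by
      positivity
    rw [← hcast]
    rcases key with h | h | h
    · have h' : 2 * (pick c lam (seq c lam s) - 1) + 1 ≤ (seq c lam s).M := h
      have h'' : (2 : ℝ) * ((pick c lam (seq c lam s) - 1 : ℕ) : ℝ) + 1 ≤
          ((seq c lam s).M : ℝ) := by exact_mod_cast h'
      linarith
    · have h'' : ((pick c lam (seq c lam s) - 1 : ℕ) : ℝ) <
          (((seq c lam s).A \ (seq c lam s).H).card : ℝ) := by exact_mod_cast h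
      linarith
    · have h'' : ((pick c lam (seq c lam s) - 1 : ℕ) : ℝ) <
          (((seq c lam (s + 1)).A \ (seq c lam (s + 1)).H).card : ℝ) := by exact_mod_cast h
      linarith

theorem sum_u_le (g : Stg d) (n : ℕ) : ∑ s ∈ range n, (g.u s : ℝ) ≤ d := by
  unfold Stg.u
  have h1 : ∑ s ∈ range n, (univ.filter (fun k => g.t k = s)).card ≤ d := by
    rw [← card_biUnion]
    · refine (card_le_univ _).trans ?_
      rw [Fintype.card_fin]
    · intro a _ b _ hab
      show Disjoint _ _
      rw [disjoint_left]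
      intro k hk hk'
      simp only [mem_filter, mem_univ, true_and] at hk hk'
      exact hab (hk.symm.trans hk')
  exact_mod_cast h1

theorem sum_u_le' (g : Stg d) (n : ℕ) : ∑ s ∈ range n, (g.u (s + 1) : ℝ) ≤ d := by
  have h1 := sum_u_le g (n + 1)
  rw [sum_range_succ'] at h1
  have : (0 : ℝ) ≤ g.u 0 := by positivity
  linarith

end StgBuild

open StgBuild

theorem stg : StgStatement := by
  intro c hc d lam hl hmono
  obtain ⟨_, hTh, hK⟩ := good_nums hc
  refine ⟨gg hl hc, rfl, ?_⟩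
  have u_le : ∀ s, (gg hl hc).u s ≤ (gg hl hc).m s := fun s => by
    rw [gg_u]; exact (pick_ok c lam (seq c lam s)).2.2.1
  have u_le' : ∀ s, (gg hl hc).u (s + 1) ≤ (gg hl hc).m s := fun s => by
    rw [gg_u]; exact (pick_ok c lam (seq c lam s)).2.2.2
  have t_mono : Monotone (gg hl hc).t := by
    intro k k' hkk'
    by_contra hcon
    push Not at hcon
    have h1 := (lt_tt hl hc k _).1 hcon
    have h2 := upset hl hK _ k k' hkk' h1
    have h3 := (lt_tt hl hc k' _).2 h2
    exact absurd h3 (lt_irrefl _)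
  refine ⟨hl, hmono, t_mono, fun s => (pick_ok c lam (seq c lam s)).1, u_le, u_le', ?_,
    sum_H_le hl hc, ?_, ?_⟩
  · intro s
    exact (pick_ok c lam (seq c lam (s + 1))).2.1
  · -- trans
    intro k
    set g := gg hl hc with hg
    set s := g.t k with hs
    have hp := p_pos (lam := lam) hK s
    have hM1 : 1 ≤ g.M s := by rw [hg, gg_M]; exact M_pos s
    have hM : (1 : ℝ) ≤ (g.M s : ℝ) := by exact_mod_cast hM1
    have hm1 : 1 ≤ g.m s := (pick_ok c lam (seq c lam s)).1
    have hm : (1 : ℝ) ≤ (g.m s : ℝ) := by exact_mod_cast hm1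
    have hMm : (g.M s : ℝ) ≤ 2 * g.m s := by
      have : g.M s ≤ 2 * g.m s := by rw [hg, gg_M]; exact (pick_ok c lam (seq c lam s)).2.1
      exact_mod_cast this
    have hmem := (tt_eq hl hc k s).1 rfl
    rw [mem_sdiff] at hmem
    have hnot := not_mem_cnd hmem.2 hmem.1
    unfold cnd at hnot
    rw [not_le, ← gg_M hl hc s, ← hg] at hnot
    have hlm : ∀ k', 1 / c.lm g s k' = 1 / lam k' / (seq c lam s).p := by
      intro k'
      unfold Cst.lm
      rw [hg, gg_p]
      have := (hl k').ne'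
      have := hp.ne'
      show 1 / ((seq c lam s).p * lam k') = _
      field_simp
    have hlmpos : ∀ k', 0 < c.lm g s k' := by
      intro k'
      unfold Cst.lm
      rw [hg, gg_p]
      exact mul_pos hp (hl k')
    have htl : tl lam k / (seq c lam s).p =
        ∑ k' ∈ univ.filter (fun k' => k ≤ k'), 1 / c.lm g s k' := by
      unfold tl
      rw [sum_div]
      exact sum_congr rfl fun k' _ => (hlm k').symm
    rw [htl] at hnot
    -- split
    have hsub : univ.filter (fun k' => k ≤ k') ⊆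
        univ.filter (fun k' => s + 1 < g.t k') ∪
          (univ.filter (fun k' => k ≤ k' ∧ g.t k' ≤ s + 1)) := by
      intro k' hk'
      simp only [mem_filter, mem_univ, true_and, mem_union] at hk' ⊢
      by_cases hh : s + 1 < g.t k'
      · exact Or.inl hh
      · exact Or.inr ⟨hk', by omega⟩
    have hle1 : ∑ k' ∈ univ.filter (fun k' => k ≤ k'), 1 / c.lm g s k' ≤
        ∑ k' ∈ univ.filter (fun k' => s + 1 < g.t k'), 1 / c.lm g s k' +
        ∑ k' ∈ univ.filter (fun k' => k ≤ k' ∧ g.t k' ≤ s + 1), 1 / c.lm g s k' := by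
      refine (sum_le_sum_of_subset_of_nonneg hsub
        fun i _ _ => (one_div_pos.2 (hlmpos i)).le).trans ?_
      have h0 := sum_union_inter (s₁ := univ.filter (fun k' => s + 1 < g.t k'))
        (s₂ := univ.filter (fun k' => k ≤ k' ∧ g.t k' ≤ s + 1))
        (f := fun k' => 1 / c.lm g s k')
      have h1 : 0 ≤ ∑ k' ∈ univ.filter (fun k' => s + 1 < g.t k') ∩
          univ.filter (fun k' => k ≤ k' ∧ g.t k' ≤ s + 1), 1 / c.lm g s k' :=
        sum_nonneg fun i _ => (one_div_pos.2 (hlmpos i)).le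
      linarith
    have hK0 : (0 : ℝ) < (c.K g s : ℝ) := by
      unfold Cst.K
      have : 0 < c.Ks * g.m s ^ 8 := Nat.mul_pos (by omega) (Nat.pow_pos (by omega))
      exact_mod_cast this
    have hstep : ∀ k', 1 / c.lm g s k' = (1 / (c.K g s : ℝ)) * (1 / c.lm g (s + 1) k') := by
      intro k'
      have : c.lm g (s + 1) k' = c.lm g s k' * (1 / (c.K g s : ℝ)) := by
        unfold Cst.lm Cst.p
        rw [prod_range_succ]
        ring
      rw [this]
      have := (hlmpos k').ne'
      field_simp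
    have hA : ∑ k' ∈ univ.filter (fun k' => s + 1 < g.t k'), 1 / c.lm g s k' ≤
        1 / (2 * (c.Th * (g.M s : ℝ) ^ 4)) := by
      simp_rw [hstep]
      rw [← mul_sum]
      have h1 := sum_H_le hl hc (s + 1)
      have h2 : ((gg hl hc).M (s + 1) : ℝ) = (g.m s : ℝ) := rfl
      rw [h2] at h1
      calc 1 / (c.K g s : ℝ) * ∑ k' ∈ univ.filter (fun k' => s + 1 < g.t k'),
            1 / c.lm g (s + 1) k' ≤ 1 / (c.K g s : ℝ) * (1 / (c.Th * (g.m s : ℝ) ^ 4)) :=
            mul_le_mul_of_nonneg_left h1 (by positivity)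
        _ = 1 / ((c.K g s : ℝ) * (c.Th * (g.m s : ℝ) ^ 4)) := by
            rw [one_div_mul_one_div]
        _ ≤ 1 / (2 * (c.Th * (g.M s : ℝ) ^ 4)) := by
            refine one_div_le_one_div_of_le (by positivity) ?_
            have h3 : (g.M s : ℝ) ^ 4 ≤ (2 * g.m s) ^ 4 := by gcongr
            have h4 : (1000 : ℝ) ≤ (c.K g s : ℝ) := by
              have : 1000 ≤ c.K g s := by
                unfold Cst.K
                have := Nat.one_le_pow 8 _ hm1
                nlinarith
              exact_mod_cast this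
            have h5 : (2 * (g.m s : ℝ)) ^ 4 = 16 * (g.m s : ℝ) ^ 4 := by ring
            have h6 : (0 : ℝ) < (g.m s : ℝ) ^ 4 := by positivity
            calc 2 * (c.Th * (g.M s : ℝ) ^ 4) ≤ 2 * (c.Th * (16 * (g.m s : ℝ) ^ 4)) := by
                  rw [← h5]; gcongr
              _ = 32 * (c.Th * (g.m s : ℝ) ^ 4) := by ring
              _ ≤ (c.K g s : ℝ) * (c.Th * (g.m s : ℝ) ^ 4) := by
                  refine mul_le_mul_of_nonneg_right (by linarith) (by positivity)
    have hB : ∑ k' ∈ univ.filter (fun k' => k ≤ k' ∧ g.t k' ≤ s + 1), 1 / c.lm g s k' ≤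
        (2 * g.m s) * (1 / c.lm g s k) := by
      have h1 : ∀ k' ∈ univ.filter (fun k' => k ≤ k' ∧ g.t k' ≤ s + 1),
          1 / c.lm g s k' ≤ 1 / c.lm g s k := by
        intro k' hk'
        simp only [mem_filter, mem_univ, true_and] at hk'
        refine one_div_le_one_div_of_le (hlmpos k) ?_
        unfold Cst.lm
        rw [hg, gg_p]
        exact mul_le_mul_of_nonneg_left (hmono hk'.1) hp.le
      refine (sum_le_card_nsmul _ _ _ h1).trans ?_
      rw [nsmul_eq_mul]
      refine mul_le_mul_of_nonneg_right ?_ (one_div_pos.2 (hlmpos k)).le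
      have h2 : (univ.filter (fun k' => k ≤ k' ∧ g.t k' ≤ s + 1)).card ≤ g.u s + g.u (s + 1) := by
        unfold Stg.u
        refine le_trans (card_le_card ?_) (card_union_le _ _)
        intro k' hk'
        simp only [mem_filter, mem_univ, true_and, mem_union] at hk' ⊢
        have := t_mono hk'.1
        have h4 : s ≤ g.t k' := this
        omega
      have h3 : (univ.filter (fun k' => k ≤ k' ∧ g.t k' ≤ s + 1)).card ≤ 2 * g.m s := by
        have := u_le s
        have := u_le' s
        omega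
      exact_mod_cast h3
    have hfin : 1 / (2 * (c.Th * (g.M s : ℝ) ^ 4)) < (2 * g.m s) * (1 / c.lm g s k) := by
      have h1 : 1 / (2 * (c.Th * (g.M s : ℝ) ^ 4)) = 1 / (c.Th * (g.M s : ℝ) ^ 4) / 2 := by
        field_simp
      rw [h1] at hA ⊢
      linarith
    have hlk := hlmpos k
    have hX : (0 : ℝ) < c.Th * (g.M s : ℝ) ^ 4 := by positivity
    rw [mul_one_div, div_lt_div_iff₀ (by positivity) hlk] at hfin
    nlinarith
  · intro n
    have h1 : ∑ s ∈ range n, (((gg hl hc).m s : ℝ) - 1) ≤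
        ∑ s ∈ range n, ((((gg hl hc).M s : ℝ) - 1) / 2 + (gg hl hc).u s +
          (gg hl hc).u (s + 1)) := sum_le_sum fun s _ => pick_le hl hc s
    rw [sum_add_distrib, sum_add_distrib, ← sum_div] at h1
    have h2 := sum_u_le (gg hl hc) n
    have h3 := sum_u_le' (gg hl hc) n
    have h4 : ∑ s ∈ range n, (((gg hl hc).M s : ℝ) - 1) ≤
        ∑ s ∈ range n, (((gg hl hc).m s : ℝ) - 1) := by
      cases n with
      | zero => simp
      | succ n =>
        rw [sum_range_succ']
        have h5 : (((gg hl hc).M 0 : ℝ) - 1) = 0 := by simp [Stg.M]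
        rw [h5, add_zero, sum_range_succ]
        have h6 : (0 : ℝ) ≤ ((gg hl hc).m n : ℝ) - 1 := by
          have : (1 : ℝ) ≤ ((gg hl hc).m n : ℝ) := by
            exact_mod_cast (pick_ok c lam (seq c lam n)).1
          linarith
        have h7 : ∑ k ∈ range n, (((gg hl hc).M (k + 1) : ℝ) - 1) =
            ∑ k ∈ range n, (((gg hl hc).m k : ℝ) - 1) := rfl
        rw [h7]
        linarith
    linarith

end P262S
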