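import Vale.Agent.P262S.Defs

/-! P262S, module SUM: the budgets are `O(d)`. -/

namespace P262S

open Finset

namespace SumM

variable {d : ℕ}

lemma ind_nonneg (g : Stg d) (s : ℕ) : 0 ≤ g.ind s := by
  unfold Stg.ind; split_ifs <;> norm_num

lemma ind_le_one (g : Stg d) (s : ℕ) : g.ind s ≤ 1 := by
  unfold Stg.ind; split_ifs <;> norm_num

lemma ind_le_card (g : Stg d) (s : ℕ) :
    g.ind s ≤ ((univ.filter (fun k => g.t k = s)).card : ℝ) := by
  unfold Stg.ind
  split_ifs with h
  · obtain ⟨k, hk⟩ := h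
    have : 1 ≤ (univ.filter (fun k => g.t k = s)).card :=
      Finset.card_pos.mpr ⟨k, by simp [hk]⟩
    exact_mod_cast this
  · positivity

lemma sum_ind (g : Stg d) (n : ℕ) : ∑ s ∈ range n, g.ind s ≤ d := by
  calc ∑ s ∈ range n, g.ind s ≤ ∑ s ∈ range n, ((univ.filter (fun k => g.t k = s)).card : ℝ) :=
        Finset.sum_le_sum fun s _ => ind_le_card g s
    _ = ((∑ s ∈ range n, (univ.filter (fun k => g.t k = s)).card : ℕ) : ℝ) := by push_cast; rfl
    _ ≤ ((univ : Finset (Fin d)).card : ℝ) := by
        have h1 : ∑ s ∈ range n, (univ.filter (fun k => g.t k = s)).card =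
            ((univ : Finset (Fin d)).filter (fun k => g.t k ∈ range n)).card := by
          rw [Finset.card_eq_sum_card_fiberwise (f := g.t) (t := range n)]
          · refine Finset.sum_congr rfl fun s hs => ?_
            congr 1
            ext k
            simp only [mem_filter, mem_univ, true_and]
            constructor
            · intro h; exact ⟨by rw [h]; exact hs, h⟩
            · intro h; exact h.2
          · intro k hk
            simpa using hk
        rw [h1]
        exact_mod_cast Finset.card_le_card (Finset.filter_subset _ _)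
    _ = d := by simp

lemma Rb_nonneg (g : Stg d) (s : ℕ) : 0 ≤ Rb g s := by
  induction s with
  | zero => simp [Rb]
  | succ s ih => rw [Rb]; have := ind_nonneg g s; positivity

lemma Rb_le (g : Stg d) (s : ℕ) : Rb g s ≤ 2 := by
  induction s with
  | zero => simp [Rb]
  | succ s ih => rw [Rb]; have := ind_le_one g s; linarith

lemma sum_Rb (g : Stg d) (n : ℕ) :
    ∑ s ∈ range n, Rb g s + 16 / 15 * Rb g n = 16 / 15 * (1 + ∑ s ∈ range n, g.ind s) := by
  induction n with
  | zero => simp [Rb]
  | succ n ih =>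
    rw [Finset.sum_range_succ, Finset.sum_range_succ, Rb]
    linarith

lemma W_nonneg (g : Stg d) (s : ℕ) : 0 ≤ g.W s := by
  unfold Stg.W; positivity

lemma W_step (g : Stg d) (s : ℕ) : g.W (s + 1) =
    g.W s / 2 + 1 / 2 * ((univ.filter (fun k => g.t k = s)).card : ℝ) := by
  unfold Stg.W
  have h1 : (univ.filter (fun k => g.t k < s + 1)) =
      (univ.filter (fun k => g.t k < s)) ∪ (univ.filter (fun k => g.t k = s)) := by
    ext k
    simp only [mem_filter, mem_univ, true_and, mem_union]
    omega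
  have h2 : Disjoint (univ.filter (fun k => g.t k < s)) (univ.filter (fun k => g.t k = s)) := by
    rw [Finset.disjoint_left]
    intro k hk hk'
    simp only [mem_filter, mem_univ, true_and] at hk hk'
    omega
  rw [h1, Finset.sum_union h2]
  congr 1
  · rw [Finset.sum_div]
    refine Finset.sum_congr rfl fun k hk => ?_
    simp only [mem_filter, mem_univ, true_and] at hk
    have : s + 1 - g.t k = (s - g.t k) + 1 := by omega
    rw [this, pow_succ]
    ring
  · rw [Finset.sum_congr rfl (g := fun _ => (1 / 2 : ℝ))]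
    · rw [Finset.sum_const, nsmul_eq_mul]; ring
    · intro k hk
      simp only [mem_filter, mem_univ, true_and] at hk
      rw [hk]
      simp

lemma sum_W (g : Stg d) (n : ℕ) :
    ∑ s ∈ range n, g.W s + 2 * g.W n = ∑ s ∈ range n,
      ((univ.filter (fun k => g.t k = s)).card : ℝ) := by
  induction n with
  | zero => simp [Stg.W]
  | succ n ih =>
    rw [Finset.sum_range_succ, Finset.sum_range_succ, W_step]
    linarith

lemma sum_card (g : Stg d) (n : ℕ) :
    ∑ s ∈ range n, ((univ.filter (fun k => g.t k = s)).card : ℝ) ≤ d := by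
  have h1 : ∑ s ∈ range n, (univ.filter (fun k => g.t k = s)).card =
      ((univ : Finset (Fin d)).filter (fun k => g.t k ∈ range n)).card := by
    rw [Finset.card_eq_sum_card_fiberwise (f := g.t) (t := range n)]
    · refine Finset.sum_congr rfl fun s hs => ?_
      congr 1
      ext k
      simp only [mem_filter, mem_univ, true_and]
      constructor
      · intro h; exact ⟨by rw [h]; exact hs, h⟩
      · intro h; exact h.2
    · intro k hk
      simpa using hk
  have h2 : ∑ s ∈ range n, (univ.filter (fun k => g.t k = s)).card ≤ d := by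
    rw [h1]
    exact (Finset.card_le_card (Finset.filter_subset _ _)).trans (by simp)
  exact_mod_cast h2

lemma sum_W_le (g : Stg d) (n : ℕ) : ∑ s ∈ range n, g.W s ≤ d := by
  have h1 := sum_W g n
  have h2 := sum_card g n
  have h3 := W_nonneg g n
  linarith

/-- the main increment -/
noncomputable def X (g : Stg d) (s : ℕ) : ℝ :=
  Rb g s * (g.W s + g.m s) + g.ind s * (g.M s + g.m s)

lemma sum_M (g : Stg d) (n : ℕ) :
    ∑ s ∈ range (n + 1), ((g.M s : ℝ) - 1) = ∑ s ∈ range n, ((g.m s : ℝ) - 1) := by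
  rw [Finset.sum_range_succ']
  simp [Stg.M]

lemma X_le (c : Cst) (g : Stg d) (G : StgGood c g) (s : ℕ) :
    X g s ≤ 2 * g.W s + (Rb g s + 2 * ((g.m s : ℝ) - 1)) + 2 * g.ind s + ((g.M s : ℝ) - 1) +
      ((g.m s : ℝ) - 1) := by
  have h1 : (1 : ℝ) ≤ g.m s := by exact_mod_cast G.m_pos s
  have h2 : (1 : ℝ) ≤ g.M s := by
    unfold Stg.M
    split_ifs
    · simp
    · exact_mod_cast G.m_pos _
  have h3 := Rb_nonneg g s
  have h4 := Rb_le g s
  have h5 := ind_nonneg g s
  have h6 := ind_le_one g s
  have h7 := W_nonneg g s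
  unfold X
  nlinarith [mul_nonneg (sub_nonneg.mpr h4) h7, mul_nonneg (sub_nonneg.mpr h4)
    (sub_nonneg.mpr h1), mul_nonneg (sub_nonneg.mpr h6) (sub_nonneg.mpr h1),
    mul_nonneg (sub_nonneg.mpr h6) (sub_nonneg.mpr h2)]

lemma sum_X (c : Cst) (g : Stg d) (hd : 1 ≤ d) (G : StgGood c g) (n : ℕ) :
    ∑ s ∈ range n, X g s ≤ 30 * d := by
  have hd' : (1 : ℝ) ≤ d := by exact_mod_cast hd
  have h0 := Finset.sum_le_sum (s := range n) fun s _ => X_le c g G s
  simp only [Finset.sum_add_distrib, ← Finset.mul_sum] at h0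
  have h1 := sum_W_le g n
  have h2 := sum_Rb g n
  have h3 := Rb_nonneg g n
  have h4 := sum_ind g n
  have h5 := G.sum_m n
  have h6 : ∑ s ∈ range n, ((g.M s : ℝ) - 1) ≤ 4 * d := by
    rcases n with _ | n
    · simp
    · rw [sum_M]
      exact G.sum_m n
  linarith

lemma Db_nonneg (c : Cst) (hY : 0 ≤ c.Y) (g : Stg d) (s : ℕ) : 0 ≤ Db c g s := by
  induction s with
  | zero => simp [Db]
  | succ s ih =>
    rw [Db]
    have h1 := Rb_nonneg g s
    have h2 := W_nonneg g s
    have h3 := ind_nonneg g s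
    positivity

lemma sum_Db (c : Cst) (g : Stg d) (n : ℕ) :
    ∑ s ∈ range n, Db c g s + 16 / 15 * Db c g n =
      16 / 15 * (10 ^ 5 * c.Y * ∑ s ∈ range n, X g s) := by
  induction n with
  | zero => simp [Db]
  | succ n ih =>
    rw [Finset.sum_range_succ, Finset.sum_range_succ, Db]
    unfold X at ih ⊢
    linarith

lemma Be_eq (c : Cst) (g : Stg d) (n : ℕ) : Be c g n = 10 ^ 5 * c.Y *
    (∑ s ∈ range n, Db c g s + ∑ s ∈ range n, X g s +
      ∑ s ∈ range n, g.ind (s + 1) * g.m s) := by
  induction n with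
  | zero => simp [Be]
  | succ n ih =>
    rw [Be, ih, Finset.sum_range_succ, Finset.sum_range_succ, Finset.sum_range_succ]
    unfold X
    ring

end SumM

open SumM in
/-- module SUM -/
theorem sum : SumStatement := by
  intro c hc
  have hY : 0 < c.Y := by
    have h1 := hc.hY
    have h2 := hc.hLa8
    have h3 : (0 : ℝ) < C0 := by unfold C0; positivity
    have : 0 < 10000 * C0 * c.La := by positivity
    linarith
  refine ⟨10 ^ 5 * c.Y * (16 / 15 * (10 ^ 5 * c.Y * 30) + 30 + 5), by positivity, ?_⟩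
  intro d g hd G s
  rw [Be_eq]
  have hd' : (1 : ℝ) ≤ d := by exact_mod_cast hd
  have h1 := sum_X c g hd G s
  have h2 := sum_Db c g s
  have h3 := Db_nonneg c hY.le g s
  have h4 : ∑ r ∈ range s, g.ind (r + 1) * g.m r ≤ 5 * d := by
    calc ∑ r ∈ range s, g.ind (r + 1) * g.m r
        ≤ ∑ r ∈ range s, (g.ind (r + 1) + ((g.m r : ℝ) - 1)) := by
          refine Finset.sum_le_sum fun r _ => ?_
          have a1 : (1 : ℝ) ≤ g.m r := by exact_mod_cast G.m_pos r
          have a2 := ind_nonneg g (r + 1)
          have a3 := ind_le_one g (r + 1)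
          nlinarith
      _ = ∑ r ∈ range s, g.ind (r + 1) + ∑ r ∈ range s, ((g.m r : ℝ) - 1) :=
          Finset.sum_add_distrib
      _ ≤ d + 4 * d := by
          have b1 : ∑ r ∈ range s, g.ind (r + 1) ≤ d := by
            have b2 := sum_ind g (s + 1)
            rw [Finset.sum_range_succ'] at b2
            have b3 := ind_nonneg g 0
            linarith
          exact add_le_add b1 (G.sum_m s)
      _ = 5 * d := by ring
  have h5 : ∑ r ∈ range s, Db c g r ≤ 16 / 15 * (10 ^ 5 * c.Y * (30 * d)) := by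
    have : 10 ^ 5 * c.Y * ∑ r ∈ range s, X g r ≤ 10 ^ 5 * c.Y * (30 * d) :=
      mul_le_mul_of_nonneg_left h1 (by positivity)
    linarith
  calc 10 ^ 5 * c.Y * (∑ r ∈ range s, Db c g r + ∑ r ∈ range s, X g r +
        ∑ r ∈ range s, g.ind (r + 1) * g.m r)
      ≤ 10 ^ 5 * c.Y * (16 / 15 * (10 ^ 5 * c.Y * (30 * d)) + 30 * d + 5 * d) := by
        apply mul_le_mul_of_nonneg_left _ (by positivity)
        linarith
    _ = _ := by ring

end P262S
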