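import Vale.Agent.P262S.Defs

/-! P262S, module TAIL: Gaussian Chernoff bound for diagonal quadratic forms. -/

namespace P262S

open Finset MeasureTheory

namespace TailAux

/-- the Gaussian integral of a diagonal form -/
theorem lint (n : ℕ) (b : Fin n → ℝ) (hb : ∀ t, 0 < b t) :
    ∫⁻ x : E n, ENNReal.ofReal (Real.exp (-∑ t, b t * (x t) ^ 2)) =
      ENNReal.ofReal (∏ t, Real.sqrt (Real.pi / b t)) := by
  have hmp := EuclideanSpace.volume_preserving_symm_measurableEquiv_toLp (Fin n)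
  have h1 : ∫⁻ x : E n, ENNReal.ofReal (Real.exp (-∑ t, b t * (x t) ^ 2)) =
      ∫⁻ y : Fin n → ℝ, ENNReal.ofReal (∏ t, Real.exp (-(b t) * (y t) ^ 2)) := by
    have h2 := hmp.lintegral_comp_emb (MeasurableEquiv.measurableEmbedding _)
      (fun y : Fin n → ℝ => ENNReal.ofReal (∏ t, Real.exp (-(b t) * (y t) ^ 2)))
    rw [← h2]
    refine lintegral_congr fun x => ?_
    rw [← Real.exp_sum]
    congr 2
    rw [← Finset.sum_neg_distrib]
    refine Finset.sum_congr rfl fun t _ => ?_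
    simp
  rw [h1]
  have hint : Integrable (fun y : Fin n → ℝ => ∏ t, Real.exp (-(b t) * (y t) ^ 2)) := by
    apply Integrable.fintype_prod (f := fun t (v : ℝ) => Real.exp (-(b t) * v ^ 2))
    intro t
    exact integrable_exp_neg_mul_sq (hb t)
  rw [← ofReal_integral_eq_lintegral_ofReal hint
    (Filter.Eventually.of_forall fun y => Finset.prod_nonneg fun t _ => (Real.exp_pos _).le)]
  rw [integral_fintype_prod_volume_eq_prod (f := fun t (v : ℝ) => Real.exp (-(b t) * v ^ 2))]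
  simp_rw [integral_gaussian]

theorem num {a : ℝ} (h0 : 0 ≤ a) (h1 : a ≤ 1 / 4) :
    Real.sqrt (Real.pi / (1 / 2 - a)) ≤ Real.exp (2 * a) * Real.sqrt (Real.pi / (1 / 2)) := by
  have h2 : 1 + 4 * a + 8 * a ^ 2 ≤ Real.exp (4 * a) := by
    have := Real.quadratic_le_exp_of_nonneg (show 0 ≤ 4 * a by linarith)
    nlinarith
  have h3 : 1 / (1 / 2 - a) ≤ Real.exp (4 * a) * (1 / (1 / 2)) := by
    rw [div_le_iff₀ (by linarith)]
    have h4 : (1 + 4 * a + 8 * a ^ 2) * (1 - 2 * a) ≤ Real.exp (4 * a) * (1 - 2 * a) :=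
      mul_le_mul_of_nonneg_right h2 (by linarith)
    have h5 : 1 ≤ (1 + 4 * a + 8 * a ^ 2) * (1 - 2 * a) := by
      nlinarith [mul_nonneg h0 h0, mul_nonneg h0 (mul_nonneg h0 h0), mul_nonneg h0 (sub_nonneg.2 h1),
        mul_nonneg (mul_nonneg h0 (sub_nonneg.2 h1)) h0]
    linarith
  have h6 : Real.exp (2 * a) * Real.sqrt (Real.pi / (1 / 2)) =
      Real.sqrt (Real.exp (4 * a) * (Real.pi / (1 / 2))) := by
    rw [Real.sqrt_mul (Real.exp_pos _).le]
    congr 1
    rw [Real.sqrt_eq_rpow, ← Real.exp_mul]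
    ring_nf
  rw [h6]
  apply Real.sqrt_le_sqrt
  have hpi := Real.pi_pos
  have h7 : Real.pi / (1 / 2 - a) = Real.pi * (1 / (1 / 2 - a)) := by ring
  have h8 : Real.exp (4 * a) * (Real.pi / (1 / 2)) =
      Real.pi * (Real.exp (4 * a) * (1 / (1 / 2))) := by ring
  rw [h7, h8]
  exact mul_le_mul_of_nonneg_left h3 hpi.le

end TailAux

theorem tail : TailStatement := by
  intro n α hα L
  set A : Set (E n) := {x : E n | 2 * ∑ t, α t + L < ∑ t, α t * (x t) ^ 2} with hA
  have hsq : ∀ x : E n, ‖x‖ ^ 2 = ∑ t, (x t) ^ 2 := by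
    intro x
    rw [EuclideanSpace.norm_eq, Real.sq_sqrt (Finset.sum_nonneg fun _ _ => sq_nonneg _)]
    simp
  have h1 : gam A ≤ ∫⁻ x : E n, ENNReal.ofReal (Real.exp (-(2 * ∑ t, α t + L))) *
      ENNReal.ofReal (Real.exp (-∑ t, (1 / 2 - α t) * (x t) ^ 2)) := by
    unfold gam
    have hAm : MeasurableSet A := by
      apply measurableSet_lt measurable_const
      fun_prop
    rw [← lintegral_indicator hAm]
    apply lintegral_mono
    intro x
    by_cases hx : x ∈ A
    · rw [Set.indicator_of_mem hx]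
      beta_reduce
      rw [← ENNReal.ofReal_mul (Real.exp_pos _).le, ← Real.exp_add]
      apply ENNReal.ofReal_le_ofReal
      apply Real.exp_le_exp.mpr
      rw [hsq]
      have h2 : ∑ t, (1 / 2 - α t) * (x t) ^ 2 =
          (1 / 2) * ∑ t, (x t) ^ 2 - ∑ t, α t * (x t) ^ 2 := by
        rw [Finset.mul_sum, ← Finset.sum_sub_distrib]
        exact Finset.sum_congr rfl fun t _ => by ring
      rw [h2]
      have h3 : 2 * ∑ t, α t + L < ∑ t, α t * (x t) ^ 2 := hx
      linarith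
    · rw [Set.indicator_of_notMem hx]
      exact bot_le
  have h2 : gam (Set.univ : Set (E n)) =
      ENNReal.ofReal (∏ _t : Fin n, Real.sqrt (Real.pi / (1 / 2))) := by
    rw [← TailAux.lint n (fun _ => 1 / 2) (fun _ => by norm_num)]
    unfold gam
    rw [Measure.restrict_univ]
    refine lintegral_congr fun x => ?_
    rw [hsq]
    congr 2
    rw [← Finset.mul_sum]
    ring
  rw [lintegral_const_mul _ (by fun_prop)] at h1
  rw [TailAux.lint n (fun t => 1 / 2 - α t) (fun t => by linarith [(hα t).2])] at h1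
  refine h1.trans ?_
  rw [h2, ← ENNReal.ofReal_mul (Real.exp_pos _).le, ← ENNReal.ofReal_mul (Real.exp_pos _).le]
  apply ENNReal.ofReal_le_ofReal
  have h3 : ∏ t, Real.sqrt (Real.pi / (1 / 2 - α t)) ≤
      ∏ t : Fin n, (Real.exp (2 * α t) * Real.sqrt (Real.pi / (1 / 2))) :=
    Finset.prod_le_prod (fun t _ => Real.sqrt_nonneg _) fun t _ =>
      TailAux.num (hα t).1 (hα t).2
  rw [Finset.prod_mul_distrib, ← Real.exp_sum, ← Finset.mul_sum] at h3
  calc Real.exp (-(2 * ∑ t, α t + L)) * ∏ t, Real.sqrt (Real.pi / (1 / 2 - α t))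
      ≤ Real.exp (-(2 * ∑ t, α t + L)) *
        (Real.exp (2 * ∑ t, α t) * ∏ _t : Fin n, Real.sqrt (Real.pi / (1 / 2))) :=
        mul_le_mul_of_nonneg_left h3 (Real.exp_pos _).le
    _ = Real.exp (-L) * ∏ _t : Fin n, Real.sqrt (Real.pi / (1 / 2)) := by
        rw [← mul_assoc, ← Real.exp_add]
        congr 2
        ring

end P262S
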