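import Vale.Agent.P262S.Defs

/-! P262S, module TILT: ridge normal equations. -/

namespace P262S

open Finset

theorem tilt : TiltStatement := by
  intro ι κ _ _ M v H U hdisj ell ζ hell hζ hlow c
  classical
  set Lg : Finset κ := H ∪ U with hLg
  have hmemL : ∀ k, k ∉ Lg ↔ (k ∉ H ∧ k ∉ U) := by
    intro k
    simp [hLg]
  have hsumL : ∀ f : κ → ℝ, ∑ k ∈ Lg, f k = ∑ k ∈ H, f k + ∑ k ∈ U, f k := by
    intro f
    rw [hLg, Finset.sum_union hdisj]
  have hmemL' : ∀ k ∈ Lg, k ∈ H ∨ k ∈ U := by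
    intro k hk
    rwa [hLg, Finset.mem_union] at hk
  have hHL : ∀ k ∈ H, k ∈ Lg := fun k hk => Finset.mem_union_left _ hk
  have hUL : ∀ k ∈ U, k ∈ Lg := fun k hk => Finset.mem_union_right _ hk
  clear_value Lg
  clear hLg
  -- quadratic form identity
  have hquad : ∀ u : κ → ℝ, (∀ k, k ∉ Lg → u k = 0) →
      ∑ i ∈ M, (∑ k, v i k * u k) ^ 2 =
        ∑ k ∈ Lg, (∑ i ∈ M, (∑ l, v i l * u l) * v i k) * u k := by
    intro u hu
    have h1 : ∀ i, ∑ k, v i k * u k = ∑ k ∈ Lg, v i k * u k := by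
      intro i
      refine (Finset.sum_subset (Finset.subset_univ Lg) ?_).symm
      intro k _ hk
      rw [hu k hk, mul_zero]
    calc ∑ i ∈ M, (∑ k, v i k * u k) ^ 2
        = ∑ i ∈ M, ∑ k ∈ Lg, (∑ l, v i l * u l) * v i k * u k := by
          refine Finset.sum_congr rfl fun i _ => ?_
          rw [sq]
          conv_lhs => rw [h1 i]
          rw [Finset.mul_sum]
          rw [← h1 i]
          exact Finset.sum_congr rfl fun k _ => by ring
      _ = ∑ k ∈ Lg, ∑ i ∈ M, (∑ l, v i l * u l) * v i k * u k := Finset.sum_comm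
      _ = _ := by
          refine Finset.sum_congr rfl fun k _ => ?_
          rw [Finset.sum_mul]
  -- ridge
  let rg : κ → ℝ := fun k => if k ∈ U then 2 * ζ else 0
  have hrg : ∀ u : κ → ℝ, ∑ k ∈ Lg, rg k * u k * u k = 2 * ζ * ∑ k ∈ U, (u k) ^ 2 := by
    intro u
    rw [hsumL]
    have h1 : ∑ k ∈ H, rg k * u k * u k = 0 := by
      refine Finset.sum_eq_zero fun k hk => ?_
      have : k ∉ U := Finset.disjoint_left.mp hdisj hk
      simp [rg, this]
    rw [h1, zero_add, Finset.mul_sum]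
    refine Finset.sum_congr rfl fun k hk => ?_
    simp only [rg, if_pos hk]
    ring
  -- extension map
  let E : (Lg → ℝ) →ₗ[ℝ] (κ → ℝ) :=
    { toFun := fun h k => if hk : k ∈ Lg then h ⟨k, hk⟩ else 0
      map_add' := by
        intro a b; funext k; by_cases hk : k ∈ Lg <;> simp [hk]
      map_smul' := by
        intro a b; funext k; by_cases hk : k ∈ Lg <;> simp [hk] }
  have hE : ∀ h : Lg → ℝ, ∀ k, k ∉ Lg → E h k = 0 := by
    intro h k hk; simp [E, hk]
  have hE' : ∀ h : Lg → ℝ, ∀ k (hk : k ∈ Lg), E h k = h ⟨k, hk⟩ := by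
    intro h k hk; simp [E, hk]
  let T : (Lg → ℝ) →ₗ[ℝ] (Lg → ℝ) :=
    { toFun := fun h k => ∑ i ∈ M, (∑ l, v i l * E h l) * v i k + rg k * E h k
      map_add' := by
        intro a b; funext k
        simp only [map_add, Pi.add_apply, mul_add, Finset.sum_add_distrib, add_mul]
        ring
      map_smul' := by
        intro a b; funext k
        simp only [map_smul, Pi.smul_apply, smul_eq_mul, RingHom.id_apply, Finset.mul_sum,
          Finset.sum_mul, mul_add]
        congr 1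
        · exact Finset.sum_congr rfl fun i _ => Finset.sum_congr rfl fun l _ => by ring
        · ring }
  have hT : ∀ (h : Lg → ℝ) (k : Lg),
      T h k = ∑ i ∈ M, (∑ l, v i l * E h l) * v i k + rg k * E h k :=
    fun _ _ => rfl
  have hA : ∀ h : Lg → ℝ, ∀ r : κ → ℝ, (∀ (k : κ) (hk : k ∈ Lg), T h ⟨k, hk⟩ = r k) →
      ∑ i ∈ M, (∑ k, v i k * E h k) ^ 2 + 2 * ζ * ∑ k ∈ U, (E h k) ^ 2 =
        ∑ k ∈ Lg, r k * E h k := by
    intro h r hr
    rw [hquad (E h) (hE h), ← hrg (E h), ← Finset.sum_add_distrib]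
    refine Finset.sum_congr rfl fun k hk => ?_
    rw [← hr k hk, hT]
    ring
  have hlow' : ∀ h : Lg → ℝ, ∑ k ∈ H, ell k * (E h k) ^ 2 + ζ * ∑ k ∈ U, (E h k) ^ 2 ≤
      ∑ i ∈ M, (∑ k, v i k * E h k) ^ 2 + 2 * ζ * ∑ k ∈ U, (E h k) ^ 2 := by
    intro h
    have h1 := hlow (E h) (fun k h1 h2 => hE h k ((hmemL k).mpr ⟨h1, h2⟩))
    linarith
  have hinj : Function.Injective T := by
    rw [← LinearMap.ker_eq_bot, LinearMap.ker_eq_bot']
    intro h h0
    have h1 := hlow' h
    rw [hA h (fun _ => 0) (fun k hk => by rw [h0]; rfl)] at h1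
    simp only [zero_mul, Finset.sum_const_zero] at h1
    have h4 : ∀ k ∈ H, 0 ≤ ell k * (E h k) ^ 2 := fun k hk =>
      mul_nonneg (hell k hk).le (sq_nonneg _)
    have h4' : ∀ k ∈ U, 0 ≤ (E h k) ^ 2 := fun k hk => sq_nonneg _
    have h5 := Finset.sum_nonneg h4
    have h5' := Finset.sum_nonneg h4'
    have h6 : ∑ k ∈ H, ell k * (E h k) ^ 2 = 0 := by
      have := mul_nonneg hζ.le h5'
      linarith
    have h7 : ∑ k ∈ U, (E h k) ^ 2 = 0 := by
      have : ζ * ∑ k ∈ U, (E h k) ^ 2 ≤ 0 := by linarith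
      nlinarith
    rw [Finset.sum_eq_zero_iff_of_nonneg h4] at h6
    rw [Finset.sum_eq_zero_iff_of_nonneg h4'] at h7
    funext k
    rcases hmemL' k.1 k.2 with hk | hk
    · have h8 := h6 k.1 hk
      rw [hE' h k.1 k.2] at h8
      have h9 := (hell k.1 hk).ne'
      simpa [h9] using h8
    · have h8 := h7 k.1 hk
      rw [hE' h k.1 k.2] at h8
      simpa using h8
  have hsurj : Function.Surjective T := LinearMap.injective_iff_surjective.1 hinj
  obtain ⟨h, hh⟩ := hsurj (fun k => if (k : κ) ∈ H then c k else 0)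
  have hAx := hA h (fun k => if k ∈ H then c k else 0) (fun k hk => congrFun hh ⟨k, hk⟩)
  have hAx' : ∑ k ∈ Lg, (if k ∈ H then c k else 0) * E h k = ∑ k ∈ H, c k * E h k := by
    rw [hsumL]
    have h1 : ∑ k ∈ U, (if k ∈ H then c k else 0) * E h k = 0 := by
      refine Finset.sum_eq_zero fun k hk => ?_
      have : k ∉ H := Finset.disjoint_right.mp hdisj hk
      simp [this]
    rw [h1, add_zero]
    refine Finset.sum_congr rfl fun k hk => ?_
    rw [if_pos hk]
  rw [hAx'] at hAx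
  have hcs : ∑ k ∈ H, c k * E h k ≤
      (1 / 2) * ∑ k ∈ H, ell k * (E h k) ^ 2 + (1 / 2) * ∑ k ∈ H, (c k) ^ 2 / ell k := by
    rw [Finset.mul_sum, Finset.mul_sum, ← Finset.sum_add_distrib]
    refine Finset.sum_le_sum fun k hk => ?_
    have hl := hell k hk
    have : 0 ≤ (ell k * E h k - c k) ^ 2 / ell k := by positivity
    have e : (ell k * E h k - c k) ^ 2 / ell k =
        ell k * (E h k) ^ 2 + (c k) ^ 2 / ell k - 2 * (c k * E h k) := by
      field_simp
      ring
    linarith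
  have hl := hlow' h
  have hU0 : 0 ≤ ζ * ∑ k ∈ U, (E h k) ^ 2 :=
    mul_nonneg hζ.le (Finset.sum_nonneg fun _ _ => sq_nonneg _)
  refine ⟨E h, fun k h1 h2 => hE h k ((hmemL k).mpr ⟨h1, h2⟩), ?_, ?_, ?_, ?_⟩
  · intro k hk
    have h1 := congrFun hh ⟨k, hHL k hk⟩
    rw [hT] at h1
    have h2 : k ∉ U := Finset.disjoint_left.mp hdisj hk
    simpa [rg, h2, hk] using h1
  · intro k hk
    have h1 := congrFun hh ⟨k, hUL k hk⟩
    rw [hT] at h1
    have h2 : k ∉ H := Finset.disjoint_right.mp hdisj hk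
    simp only [rg, h2, hk, if_true, if_false] at h1
    linarith
  · linarith
  · linarith

end P262S
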