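import Vale.Agent.P262S.Defs

/-! P262S, module TOP: from coordinates to the Euclidean statement. -/

namespace P262S

open Finset
open scoped RealInnerProductSpace

namespace TopM

lemma sum_filter_lt_eq_take {N : ℕ} (L : List (Fin N)) (hlen : L.length = N) (f : Fin N → ℝ)
    (n : ℕ) :
    ∑ i ∈ Finset.univ.filter (fun i : Fin N => (i : ℕ) < n), f (L.get (Fin.cast hlen.symm i)) =
      ((L.take n).map f).sum := by
  induction n with
  | zero => simp
  | succ n ih =>
    by_cases hn : n < N
    · have h1 : L.take (n + 1) = L.take n ++ [L.get ⟨n, by omega⟩] := by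
        rw [List.take_add_one, List.getElem?_eq_getElem (by omega : n < L.length)]
        rfl
      rw [h1, List.map_append, List.sum_append, ← ih]
      have h2 : Finset.univ.filter (fun i : Fin N => (i : ℕ) < n + 1) =
          insert (⟨n, hn⟩ : Fin N) (Finset.univ.filter (fun i : Fin N => (i : ℕ) < n)) := by
        ext i
        simp only [Finset.mem_filter, Finset.mem_univ, true_and, Finset.mem_insert, Fin.ext_iff]
        omega
      rw [h2, Finset.sum_insert (by simp)]
      simp
      rw [add_comm]
    · have h1 : L.take (n + 1) = L.take n := by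
        rw [List.take_of_length_le (by omega), List.take_of_length_le (by omega)]
      rw [h1, ← ih]
      apply Finset.sum_congr _ (fun _ _ => rfl)
      ext i
      simp only [Finset.mem_filter, Finset.mem_univ, true_and]
      have := i.2
      omega

/-- CORE without sorting and positivity assumptions. -/
lemma core_general (h : CoreStatement) : ∃ B : ℝ, 0 < B ∧ ∀ (d N : ℕ) (w : Fin N → Fin d → ℝ),
    (∀ i, ∑ k, (w i k) ^ 2 ≤ 1) →
    (∀ k l, k ≠ l → ∑ i, w i k * w i l = 0) → (∀ k, ∑ i, w i k = 0) →
    ∃ L : List (Fin N), L.Nodup ∧ (∀ i, i ∈ L) ∧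
      ∀ (n : ℕ), ∑ k, (((L.take n).map (fun i => w i k)).sum) ^ 2 ≤ B * d := by
  obtain ⟨B, hB, hcore⟩ := h
  refine ⟨B, hB, ?_⟩
  intro d N w hw1 horth hws
  classical
  set lam : Fin d → ℝ := fun k => ∑ i, (w i k) ^ 2 with hlam
  have hlam0 : ∀ k, 0 ≤ lam k := fun k => Finset.sum_nonneg fun _ _ => sq_nonneg _
  set Z : Finset (Fin d) := Finset.univ.filter (fun k => 0 < lam k) with hZ
  have hout : ∀ k, k ∉ Z → ∀ i, w i k = 0 := by
    intro k hk i
    have h1 : lam k = 0 := by
      by_contra hne
      exact hk (by rw [hZ, Finset.mem_filter]; exact ⟨Finset.mem_univ _,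
        lt_of_le_of_ne (hlam0 k) (Ne.symm hne)⟩)
    have h2 := (Finset.sum_eq_zero_iff_of_nonneg (fun i _ => sq_nonneg (w i k))).mp h1 i
      (Finset.mem_univ i)
    exact pow_eq_zero_iff (by norm_num) |>.mp h2
  set e0 : Fin Z.card ≃ Z := Z.equivFin.symm with he0
  set f : Fin Z.card → ℝ := fun k => lam (e0 k) with hf
  set σ : Fin Z.card → Fin d := fun k => (e0 (Tuple.sort f k) : Fin d) with hσ
  have hσinj : Function.Injective σ := by
    intro a b hab
    exact (Tuple.sort f).injective (e0.injective (Subtype.ext hab))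
  have hσZ : ∀ k, σ k ∈ Z := fun k => (e0 (Tuple.sort f k)).2
  have hσsurj : ∀ k ∈ Z, ∃ k', σ k' = k := by
    intro k hk
    refine ⟨(Tuple.sort f).symm (e0.symm ⟨k, hk⟩), ?_⟩
    simp [hσ]
  have hsumσ : ∀ F : Fin d → ℝ, ∑ k', F (σ k') = ∑ k ∈ Z, F k := by
    intro F
    have h1 : Z = Finset.univ.image σ := by
      ext k
      rw [Finset.mem_image]
      constructor
      · intro hk
        obtain ⟨k', hk'⟩ := hσsurj k hk
        exact ⟨k', Finset.mem_univ _, hk'⟩
      · rintro ⟨k', _, rfl⟩
        exact hσZ k'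
    have h2 : ∑ k ∈ Z, F k = ∑ k ∈ Finset.univ.image σ, F k := Finset.sum_congr h1 fun _ _ => rfl
    rw [h2, Finset.sum_image (fun a _ b _ hab => hσinj hab)]
  rcases Nat.eq_zero_or_pos Z.card with hc | hc
  · have hZe : Z = ∅ := Finset.card_eq_zero.mp hc
    refine ⟨List.finRange N, List.nodup_finRange N, fun i => List.mem_finRange i, fun n => ?_⟩
    have h1 : ∀ k, (((List.finRange N).take n).map (fun i => w i k)).sum = 0 := by
      intro k
      have h2 : (fun i => w i k) = fun _ => (0 : ℝ) := by
        funext i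
        exact hout k (by rw [hZe]; simp) i
      rw [h2]
      simp
    simp only [h1]
    simp
    positivity
  · obtain ⟨L, hL1, hL2, hL3⟩ := hcore Z.card (Fin N) (fun i k => w i (σ k)) hc
      (fun i => by
        have h1 := hsumσ (fun k => (w i k) ^ 2)
        rw [h1]
        exact (Finset.sum_le_sum_of_subset_of_nonneg (Finset.subset_univ Z)
          (fun _ _ _ => sq_nonneg _)).trans (hw1 i))
      (fun k l hkl => horth _ _ (fun hh => hkl (hσinj hh)))
      (fun k => hws _)
      (fun k => by
        have := hσZ k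
        rw [hZ, Finset.mem_filter] at this
        exact this.2)
      (Tuple.monotone_sort f)
    refine ⟨L, hL1, hL2, fun n => ?_⟩
    have h1 := hL3 n
    have h2 := hsumσ (fun k => (((L.take n).map (fun i => w i k)).sum) ^ 2)
    rw [h2] at h1
    have h3 : ∑ k, (((L.take n).map (fun i => w i k)).sum) ^ 2 =
        ∑ k ∈ Z, (((L.take n).map (fun i => w i k)).sum) ^ 2 := by
      symm
      apply Finset.sum_subset (Finset.subset_univ Z)
      intro k _ hk
      have h4 : (fun i => w i k) = fun _ => (0 : ℝ) := by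
        funext i
        exact hout k hk i
      rw [h4]
      simp
    rw [h3]
    have h5 : (Z.card : ℝ) ≤ d := by
      have := Finset.card_le_univ Z
      simp only [Fintype.card_fin] at this
      exact_mod_cast this
    exact h1.trans (mul_le_mul_of_nonneg_left h5 hB.le)

end TopM

/-- module TOP -/
theorem top (h : CoreStatement) : TopStatement := by
  obtain ⟨B, hB, hcore⟩ := TopM.core_general h
  refine ⟨Real.sqrt B, Real.sqrt_pos.2 hB, ?_⟩
  intro d N v hv hsum
  -- the symmetric operator
  let T : EuclideanSpace ℝ (Fin d) →ₗ[ℝ] EuclideanSpace ℝ (Fin d) :=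
    ∑ i, ((innerSL ℝ (v i)).toLinearMap).smulRight (v i)
  have hTapp : ∀ x, T x = ∑ i, (inner ℝ (v i) x) • v i := by
    intro x
    simp [T, LinearMap.sum_apply]
  have hT : T.IsSymmetric := by
    intro x y
    rw [hTapp, hTapp, sum_inner, inner_sum]
    refine Finset.sum_congr rfl fun i _ => ?_
    rw [inner_smul_left, inner_smul_right, real_inner_comm x (v i)]
    simp
    ring
  have hfin : Module.finrank ℝ (EuclideanSpace ℝ (Fin d)) = d := by simp
  set e := hT.eigenvectorBasis hfin with he
  set w : Fin N → Fin d → ℝ := fun i k => inner ℝ (e k) (v i) with hw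
  have hw1 : ∀ i, ∑ k, (w i k) ^ 2 ≤ 1 := by
    intro i
    have h1 := e.sum_sq_norm_inner_right (v i)
    have h2 : ∑ k, (w i k) ^ 2 = ‖v i‖ ^ 2 := by
      rw [← h1]
      refine Finset.sum_congr rfl fun k _ => ?_
      rw [hw, Real.norm_eq_abs, sq_abs]
    rw [h2]
    have := hv i
    have h0 := norm_nonneg (v i)
    nlinarith
  have horth : ∀ k l, k ≠ l → ∑ i, w i k * w i l = 0 := by
    intro k l hkl
    have h1 : ∑ i, w i k * w i l = inner ℝ (e k) (T (e l)) := by
      rw [hTapp, inner_sum]
      refine Finset.sum_congr rfl fun i _ => ?_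
      have h2 : inner ℝ (v i) (e l) = inner ℝ (e l) (v i) := real_inner_comm _ _
      rw [inner_smul_right, h2]
      simp only [hw]
      ring
    rw [h1, he, hT.apply_eigenvectorBasis hfin l, inner_smul_right]
    have h2 : inner ℝ ((hT.eigenvectorBasis hfin) k) ((hT.eigenvectorBasis hfin) l) = (0:ℝ) :=
      (hT.eigenvectorBasis hfin).orthonormal.2 hkl
    rw [h2, mul_zero]
  have hws : ∀ k, ∑ i, w i k = 0 := by
    intro k
    simp only [hw]
    rw [← inner_sum, hsum, inner_zero_right]
  obtain ⟨L, hL1, hL2, hL3⟩ := hcore d N w hw1 horth hws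
  have hlen : L.length = N := by
    have h1 := List.Nodup.length_le_card hL1
    have h2 : Fintype.card (Fin N) ≤ L.length := by
      rw [← Finset.card_univ]
      have : (Finset.univ : Finset (Fin N)) ⊆ L.toFinset := fun i _ => List.mem_toFinset.2 (hL2 i)
      exact (Finset.card_le_card this).trans (List.toFinset_card_le L)
    simp only [Fintype.card_fin] at h1 h2
    omega
  have hinj : Function.Injective (fun i : Fin N => L.get (Fin.cast hlen.symm i)) := by
    intro i j hij
    have := (List.Nodup.injective_get hL1) hij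
    exact Fin.cast_injective _ this
  let π : Equiv.Perm (Fin N) := Equiv.ofBijective _ ((Finite.injective_iff_bijective).1 hinj)
  refine ⟨π, fun n => ?_⟩
  have hπ : ∀ i, π i = L.get (Fin.cast hlen.symm i) := fun i => rfl
  set s := ∑ i ∈ Finset.univ.filter (fun i : Fin N => (i : ℕ) < n), v (π i) with hs
  have hsk : ∀ k, inner ℝ (e k) s = ((L.take n).map (fun i => w i k)).sum := by
    intro k
    rw [hs, inner_sum, ← TopM.sum_filter_lt_eq_take L hlen (fun i => w i k) n]
    exact Finset.sum_congr rfl fun i _ => by rw [hπ i]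
  have hn2 : ‖s‖ ^ 2 ≤ B * d := by
    have h1 := e.sum_sq_norm_inner_right s
    rw [← h1]
    calc ∑ k, ‖inner ℝ (e k) s‖ ^ 2 = ∑ k, (((L.take n).map (fun i => w i k)).sum) ^ 2 :=
          Finset.sum_congr rfl fun k _ => by rw [hsk k, Real.norm_eq_abs, sq_abs]
      _ ≤ B * d := hL3 n
  rw [← Real.sqrt_mul hB.le]
  exact Real.le_sqrt_of_sq_le hn2

end P262S
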