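import Vale.Agent.P262S.Defs

/-! P262S, module WT: facts about the weights. -/

namespace P262S

open Finset

namespace WtAux

/-- telescoping bound -/
theorem tele {α : Type*} [LinearOrder α] (a : α → ℝ) (ha : ∀ k, 0 < a k) (U : Finset α) :
    ∑ k ∈ U, a k / Real.sqrt (∑ k' ∈ U.filter (fun k' => k ≤ k'), a k') ≤
      2 * Real.sqrt (∑ k ∈ U, a k) := by
  classical
  induction U using Finset.induction_on_min with
  | empty => simp
  | insert x s hx ih =>
    have hxs : x ∉ s := fun h => lt_irrefl _ (hx x h)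
    rw [Finset.sum_insert hxs]
    have h1 : ∑ k ∈ s, a k / Real.sqrt (∑ k' ∈ (insert x s).filter (fun k' => k ≤ k'), a k') =
        ∑ k ∈ s, a k / Real.sqrt (∑ k' ∈ s.filter (fun k' => k ≤ k'), a k') := by
      refine Finset.sum_congr rfl fun k hk => ?_
      rw [Finset.filter_insert, if_neg (not_le.mpr (hx k hk))]
    have h2 : (insert x s).filter (fun k' => x ≤ k') = insert x s := by
      apply Finset.filter_true_of_mem
      intro k hk
      rcases Finset.mem_insert.mp hk with h | h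
      · exact h.ge
      · exact (hx k h).le
    rw [h1, h2, Finset.sum_insert hxs]
    set T := ∑ k ∈ s, a k with hT
    have hT0 : 0 ≤ T := Finset.sum_nonneg fun k _ => (ha k).le
    have hx0 := ha x
    set A := Real.sqrt (a x + T) with hA
    set B := Real.sqrt T with hB
    have hA2 : A ^ 2 = a x + T := Real.sq_sqrt (by linarith)
    have hB2 : B ^ 2 = T := Real.sq_sqrt hT0
    have hA0 : 0 < A := Real.sqrt_pos.mpr (by linarith)
    have hB0 : 0 ≤ B := Real.sqrt_nonneg _
    have h3 : a x / A ≤ 2 * A - 2 * B := by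
      rw [div_le_iff₀ hA0]
      nlinarith [sq_nonneg (A - B)]
    linarith

/-- Abel summation -/
theorem abel {α : Type*} [LinearOrder α] (f b : α → ℝ) (U : Finset α)
    (hb : ∀ k ∈ U, 0 ≤ b k) (hanti : ∀ k ∈ U, ∀ l ∈ U, k ≤ l → b l ≤ b k)
    (hf : ∀ k0 ∈ U, ∑ k ∈ U.filter (fun k => k ≤ k0), f k ≤ 0) :
    ∑ k ∈ U, f k * b k ≤ 0 := by
  classical
  induction U using Finset.induction_on_max generalizing b with
  | empty => simp
  | insert x s hx ih =>
    have hxs : x ∉ s := fun h => lt_irrefl _ (hx x h)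
    have hxm : x ∈ insert x s := Finset.mem_insert_self _ _
    have h1 : (insert x s).filter (fun k => k ≤ x) = insert x s := by
      apply Finset.filter_true_of_mem
      intro k hk
      rcases Finset.mem_insert.mp hk with h | h
      · exact h.le
      · exact (hx k h).le
    have htot : ∑ k ∈ insert x s, f k ≤ 0 := by
      have := hf x hxm
      rwa [h1] at this
    have h2 : ∑ k ∈ s, f k * (b k - b x) ≤ 0 := by
      apply ih (fun k => b k - b x)
      · intro k hk
        have := hanti k (Finset.mem_insert_of_mem hk) x hxm (hx k hk).le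
        simpa using this
      · intro k hk l hl hkl
        have := hanti k (Finset.mem_insert_of_mem hk) l (Finset.mem_insert_of_mem hl) hkl
        simpa using this
      · intro k0 hk0
        have := hf k0 (Finset.mem_insert_of_mem hk0)
        rwa [Finset.filter_insert, if_neg (not_le.mpr (hx k0 hk0))] at this
    have h3 : ∑ k ∈ insert x s, f k * b k =
        ∑ k ∈ s, f k * (b k - b x) + b x * ∑ k ∈ insert x s, f k := by
      rw [Finset.sum_insert hxs, Finset.sum_insert hxs]
      simp only [mul_sub, Finset.sum_sub_distrib]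
      rw [← Finset.sum_mul]
      ring
    rw [h3]
    have := mul_nonneg_of_nonpos_of_nonpos (a := -(b x)) (by linarith [hb x hxm]) htot
    linarith

section
variable {d : ℕ} {c : Cst} {g : Stg d}

theorem Yge (hc : c.Good) : (10 : ℝ) ^ 12 ≤ c.Y := by
  have h1 := hc.hY
  have h2 := hc.hLa8
  have h3 : C0 = 2 ^ 24 := rfl
  rw [h3] at h1
  nlinarith

theorem Thge (hc : c.Good) : (400 * c.Y) ^ 4 ≤ c.Th := hc.hTh

theorem Thge1 (hc : c.Good) : 1 ≤ c.Th := by
  have h1 := Yge hc
  have h2 : (1 : ℝ) ≤ (400 * c.Y) ^ 4 := by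
    apply one_le_pow₀
    linarith
  exact h2.trans hc.hTh

theorem Ksge (hc : c.Good) : (20736 : ℝ) ≤ c.Ks := by
  have h1 := Yge hc
  have h2 := Thge1 hc
  have h3 := hc.hK
  have h4 : (1 : ℝ) ≤ c.Th * c.Y ^ 2 := by
    have : (1 : ℝ) ≤ c.Y ^ 2 := one_le_pow₀ (by linarith)
    nlinarith
  nlinarith

theorem Kge (hc : c.Good) (hg : StgGood c g) (s : ℕ) : (20736 : ℝ) ≤ c.K g s := by
  have h1 := Ksge hc
  have h2 : (1 : ℝ) ≤ (g.m s : ℝ) ^ 8 := by
    apply one_le_pow₀
    exact_mod_cast hg.m_pos s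
  have h3 : (c.K g s : ℝ) = c.Ks * (g.m s : ℝ) ^ 8 := by
    simp [Cst.K]
  rw [h3]
  nlinarith

theorem p_pos (hc : c.Good) (hg : StgGood c g) (s : ℕ) : 0 < c.p g s := by
  unfold Cst.p
  apply Finset.prod_pos
  intro r _
  have := Kge hc hg r
  positivity

theorem lm_step (s : ℕ) (k : Fin d) : c.lm g (s + 1) k = c.lm g s k / c.K g s := by
  unfold Cst.lm Cst.p
  rw [Finset.prod_range_succ]
  ring

theorem lm_pos (hc : c.Good) (hg : StgGood c g) (s : ℕ) (k : Fin d) : 0 < c.lm g s k :=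
  mul_pos (p_pos hc hg s) (hg.lam_pos k)

theorem M_ge (hg : StgGood c g) (s : ℕ) : (1 : ℝ) ≤ g.M s := by
  unfold Stg.M
  split_ifs with h
  · simp
  · exact_mod_cast hg.m_pos _

theorem lm_big (hc : c.Good) (hg : StgGood c g) (s : ℕ) (k : Fin d) (hk : s < g.t k) :
    1 / c.lm g s k ≤ 1 / (c.Th * (g.M s : ℝ) ^ 4) := by
  refine le_trans ?_ (hg.alive s)
  refine Finset.single_le_sum (f := fun k => 1 / c.lm g s k) (fun k _ => ?_) ?_
  · have := lm_pos hc hg s k
    positivity
  · simpa using hk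

theorem lm_one (hc : c.Good) (hg : StgGood c g) (s : ℕ) (k : Fin d) (hk : s < g.t k) :
    1 ≤ c.lm g s k := by
  have h1 := lm_big hc hg s k hk
  have h2 := Thge1 hc
  have h3 : (1 : ℝ) ≤ (g.M s : ℝ) ^ 4 := one_le_pow₀ (M_ge hg s)
  have h4 : 1 / (c.Th * (g.M s : ℝ) ^ 4) ≤ 1 := by
    rw [div_le_one (by nlinarith)]
    nlinarith
  have h5 := lm_pos hc hg s k
  have h6 : 1 / c.lm g s k ≤ 1 := h1.trans h4
  rwa [div_le_one h5] at h6

theorem sg_ge (hc : c.Good) (hg : StgGood c g) (s : ℕ) (k : Fin d) :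
    1 / c.lm g s k ≤ c.sg g s k := by
  unfold Cst.sg
  refine Finset.single_le_sum (f := fun k => 1 / c.lm g s k) (fun k _ => ?_) ?_
  · have := lm_pos hc hg s k
    positivity
  · simp

theorem sg_pos (hc : c.Good) (hg : StgGood c g) (s : ℕ) (k : Fin d) : 0 < c.sg g s k := by
  have h1 := sg_ge hc hg s k
  have h2 := lm_pos hc hg s k
  have h3 : 0 < 1 / c.lm g s k := by positivity
  linarith

theorem sg_le (hc : c.Good) (hg : StgGood c g) (s : ℕ) (k : Fin d) (hk : s < g.t k) :
    c.sg g s k ≤ 1 / (c.Th * (g.M s : ℝ) ^ 4) := by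
  refine le_trans ?_ (hg.alive s)
  unfold Cst.sg
  apply Finset.sum_le_sum_of_subset_of_nonneg
  · intro k' hk'
    simp only [Finset.mem_filter, Finset.mem_univ, true_and] at hk' ⊢
    exact hk.trans_le (hg.t_mono hk')
  · intro k' _ _
    have := lm_pos hc hg s k'
    positivity

theorem rho_pos (hc : c.Good) (hg : StgGood c g) (s : ℕ) (k : Fin d) : 0 < c.rho g s k :=
  Real.sqrt_pos.mpr (Real.sqrt_pos.mpr (sg_pos hc hg s k))

theorem rho_sq (s : ℕ) (k : Fin d) : c.rho g s k ^ 2 = Real.sqrt (c.sg g s k) :=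
  Real.sq_sqrt (Real.sqrt_nonneg _)

theorem rho_four (hc : c.Good) (hg : StgGood c g) (s : ℕ) (k : Fin d) :
    c.rho g s k ^ 4 = c.sg g s k := by
  have h : c.rho g s k ^ 4 = (c.rho g s k ^ 2) ^ 2 := by ring
  rw [h, rho_sq, Real.sq_sqrt (sg_pos hc hg s k).le]

/-- upper bound for `rho` on alive coordinates -/
theorem rho_le (hc : c.Good) (hg : StgGood c g) (s : ℕ) (k : Fin d) (hk : s < g.t k) :
    c.rho g s k ≤ 1 / (400 * c.Y * g.M s) := by
  have hY := Yge hc
  have hM := M_ge hg s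
  have hY0 : 0 < c.Y := by linarith
  have hM0 : (0 : ℝ) < g.M s := by linarith
  have h0 : 0 < 400 * c.Y * g.M s := by positivity
  have hTh := Thge hc
  have h1 : c.rho g s k ^ 4 ≤ (1 / (400 * c.Y * g.M s)) ^ 4 := by
    rw [rho_four hc hg]
    refine (sg_le hc hg s k hk).trans ?_
    rw [div_pow, one_pow]
    apply one_div_le_one_div_of_le (by positivity)
    rw [mul_pow]
    exact mul_le_mul_of_nonneg_right hTh (by positivity)
  exact le_of_pow_le_pow_left₀ (by norm_num) (by positivity) h1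

theorem sqrtsg_le (hc : c.Good) (hg : StgGood c g) (s : ℕ) (x : ℝ)
    (hx : x ≤ 1 / (c.Th * (g.M s : ℝ) ^ 4)) :
    Real.sqrt x ≤ (1 / (400 * c.Y * g.M s)) ^ 2 := by
  have hY := Yge hc
  have hM := M_ge hg s
  have hY0 : 0 < c.Y := by linarith
  have hM0 : (0 : ℝ) < g.M s := by linarith
  have h0 : 0 < 400 * c.Y * g.M s := by positivity
  have hTh := Thge hc
  apply Real.sqrt_le_iff.mpr
  refine ⟨by positivity, hx.trans ?_⟩
  rw [← pow_mul, div_pow, one_pow]
  apply one_div_le_one_div_of_le (by positivity)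
  rw [mul_pow]
  exact mul_le_mul_of_nonneg_right hTh (by positivity)

theorem wt_alive_eq (s : ℕ) (k : Fin d) (hk : s < g.t k) :
    c.wt g s k = c.Y * c.lm g s k * c.rho g s k := by
  unfold Cst.wt
  rw [if_pos hk]

theorem wt_trans_eq (s : ℕ) (k : Fin d) (hk : g.t k = s) :
    c.wt g s k = c.lm g s k / 32 + c.Y * (g.M s : ℝ) ^ 2 := by
  unfold Cst.wt
  rw [if_neg (by omega)]

theorem wt_ge (hc : c.Good) (hg : StgGood c g) (s : ℕ) (k : Fin d) (hk : s ≤ g.t k) :
    c.Y ≤ c.wt g s k := by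
  have hY := Yge hc
  have hM := M_ge hg s
  have hY0 : 0 < c.Y := by linarith
  have hl := lm_pos hc hg s k
  rcases hk.lt_or_eq with hk | hk
  · rw [wt_alive_eq s k hk, mul_assoc]
    have h1 : 1 ≤ c.lm g s k * c.rho g s k := by
      have h2 := lm_one hc hg s k hk
      have h3 := rho_pos hc hg s k
      by_contra hcon
      rw [not_le] at hcon
      have h4 : (c.lm g s k * c.rho g s k) ^ 4 < 1 := pow_lt_one₀ (by positivity) hcon (by norm_num)
      rw [mul_pow, rho_four hc hg] at h4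
      have h5 := sg_ge hc hg s k
      have h6 : c.lm g s k ^ 3 ≤ c.lm g s k ^ 4 * c.sg g s k := by
        calc c.lm g s k ^ 3 = c.lm g s k ^ 4 * (1 / c.lm g s k) := by
              field_simp
          _ ≤ _ := mul_le_mul_of_nonneg_left h5 (by positivity)
      have h7 : 1 ≤ c.lm g s k ^ 3 := one_le_pow₀ h2
      linarith
    nlinarith
  · rw [wt_trans_eq s k hk.symm]
    have h1 : (1 : ℝ) ≤ (g.M s : ℝ) ^ 2 := one_le_pow₀ hM
    nlinarith

theorem wt_pos (hc : c.Good) (hg : StgGood c g) (s : ℕ) (k : Fin d) (hk : s ≤ g.t k) :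
    0 < c.wt g s k := by
  have := wt_ge hc hg s k hk
  have := Yge hc
  linarith

theorem wt_alive (hc : c.Good) (hg : StgGood c g) (s : ℕ) (k : Fin d) (hk : s < g.t k) :
    c.wt g s k ≤ c.lm g s k / 400 := by
  have hY := Yge hc
  have hM := M_ge hg s
  have hY0 : 0 < c.Y := by linarith
  have hM0 : (0 : ℝ) < g.M s := by linarith
  have hl := lm_pos hc hg s k
  have h1 := rho_le hc hg s k hk
  rw [wt_alive_eq s k hk]
  have h2 : c.Y * c.rho g s k ≤ 1 / 400 := by
    calc c.Y * c.rho g s k ≤ c.Y * (1 / (400 * c.Y * g.M s)) :=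
          mul_le_mul_of_nonneg_left h1 hY0.le
      _ = 1 / 400 * (1 / g.M s) := by field_simp
      _ ≤ 1 / 400 * 1 := by
          apply mul_le_mul_of_nonneg_left _ (by norm_num)
          rw [div_le_one hM0]
          exact hM
      _ = 1 / 400 := by ring
  nlinarith

/-- the telescoping bound for the alive coordinates -/
theorem alive_tele (hc : c.Good) (hg : StgGood c g) (s : ℕ) :
    ∑ k ∈ univ.filter (fun k => s < g.t k), (1 / c.lm g s k) / c.rho g s k ^ 2 ≤
      2 * (1 / (400 * c.Y * g.M s)) ^ 2 := by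
  have h := tele (fun k => 1 / c.lm g s k) (fun k => by
    have := lm_pos hc hg s k
    positivity) (univ.filter (fun k => s < g.t k))
  have h2 := sqrtsg_le hc hg s _ (hg.alive s)
  refine le_trans (le_of_eq ?_) (h.trans (by linarith))
  refine Finset.sum_congr rfl fun k hk => ?_
  simp only [Finset.mem_filter, Finset.mem_univ, true_and] at hk
  rw [rho_sq]
  congr 2
  unfold Cst.sg
  apply Finset.sum_congr _ fun _ _ => rfl
  ext k'
  simp only [Finset.mem_filter, Finset.mem_univ, true_and]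
  exact ⟨fun h => ⟨hk.trans_le (hg.t_mono h), h⟩, fun h => h.2⟩

theorem split_filter (s : ℕ) :
    univ.filter (fun k => s ≤ g.t k) =
      univ.filter (fun k => s < g.t k) ∪ univ.filter (fun k => g.t k = s) := by
  ext k
  simp only [Finset.mem_filter, Finset.mem_univ, true_and, Finset.mem_union]
  omega

theorem split_disj (s : ℕ) :
    Disjoint (univ.filter (fun k => s < g.t k)) (univ.filter (fun k => g.t k = s)) := by
  rw [Finset.disjoint_filter]
  intro k _ h1 h2
  omega

theorem u_le_M (hg : StgGood c g) (s : ℕ) (hs : 1 ≤ s) : (g.u s : ℝ) ≤ g.M s := by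
  unfold Stg.M
  rw [if_neg (by omega)]
  have h := hg.u_le' (s - 1)
  rw [Nat.sub_add_cancel hs] at h
  exact_mod_cast h

theorem trans_inv (hc : c.Good) (hg : StgGood c g) (s : ℕ) (hs : 1 ≤ s) :
    ∑ k ∈ univ.filter (fun k => g.t k = s), 1 / c.wt g s k ≤ 1 / (c.Y * g.M s) := by
  have hY := Yge hc
  have hM := M_ge hg s
  have hY0 : 0 < c.Y := by linarith
  have hM0 : (0 : ℝ) < g.M s := by linarith
  have hu := u_le_M hg s hs
  have h1 : ∑ k ∈ univ.filter (fun k => g.t k = s), 1 / c.wt g s k ≤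
      ∑ k ∈ univ.filter (fun k => g.t k = s), 1 / (c.Y * (g.M s : ℝ) ^ 2) := by
    refine Finset.sum_le_sum fun k hk => ?_
    simp only [Finset.mem_filter, Finset.mem_univ, true_and] at hk
    apply one_div_le_one_div_of_le (by positivity)
    rw [wt_trans_eq s k hk]
    have := lm_pos hc hg s k
    linarith
  refine h1.trans ?_
  rw [Finset.sum_const, nsmul_eq_mul]
  change (g.u s : ℝ) * _ ≤ _
  calc (g.u s : ℝ) * (1 / (c.Y * (g.M s : ℝ) ^ 2)) ≤ g.M s * (1 / (c.Y * (g.M s : ℝ) ^ 2)) :=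
        mul_le_mul_of_nonneg_right hu (by positivity)
    _ = 1 / (c.Y * g.M s) := by field_simp

theorem alive_inv (hc : c.Good) (hg : StgGood c g) (s : ℕ) :
    ∑ k ∈ univ.filter (fun k => s < g.t k), 1 / c.wt g s k ≤ 2 / (c.Y * g.M s) := by
  have hY := Yge hc
  have hM := M_ge hg s
  have hY0 : 0 < c.Y := by linarith
  have hM0 : (0 : ℝ) < g.M s := by linarith
  have hr : 1 / (400 * c.Y * g.M s) ≤ 1 := by
    rw [div_le_one (by positivity)]
    nlinarith
  have hr0 : 0 < 1 / (400 * c.Y * g.M s) := by positivity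
  have h1 : ∑ k ∈ univ.filter (fun k => s < g.t k), 1 / c.wt g s k ≤
      ∑ k ∈ univ.filter (fun k => s < g.t k),
        (1 / c.Y) * ((1 / c.lm g s k) / c.rho g s k ^ 2) := by
    refine Finset.sum_le_sum fun k hk => ?_
    simp only [Finset.mem_filter, Finset.mem_univ, true_and] at hk
    have hl := lm_pos hc hg s k
    have hρ := rho_pos hc hg s k
    have hρ1 : c.rho g s k ≤ 1 := (rho_le hc hg s k hk).trans hr
    rw [wt_alive_eq s k hk]
    calc 1 / (c.Y * c.lm g s k * c.rho g s k)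
        = (1 / c.Y) * ((1 / c.lm g s k) / c.rho g s k ^ 2) * c.rho g s k := by field_simp
      _ ≤ (1 / c.Y) * ((1 / c.lm g s k) / c.rho g s k ^ 2) * 1 :=
          mul_le_mul_of_nonneg_left hρ1 (by positivity)
      _ = _ := by ring
  refine h1.trans ?_
  rw [← Finset.mul_sum]
  have h2 := alive_tele hc hg s
  calc (1 / c.Y) * ∑ k ∈ univ.filter (fun k => s < g.t k), (1 / c.lm g s k) / c.rho g s k ^ 2
      ≤ (1 / c.Y) * (2 * (1 / (400 * c.Y * g.M s)) ^ 2) :=
        mul_le_mul_of_nonneg_left h2 (by positivity)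
    _ ≤ (1 / c.Y) * (2 * (1 / g.M s)) := by
        apply mul_le_mul_of_nonneg_left _ (by positivity)
        apply mul_le_mul_of_nonneg_left _ (by norm_num)
        calc (1 / (400 * c.Y * g.M s)) ^ 2 ≤ 1 / (400 * c.Y * g.M s) := by
              nlinarith
          _ ≤ 1 / g.M s := by
              apply one_div_le_one_div_of_le hM0
              nlinarith
    _ = 2 / (c.Y * g.M s) := by field_simp

theorem wt_inv (hc : c.Good) (hg : StgGood c g) (s : ℕ) (hs : 1 ≤ s) :
    ∑ k ∈ univ.filter (fun k => s ≤ g.t k), 1 / c.wt g s k ≤ 3 / (c.Y * g.M s) := by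
  rw [split_filter, Finset.sum_union (split_disj s)]
  have h1 := alive_inv hc hg s
  have h2 := trans_inv hc hg s hs
  have h3 : 3 / (c.Y * g.M s) = 2 / (c.Y * g.M s) + 1 / (c.Y * g.M s) := by ring
  linarith

theorem wt_sq (hc : c.Good) (hg : StgGood c g) (s : ℕ) (hs : 1 ≤ s) :
    ∑ k ∈ univ.filter (fun k => s ≤ g.t k),
      (2 * c.lm g s k + 6 * c.wt g s k) / (c.wt g s k) ^ 2 ≤ 1 := by
  have hY := Yge hc
  have hM := M_ge hg s
  have hY0 : 0 < c.Y := by linarith
  have hM0 : (0 : ℝ) < g.M s := by linarith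
  have hYM : c.Y ≤ c.Y * g.M s := by nlinarith
  have e1 : ∑ k ∈ univ.filter (fun k => s < g.t k),
      (2 * c.lm g s k + 6 * c.wt g s k) / (c.wt g s k) ^ 2 ≤
      (2 / c.Y ^ 2) * (2 * (1 / (400 * c.Y * g.M s)) ^ 2) + 6 * (2 / (c.Y * g.M s)) := by
    have h1 : ∑ k ∈ univ.filter (fun k => s < g.t k),
        (2 * c.lm g s k + 6 * c.wt g s k) / (c.wt g s k) ^ 2 =
        (2 / c.Y ^ 2) * ∑ k ∈ univ.filter (fun k => s < g.t k),
          (1 / c.lm g s k) / c.rho g s k ^ 2
        + 6 * ∑ k ∈ univ.filter (fun k => s < g.t k), 1 / c.wt g s k := by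
      rw [Finset.mul_sum, Finset.mul_sum, ← Finset.sum_add_distrib]
      refine Finset.sum_congr rfl fun k hk => ?_
      simp only [Finset.mem_filter, Finset.mem_univ, true_and] at hk
      have hl := lm_pos hc hg s k
      have hρ := rho_pos hc hg s k
      rw [wt_alive_eq s k hk]
      field_simp
    rw [h1]
    have h2 := alive_tele hc hg s
    have h3 := alive_inv hc hg s
    have h4 := mul_le_mul_of_nonneg_left h2 (show 0 ≤ 2 / c.Y ^ 2 by positivity)
    linarith
  have e2 : ∑ k ∈ univ.filter (fun k => g.t k = s),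
      (2 * c.lm g s k + 6 * c.wt g s k) / (c.wt g s k) ^ 2 ≤ 70 * (1 / (c.Y * g.M s)) := by
    refine le_trans ?_ (mul_le_mul_of_nonneg_left (trans_inv hc hg s hs) (by norm_num))
    rw [Finset.mul_sum]
    refine Finset.sum_le_sum fun k hk => ?_
    simp only [Finset.mem_filter, Finset.mem_univ, true_and] at hk
    have hw := wt_pos hc hg s k hk.ge
    have h5 : c.lm g s k ≤ 32 * c.wt g s k := by
      rw [wt_trans_eq s k hk]
      have : 0 ≤ c.Y * (g.M s : ℝ) ^ 2 := by positivity
      linarith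
    rw [div_le_iff₀ (by positivity)]
    have h6 : 70 * (1 / c.wt g s k) * c.wt g s k ^ 2 = 70 * c.wt g s k := by
      field_simp
    rw [h6]
    linarith
  rw [split_filter, Finset.sum_union (split_disj s)]
  have h7 : 1 / (c.Y * g.M s) ≤ 1 / 10 ^ 12 := by
    apply one_div_le_one_div_of_le (by norm_num)
    linarith
  have h8 : 2 / (c.Y * g.M s) ≤ 2 / 10 ^ 12 := by
    have : 2 / (c.Y * g.M s) = 2 * (1 / (c.Y * g.M s)) := by ring
    rw [this]
    linarith
  have h9 : (2 / c.Y ^ 2) * (2 * (1 / (400 * c.Y * g.M s)) ^ 2) ≤ 4 / 10 ^ 12 := by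
    have h10 : 2 / c.Y ^ 2 ≤ 2 / 10 ^ 12 := by
      apply div_le_div_of_nonneg_left (by norm_num) (by norm_num)
      nlinarith
    have h11 : (1 / (400 * c.Y * g.M s)) ^ 2 ≤ 1 := by
      apply pow_le_one₀ (by positivity)
      rw [div_le_one (by positivity)]
      nlinarith
    have h12 : 0 ≤ (1 / (400 * c.Y * g.M s)) ^ 2 := by positivity
    have h13 : 0 ≤ 2 / c.Y ^ 2 := by positivity
    calc (2 / c.Y ^ 2) * (2 * (1 / (400 * c.Y * g.M s)) ^ 2)
        ≤ (2 / 10 ^ 12) * (2 * 1) := by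
          apply mul_le_mul h10 (by linarith) (by positivity) (by norm_num)
      _ = 4 / 10 ^ 12 := by norm_num
  have h14 : (2 : ℝ) / 10 ^ 12 ≤ 1 / 1000 := by norm_num
  have h15 : (1 : ℝ) / 10 ^ 12 ≤ 1 / 1000 := by norm_num
  have h16 : (4 : ℝ) / 10 ^ 12 ≤ 1 / 1000 := by norm_num
  linarith

theorem wt_step (hc : c.Good) (hg : StgGood c g) (s : ℕ) (k : Fin d) (hk : s + 1 ≤ g.t k) :
    3 / (c.K g s : ℝ) * c.wt g s k ≤ c.wt g (s + 1) k / 4 := by
  have hY := Yge hc
  have hY0 : 0 < c.Y := by linarith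
  have hK := Kge hc hg s
  have hK0 : (0 : ℝ) < c.K g s := by linarith
  have hl := lm_pos hc hg s k
  have hρ := rho_pos hc hg s k
  rcases hk.lt_or_eq with hk1 | hk1
  · rw [wt_alive_eq s k (by omega), wt_alive_eq (s + 1) k hk1, lm_step]
    have h1 : 12 * c.rho g s k ≤ c.rho g (s + 1) k := by
      have h2 : (12 * c.rho g s k) ^ 4 ≤ (c.rho g (s + 1) k) ^ 4 := by
        rw [mul_pow, rho_four hc hg, rho_four hc hg]
        have h3 : c.sg g (s + 1) k = c.K g s * c.sg g s k := by
          unfold Cst.sg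
          rw [Finset.mul_sum]
          refine Finset.sum_congr rfl fun k' _ => ?_
          rw [lm_step]
          have := lm_pos hc hg s k'
          field_simp
        rw [h3]
        have h4 := sg_pos hc hg s k
        apply mul_le_mul_of_nonneg_right _ h4.le
        have h12 : (12 : ℝ) ^ 4 = 20736 := by norm_num
        rw [h12]
        exact hK
      exact le_of_pow_le_pow_left₀ (by norm_num) (rho_pos hc hg _ _).le h2
    have h5 : c.Y * (c.lm g s k / c.K g s) * c.rho g (s + 1) k / 4 -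
        3 / (c.K g s : ℝ) * (c.Y * c.lm g s k * c.rho g s k) =
        (c.Y * (c.lm g s k / c.K g s) / 4) * (c.rho g (s + 1) k - 12 * c.rho g s k) := by
      field_simp
      ring
    have h6 : 0 ≤ (c.Y * (c.lm g s k / c.K g s) / 4) * (c.rho g (s + 1) k - 12 * c.rho g s k) :=
      mul_nonneg (by positivity) (by linarith)
    linarith
  · rw [wt_trans_eq (s + 1) k hk1.symm, lm_step]
    have h1 := wt_alive hc hg s k (by omega)
    have h2 : 0 ≤ c.Y * (g.M (s + 1) : ℝ) ^ 2 := by positivity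
    have h3 : 3 / (c.K g s : ℝ) * c.wt g s k ≤ 3 / (c.K g s : ℝ) * (c.lm g s k / 400) :=
      mul_le_mul_of_nonneg_left h1 (by positivity)
    have h4 : 3 / (c.K g s : ℝ) * (c.lm g s k / 400) = (3 / 400) * (c.lm g s k / c.K g s) := by
      field_simp
    have h5 : 0 < c.lm g s k / c.K g s := by positivity
    linarith

theorem lm_mono (hc : c.Good) (hg : StgGood c g) (s : ℕ) (k l : Fin d) (h : k ≤ l) :
    c.lm g s k ≤ c.lm g s l :=
  mul_le_mul_of_nonneg_left (hg.lam_mono h) (p_pos hc hg s).le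

theorem tilt_sq (hc : c.Good) (hg : StgGood c g) (s : ℕ) (hs : 1 ≤ s) (a : Fin d → ℝ)
    (ha : ∀ k0, Ast g s k0 a ≤ c.Y * (g.cnt s k0 + g.M s)) :
    ∑ k ∈ univ.filter (fun k => s < g.t k), (a k) ^ 2 / c.lm g s k ≤
      3 * c.Y / (c.Th * (g.M s : ℝ) ^ 3) := by
  classical
  have hY := Yge hc
  have hM := M_ge hg s
  have hY0 : 0 < c.Y := by linarith
  have hM0 : (0 : ℝ) < g.M s := by linarith
  have hTh : 0 < c.Th := by linarith [Thge1 hc]
  have hu := u_le_M hg s hs
  set U := univ.filter (fun k => s < g.t k) with hU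
  rcases U.eq_empty_or_nonempty with hE | hE
  · rw [hE]
    simp only [Finset.sum_empty]
    positivity
  set k1 := U.min' hE with hk1
  have hk1m : k1 ∈ U := Finset.min'_mem _ _
  have hmin : ∀ k ∈ U, k1 ≤ k := fun k hk => Finset.min'_le _ _ hk
  have hmem : ∀ k, k ∈ U ↔ s < g.t k := by
    intro k
    simp [hU]
  have key := abel (fun k => (a k) ^ 2 - c.Y - (if k = k1 then 2 * c.Y * g.M s else 0))
    (fun k => 1 / c.lm g s k) U
    (fun k _ => by
      have := lm_pos hc hg s k
      positivity)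
    (fun k _ l _ hkl => one_div_le_one_div_of_le (lm_pos hc hg s k) (lm_mono hc hg s k l hkl))
    (by
      intro k0 hk0
      have hk0' := (hmem k0).mp hk0
      have h1 : ∑ k ∈ U.filter (fun k => k ≤ k0), (a k) ^ 2 = Ast g s k0 a := by
        unfold Ast
        rw [hU, Finset.filter_filter]
      have h2 : ∑ k ∈ U.filter (fun k => k ≤ k0),
          (if k = k1 then 2 * c.Y * (g.M s : ℝ) else 0) = 2 * c.Y * g.M s := by
        rw [Finset.sum_ite_eq' (U.filter (fun k => k ≤ k0)) k1]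
        rw [if_pos]
        rw [Finset.mem_filter]
        exact ⟨hk1m, hmin k0 hk0⟩
      have h3 : (g.cnt s k0 : ℝ) ≤ (U.filter (fun k => k ≤ k0)).card + g.u s := by
        have : g.cnt s k0 ≤ (U.filter (fun k => k ≤ k0)).card + g.u s := by
          unfold Stg.cnt Stg.u
          rw [← Finset.card_union_of_disjoint]
          · apply Finset.card_le_card
            intro k
            simp only [hU, Finset.mem_filter, Finset.mem_univ, true_and, Finset.mem_union]
            intro h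
            omega
          · rw [Finset.disjoint_left]
            intro k hk
            simp only [hU, Finset.mem_filter, Finset.mem_univ, true_and] at hk ⊢
            omega
        exact_mod_cast this
      simp only [Finset.sum_sub_distrib]
      rw [h1, h2, Finset.sum_const, nsmul_eq_mul]
      have h4 := ha k0
      nlinarith)
  have e1 : ∑ k ∈ U, (a k) ^ 2 / c.lm g s k =
      ∑ k ∈ U, ((a k) ^ 2 - c.Y - (if k = k1 then 2 * c.Y * g.M s else 0)) * (1 / c.lm g s k)
      + c.Y * ∑ k ∈ U, 1 / c.lm g s k + 2 * c.Y * g.M s * (1 / c.lm g s k1) := by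
    have h2 : ∑ k ∈ U, (if k = k1 then 2 * c.Y * (g.M s : ℝ) else 0) * (1 / c.lm g s k) =
        2 * c.Y * g.M s * (1 / c.lm g s k1) := by
      rw [Finset.sum_eq_single k1]
      · simp
      · intro k _ hne
        simp [hne]
      · intro h
        exact absurd hk1m h
    rw [← h2, Finset.mul_sum, ← Finset.sum_add_distrib, ← Finset.sum_add_distrib]
    refine Finset.sum_congr rfl fun k _ => ?_
    ring
  rw [e1]
  have h5 := hg.alive s
  have h6 := lm_big hc hg s k1 ((hmem k1).mp hk1m)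
  have h7 : 3 * c.Y / (c.Th * (g.M s : ℝ) ^ 3) =
      3 * c.Y * g.M s * (1 / (c.Th * (g.M s : ℝ) ^ 4)) := by
    field_simp
  rw [h7]
  set z := 1 / (c.Th * (g.M s : ℝ) ^ 4) with hz
  have hz0 : 0 < z := by positivity
  have h8 : c.Y * ∑ k ∈ U, 1 / c.lm g s k ≤ c.Y * z := mul_le_mul_of_nonneg_left h5 hY0.le
  have h9 : 2 * c.Y * g.M s * (1 / c.lm g s k1) ≤ 2 * c.Y * g.M s * z :=
    mul_le_mul_of_nonneg_left h6 (by positivity)
  have h10 : c.Y * z ≤ c.Y * g.M s * z := by
    have : c.Y * z * 1 ≤ c.Y * z * g.M s := mul_le_mul_of_nonneg_left hM (by positivity)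
    nlinarith
  nlinarith

theorem lm_trans (hc : c.Good) (hg : StgGood c g) (k : Fin d) :
    c.lm g (g.t k) k ≤ 64 * c.Th * (g.m (g.t k) : ℝ) ^ 5 := by
  have h1 := hg.trans k
  have hTh : 0 < c.Th := by linarith [Thge1 hc]
  have hm : (1 : ℝ) ≤ g.m (g.t k) := by exact_mod_cast hg.m_pos _
  have h2 : (g.M (g.t k) : ℝ) ≤ 2 * g.m (g.t k) := by
    unfold Stg.M
    split_ifs with h
    · push_cast
      linarith
    · have h3 := hg.m_step (g.t k - 1)
      rw [Nat.sub_add_cancel (by omega)] at h3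
      exact_mod_cast h3
  have h3 : (g.M (g.t k) : ℝ) ^ 4 ≤ (2 * g.m (g.t k)) ^ 4 :=
    pow_le_pow_left₀ (by positivity) h2 4
  calc c.lm g (g.t k) k ≤ 4 * (g.m (g.t k) : ℝ) * c.Th * (g.M (g.t k) : ℝ) ^ 4 := h1
    _ ≤ 4 * (g.m (g.t k) : ℝ) * c.Th * (2 * g.m (g.t k)) ^ 4 :=
        mul_le_mul_of_nonneg_left h3 (by positivity)
    _ = 64 * c.Th * (g.m (g.t k) : ℝ) ^ 5 := by ring

end

end WtAux

open WtAux in
theorem wt : WtStatement := by
  intro c hc d g hg
  exact
    { p_pos := WtAux.p_pos hc hg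
      lm_step := WtAux.lm_step
      lm_pos := WtAux.lm_pos hc hg
      lm_one := WtAux.lm_one hc hg
      wt_ge := WtAux.wt_ge hc hg
      wt_alive := WtAux.wt_alive hc hg
      wt_inv := WtAux.wt_inv hc hg
      wt_sq := WtAux.wt_sq hc hg
      wt_step := WtAux.wt_step hc hg
      tilt_sq := WtAux.tilt_sq hc hg
      lm_trans := WtAux.lm_trans hc hg }

end P262S
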