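import Vale.Agent.P262S.BanS
import Vale.Agent.P262S.Tail
import Vale.Agent.P262S.Mark
import Vale.Agent.P262S.Round
import Vale.Agent.P262S.Split
import Vale.Agent.P262S.CstM
import Vale.Agent.P262S.TiltM
import Vale.Agent.P262S.Stg
import Vale.Agent.P262S.Sum
import Vale.Agent.P262S.Wt
import Vale.Agent.P262S.MatchM
import Vale.Agent.P262S.P2
import Vale.Agent.P262S.StepA
import Vale.Agent.P262S.StepB
import Vale.Agent.P262S.Core
import Vale.Agent.P262S.Top

/-! P262: everything except module P1. -/

namespace P262S

theorem finalPre (p1 : P1Statement) : TopStatement :=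
  top (core cst stg sum (stepA p1 wt) (stepB (p2 (split (mark ban) tail) mtch wt) wt))

end P262S
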