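import Vale.Agent.P262S.Defs

/-! P262S: `gam` as a finite measure. -/

namespace P262S

open Finset MeasureTheory

/-- the Gaussian measure -/
noncomputable def gmu (n : ℕ) : Measure (E n) :=
  (volume : Measure (E n)).withDensity (fun x => ENNReal.ofReal (Real.exp (-‖x‖ ^ 2 / 2)))

theorem gam_eq {n : ℕ} (A : Set (E n)) : gam A = gmu n A := by
  unfold gam gmu
  rw [withDensity_apply' _ A]

theorem integrable_gauss (n : ℕ) :
    Integrable (fun x : E n => Real.exp (-‖x‖ ^ 2 / 2)) := by
  have h := GaussianFourier.integrable_cexp_neg_mul_sq_norm_add (V := E n)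
    (b := (1 / 2 : ℂ)) (by norm_num) 0 0
  have h2 := h.norm
  refine h2.congr (Filter.Eventually.of_forall fun x => ?_)
  simp only [Complex.norm_exp]
  congr 1
  simp
  have : ((‖x‖ : ℂ) ^ 2) = ((‖x‖ ^ 2 : ℝ) : ℂ) := by push_cast; ring
  rw [this, Complex.ofReal_re]
  ring

theorem gam_univ_lt_top (n : ℕ) : gam (Set.univ : Set (E n)) < ⊤ := by
  unfold gam
  rw [Measure.restrict_univ]
  exact (integrable_gauss n).lintegral_lt_top

theorem gam_univ_pos (n : ℕ) : 0 < gam (Set.univ : Set (E n)) := by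
  unfold gam
  rw [Measure.restrict_univ]
  rw [lintegral_pos_iff_support]
  · have : Function.support (fun x : E n => ENNReal.ofReal (Real.exp (-‖x‖ ^ 2 / 2))) =
        Set.univ := by
      ext x
      simp [Real.exp_pos]
    rw [this]
    exact Measure.measure_univ_pos.2 (NeZero.ne _)
  · fun_prop

instance gmu_fin (n : ℕ) : IsFiniteMeasure (gmu n) :=
  ⟨by rw [← gam_eq]; exact gam_univ_lt_top n⟩

theorem gam_mono {n : ℕ} {A B : Set (E n)} (h : A ⊆ B) : gam A ≤ gam B := by
  rw [gam_eq, gam_eq]; exact measure_mono h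

theorem gam_union_le {n : ℕ} (A B : Set (E n)) : gam (A ∪ B) ≤ gam A + gam B := by
  rw [gam_eq, gam_eq, gam_eq]; exact measure_union_le A B

theorem gam_add_compl {n : ℕ} {A : Set (E n)} (h : MeasurableSet A) :
    gam A + gam Aᶜ = gam (Set.univ : Set (E n)) := by
  rw [gam_eq, gam_eq, gam_eq]; exact measure_add_measure_compl h

theorem gam_empty {n : ℕ} : gam (∅ : Set (E n)) = 0 := by
  rw [gam_eq]; exact measure_empty

end P262S
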