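import Vale.Agent.P262S.Defs

/-! P262S, module P1, part a: two Cauchy-Schwarz bounds and the tilt. -/

namespace P262S

open Finset

theorem p1_quad {d : ℕ} (A : Finset (Fin d)) (wt : Fin d → ℝ) (hwt : ∀ k ∈ A, 0 < wt k)
    (X : Fin d → Fin d → ℝ) (q : ℝ) (hq : 0 ≤ q)
    (hX : ∑ k ∈ A, ∑ l ∈ A, (X k l) ^ 2 / (wt k * wt l) ≤ q ^ 2) (w : Fin d → ℝ) :
    |∑ k ∈ A, ∑ l ∈ A, X k l * (w k * w l)| ≤ q * ∑ k ∈ A, wt k * (w k) ^ 2 := by
  have h0 : 0 ≤ ∑ k ∈ A, wt k * (w k) ^ 2 :=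
    sum_nonneg fun k hk => mul_nonneg (hwt k hk).le (sq_nonneg _)
  apply abs_le_of_sq_le_sq _ (mul_nonneg hq h0)
  rw [← sum_product' A A (fun k l => X k l * (w k * w l))]
  have key := sum_sq_le_sum_mul_sum_of_sq_le_mul (A ×ˢ A)
    (r := fun p : Fin d × Fin d => X p.1 p.2 * (w p.1 * w p.2))
    (f := fun p => (X p.1 p.2) ^ 2 / (wt p.1 * wt p.2))
    (g := fun p => (wt p.1 * (w p.1) ^ 2) * (wt p.2 * (w p.2) ^ 2))
    (by
      intro p hp
      rw [mem_product] at hp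
      exact div_nonneg (sq_nonneg _) (mul_nonneg (hwt _ hp.1).le (hwt _ hp.2).le))
    (by
      intro p hp
      rw [mem_product] at hp
      exact mul_nonneg (mul_nonneg (hwt _ hp.1).le (sq_nonneg _))
        (mul_nonneg (hwt _ hp.2).le (sq_nonneg _)))
    (by
      intro p hp
      rw [mem_product] at hp
      have h1 := (hwt _ hp.1).ne'
      have h2 := (hwt _ hp.2).ne'
      exact le_of_eq (by field_simp))
  refine key.trans ?_
  rw [sum_product' A A (fun k l => (X k l) ^ 2 / (wt k * wt l)),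
    sum_product' A A (fun k l => (wt k * (w k) ^ 2) * (wt l * (w l) ^ 2)), mul_pow]
  have h2 : ∑ k ∈ A, ∑ l ∈ A, (wt k * (w k) ^ 2) * (wt l * (w l) ^ 2) =
      (∑ k ∈ A, wt k * (w k) ^ 2) ^ 2 := by
    rw [sq, sum_mul_sum]
  rw [h2]
  exact mul_le_mul_of_nonneg_right hX (sq_nonneg _)

theorem p1_tau {d : ℕ} {ι : Type} (M : Finset ι) (A : Finset (Fin d)) (wt : Fin d → ℝ)
    (hwt : ∀ k ∈ A, 0 < wt k) (v : ι → Fin d → ℝ) (hv : ∀ i ∈ M, ∑ k ∈ A, (v i k) ^ 2 ≤ 1)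
    (τ : ι → ℝ) (q : ℝ) (hq : 0 ≤ q) (hτ : ∑ i ∈ M, (τ i) ^ 2 ≤ q ^ 2)
    (he : ∑ k ∈ A, (∑ i ∈ M, (v i k) ^ 2) / (wt k) ^ 2 ≤ 1) (w : Fin d → ℝ) :
    |∑ i ∈ M, τ i * (∑ k ∈ A, v i k * w k) ^ 2| ≤ q * ∑ k ∈ A, wt k * (w k) ^ 2 := by
  set D := ∑ k ∈ A, wt k * (w k) ^ 2 with hD
  have h0 : 0 ≤ D := sum_nonneg fun k hk => mul_nonneg (hwt k hk).le (sq_nonneg _)
  set G : ι → ℝ := fun i => ∑ k ∈ A, (v i k) ^ 2 / wt k with hG
  have hG0 : ∀ i, 0 ≤ G i := fun i =>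
    sum_nonneg fun k hk => div_nonneg (sq_nonneg _) (hwt k hk).le
  have h1 : ∀ i, (∑ k ∈ A, v i k * w k) ^ 2 ≤ G i * D := by
    intro i
    refine sum_sq_le_sum_mul_sum_of_sq_le_mul A
      (fun k hk => div_nonneg (sq_nonneg _) (hwt k hk).le)
      (fun k hk => mul_nonneg (hwt k hk).le (sq_nonneg _)) ?_
    intro k hk
    have := (hwt k hk).ne'
    exact le_of_eq (by field_simp)
  have h2 : ∀ i ∈ M, (G i) ^ 2 ≤ ∑ k ∈ A, (v i k) ^ 2 / (wt k) ^ 2 := by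
    intro i hi
    have := sum_sq_le_sum_mul_sum_of_sq_le_mul A (r := fun k => (v i k) ^ 2 / wt k)
      (f := fun k => (v i k) ^ 2) (g := fun k => (v i k) ^ 2 / (wt k) ^ 2)
      (fun k hk => sq_nonneg _) (fun k hk => div_nonneg (sq_nonneg _) (sq_nonneg _)) (by
        intro k hk
        have := (hwt k hk).ne'
        exact le_of_eq (by field_simp))
    refine this.trans ?_
    have h3 : 0 ≤ ∑ k ∈ A, (v i k) ^ 2 / (wt k) ^ 2 :=
      sum_nonneg fun k hk => div_nonneg (sq_nonneg _) (sq_nonneg _)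
    calc _ ≤ 1 * ∑ k ∈ A, (v i k) ^ 2 / (wt k) ^ 2 :=
          mul_le_mul_of_nonneg_right (hv i hi) h3
      _ = _ := one_mul _
  have h3 : ∑ i ∈ M, (G i) ^ 2 ≤ 1 := by
    calc ∑ i ∈ M, (G i) ^ 2 ≤ ∑ i ∈ M, ∑ k ∈ A, (v i k) ^ 2 / (wt k) ^ 2 := sum_le_sum h2
      _ = ∑ k ∈ A, (∑ i ∈ M, (v i k) ^ 2) / (wt k) ^ 2 := by
          rw [sum_comm]
          exact sum_congr rfl fun k _ => (sum_div _ _ _).symm
      _ ≤ 1 := he
  have h4 : ∑ i ∈ M, |τ i| * G i ≤ q := by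
    have h5 : (∑ i ∈ M, |τ i| * G i) ^ 2 ≤ q ^ 2 := by
      refine (sum_mul_sq_le_sq_mul_sq M (fun i => |τ i|) G).trans ?_
      have h6 : ∑ i ∈ M, |τ i| ^ 2 ≤ q ^ 2 := by simpa only [sq_abs] using hτ
      calc _ ≤ q ^ 2 * 1 := mul_le_mul h6 h3 (sum_nonneg fun _ _ => sq_nonneg _) (sq_nonneg _)
        _ = _ := mul_one _
    exact (abs_le_of_sq_le_sq' h5 hq).2
  calc |∑ i ∈ M, τ i * (∑ k ∈ A, v i k * w k) ^ 2|
      ≤ ∑ i ∈ M, |τ i * (∑ k ∈ A, v i k * w k) ^ 2| := abs_sum_le_sum_abs _ _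
    _ ≤ ∑ i ∈ M, |τ i| * G i * D := by
        refine sum_le_sum fun i _ => ?_
        rw [abs_mul, abs_of_nonneg (sq_nonneg (∑ k ∈ A, v i k * w k)), mul_assoc]
        exact mul_le_mul_of_nonneg_left (h1 i) (abs_nonneg _)
    _ = (∑ i ∈ M, |τ i| * G i) * D := (sum_mul _ _ _).symm
    _ ≤ q * D := mul_le_mul_of_nonneg_right h4 h0

/-- numbers -/
theorem Cst.Good.Ybig {c : Cst} (hc : c.Good) : 10 ^ 12 ≤ c.Y := by
  have h1 := hc.hY
  have h2 := hc.hLa8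
  unfold C0 at h1
  nlinarith

theorem Cst.Good.YC0 {c : Cst} (hc : c.Good) : 80000 * C0 ≤ c.Y := by
  have h1 := hc.hY
  have h2 := hc.hLa8
  have h3 : 0 < C0 := by unfold C0; positivity
  nlinarith

theorem Cst.Good.Thbig {c : Cst} (hc : c.Good) : 10 ^ 9 * c.Y ^ 2 ≤ c.Th := by
  have h1 := hc.hTh
  have h2 := hc.Ybig
  have h3 : 10 ^ 9 * c.Y ^ 2 ≤ (400 * c.Y) ^ 4 := by
    have h4 : (1 : ℝ) ≤ c.Y ^ 2 := by nlinarith
    have h5 : 0 ≤ c.Y ^ 2 := sq_nonneg _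
    calc 10 ^ 9 * c.Y ^ 2 = 10 ^ 9 * (c.Y ^ 2 * 1) := by ring
      _ ≤ 10 ^ 9 * (c.Y ^ 2 * c.Y ^ 2) := by gcongr
      _ ≤ (400 * c.Y) ^ 4 := by
        have : (400 * c.Y) ^ 4 = 400 ^ 4 * (c.Y ^ 2 * c.Y ^ 2) := by ring
        rw [this]
        have : 0 ≤ c.Y ^ 2 * c.Y ^ 2 := by positivity
        nlinarith
  linarith

theorem p1_Mpos {c : Cst} {d : ℕ} {g : Stg d} (hg : StgGood c g) (s : ℕ) :
    (1 : ℝ) ≤ g.M s := by
  unfold Stg.M
  split_ifs
  · simp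
  · exact_mod_cast hg.m_pos _

/-- energy of one coordinate -/
theorem p1_energy {c : Cst} {d : ℕ} {g : Stg d} {ι : Type} (v : ι → Fin d → ℝ) (s : ℕ) (ϑ : ℝ)
    (S : Finset ι) (h1 : Close c g v s ϑ S) (k : Fin d) (hk : s ≤ g.t k) :
    ∑ i ∈ S, (v i k) ^ 2 ≤ c.lm g s k + ϑ * c.wt g s k := by
  have h := h1 (fun l => if l = k then 1 else 0) (by
    intro l hl
    have : l ≠ k := by
      intro h
      subst h
      omega
    simp [this])
  simp only [mul_ite, mul_one, mul_zero, sum_ite_eq', mem_univ, if_true, ite_pow, one_pow,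
    ne_eq, OfNat.ofNat_ne_zero, not_false_eq_true, zero_pow] at h
  have := (abs_le.1 h).2
  linarith

theorem p1_tilt (ht : TiltStatement) {c : Cst} (hc : c.Good) {d : ℕ} {g : Stg d}
    (hg : StgGood c g) (W : WtFacts c g) {ι : Type} [DecidableEq ι] (v : ι → Fin d → ℝ)
    (s : ℕ) (hs : 1 ≤ s) (ϑ : ℝ) (hϑ2 : ϑ ≤ 2) (S S2 : Finset ι) (hdis : Disjoint S S2)
    (h1 : Close c g v s ϑ S) (h2 : Close c g v s ϑ S2) (a0 a3 : Fin d → ℝ)
    (hA0 : ∀ k0, Ast g s k0 a0 ≤ c.Y * (g.cnt s k0 + g.M s))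
    (hA3 : ∀ k0, Ast g s k0 a3 ≤ c.Y * (g.cnt s k0 + g.M s)) :
    ∃ x : Fin d → ℝ, (∀ k, g.t k < s → x k = 0) ∧
      (∀ k, s < g.t k → ∑ i ∈ S ∪ S2, (∑ l, v i l * x l) * v i k = -(a0 k + a3 k) / 2) ∧
      ∑ k ∈ univ.filter (fun k => g.t k = s),
        (∑ i ∈ S ∪ S2, (∑ l, v i l * x l) * v i k) ^ 2 ≤ 1 ∧
      ∑ k, (x k) ^ 2 ≤ 1 / 4 ∧ ∑ i ∈ S ∪ S2, (∑ l, v i l * x l) ^ 2 ≤ 1 / 16 := by
  classical
  have hY := hc.Ybig
  have hY0 : 0 < c.Y := by linarith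
  have hTh := hc.Thbig
  have hTh0 : 0 < c.Th := by nlinarith
  have hM := p1_Mpos hg s
  set M : ℝ := (g.M s : ℝ) with hMdef
  set T2 : ℝ := 3 * c.Y / (c.Th * M ^ 3) with hT2
  -- the numeric facts about T2
  have hM3 : 1 ≤ M ^ 3 := one_le_pow₀ hM
  have hT2n : 16 * c.Y * M ^ 2 * T2 ≤ 1 := by
    rw [hT2]
    have h3 : 16 * c.Y * M ^ 2 * (3 * c.Y / (c.Th * M ^ 3)) =
        (48 * c.Y ^ 2 * M ^ 2) / (c.Th * M ^ 3) := by ring
    rw [h3, div_le_one (by positivity)]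
    have h4 : M ^ 2 ≤ M ^ 3 := pow_le_pow_right₀ hM (by norm_num)
    have h5 : 48 * c.Y ^ 2 ≤ c.Th := by nlinarith [sq_nonneg c.Y]
    calc 48 * c.Y ^ 2 * M ^ 2 ≤ c.Th * M ^ 2 := by gcongr
      _ ≤ c.Th * M ^ 3 := by gcongr
  have hT20 : 0 ≤ T2 := by rw [hT2]; positivity
  have hT2s : T2 ≤ 1 / 16 := by
    have h3 : 1 ≤ c.Y * M ^ 2 := by
      have : 1 ≤ M ^ 2 := one_le_pow₀ hM
      nlinarith
    nlinarith
  -- apply TILT
  have htilt := ht ι (Fin d) (S ∪ S2) v (univ.filter (fun k => s < g.t k))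
    (univ.filter (fun k => g.t k = s)) (by
      rw [disjoint_filter]
      intro k _ h3 h4
      omega) (fun k => c.lm g s k) (4 * c.Y * M ^ 2) (fun k _ => W.lm_pos s k) (by positivity)
    (by
      intro w hw
      have hw0 : ∀ k, g.t k < s → w k = 0 := by
        intro k hk
        apply hw
        · simp only [mem_filter, mem_univ, true_and]; omega
        · simp only [mem_filter, mem_univ, true_and]; omega
      have e1 := (abs_le.1 (h1 w hw0)).1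
      have e2 := (abs_le.1 (h2 w hw0)).1
      have hwt0 : 0 ≤ ∑ k, c.wt g s k * (w k) ^ 2 := by
        refine sum_nonneg fun k _ => ?_
        by_cases hk : s ≤ g.t k
        · exact mul_nonneg (hY0.le.trans (W.wt_ge s k hk)) (sq_nonneg _)
        · rw [hw0 k (by omega)]; simp
      have e3 : ϑ * ∑ k, c.wt g s k * (w k) ^ 2 ≤ 2 * ∑ k, c.wt g s k * (w k) ^ 2 :=
        mul_le_mul_of_nonneg_right hϑ2 hwt0
      rw [sum_union hdis]
      have e4 : ∑ k ∈ univ.filter (fun k => s < g.t k), c.lm g s k * (w k) ^ 2 -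
          4 * c.Y * M ^ 2 * ∑ k ∈ univ.filter (fun k => g.t k = s), (w k) ^ 2 ≤
          2 * ∑ k, c.lm g s k * (w k) ^ 2 - 4 * ∑ k, c.wt g s k * (w k) ^ 2 := by
        rw [sum_filter, sum_filter, mul_sum, mul_sum, mul_sum, ← sum_sub_distrib,
          ← sum_sub_distrib]
        refine sum_le_sum fun k _ => ?_
        rcases lt_trichotomy s (g.t k) with hk | hk | hk
        · rw [if_pos hk, if_neg (by omega)]
          have := W.wt_alive s k hk
          have h5 := W.lm_pos s k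
          nlinarith [sq_nonneg (w k)]
        · rw [if_neg (by omega), if_pos hk.symm]
          have h6 : c.wt g s k = c.lm g s k / 32 + c.Y * M ^ 2 := by
            unfold Cst.wt
            rw [if_neg (by omega)]
          rw [h6]
          have h5 := W.lm_pos s k
          nlinarith [sq_nonneg (w k), mul_nonneg h5.le (sq_nonneg (w k))]
        · rw [hw0 k hk]; simp
      linarith)
    (fun k => -(a0 k + a3 k) / 2)
  obtain ⟨x, hx0, hxH, hxU, hxe, hxq⟩ := htilt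
  -- bound of T^2
  have hT : ∑ k ∈ univ.filter (fun k => s < g.t k), (-(a0 k + a3 k) / 2) ^ 2 / c.lm g s k ≤
      T2 := by
    have b0 := W.tilt_sq s hs a0 hA0
    have b3 := W.tilt_sq s hs a3 hA3
    have : ∑ k ∈ univ.filter (fun k => s < g.t k), (-(a0 k + a3 k) / 2) ^ 2 / c.lm g s k ≤
        ∑ k ∈ univ.filter (fun k => s < g.t k),
          ((1 / 2) * ((a0 k) ^ 2 / c.lm g s k) + (1 / 2) * ((a3 k) ^ 2 / c.lm g s k)) := by
      refine sum_le_sum fun k _ => ?_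
      have h5 := W.lm_pos s k
      rw [← mul_add, ← add_div, ← mul_div_assoc]
      apply div_le_div_of_nonneg_right _ h5.le
      nlinarith [sq_nonneg (a0 k - a3 k)]
    rw [sum_add_distrib, ← mul_sum, ← mul_sum] at this
    rw [hT2]
    linarith
  have hxe' := hxe.trans hT
  have hxq' := hxq.trans hT
  have hell : ∑ k ∈ univ.filter (fun k => s < g.t k), (x k) ^ 2 ≤
      ∑ k ∈ univ.filter (fun k => s < g.t k), c.lm g s k * (x k) ^ 2 := by
    refine sum_le_sum fun k hk => ?_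
    have h6 := W.lm_one s k (mem_filter.1 hk).2
    nlinarith [sq_nonneg (x k)]
  have hU0 : 0 ≤ ∑ k ∈ univ.filter (fun k => g.t k = s), (x k) ^ 2 :=
    sum_nonneg fun _ _ => sq_nonneg _
  have hH0 : 0 ≤ ∑ k ∈ univ.filter (fun k => s < g.t k), (x k) ^ 2 :=
    sum_nonneg fun _ _ => sq_nonneg _
  refine ⟨x, ?_, ?_, ?_, ?_, ?_⟩
  · intro k hk
    apply hx0
    · simp only [mem_filter, mem_univ, true_and]; omega
    · simp only [mem_filter, mem_univ, true_and]; omega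
  · intro k hk
    exact hxH k (by simpa using hk)
  · have : ∑ k ∈ univ.filter (fun k => g.t k = s),
        (∑ i ∈ S ∪ S2, (∑ l, v i l * x l) * v i k) ^ 2 =
        4 * (4 * c.Y * M ^ 2) * ((4 * c.Y * M ^ 2) *
          ∑ k ∈ univ.filter (fun k => g.t k = s), (x k) ^ 2) := by
      rw [mul_sum, mul_sum]
      refine sum_congr rfl fun k hk => ?_
      rw [hxU k hk]
      ring
    rw [this]
    have h7 : (4 * c.Y * M ^ 2) * ∑ k ∈ univ.filter (fun k => g.t k = s), (x k) ^ 2 ≤ T2 := by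
      linarith
    calc 4 * (4 * c.Y * M ^ 2) * ((4 * c.Y * M ^ 2) *
          ∑ k ∈ univ.filter (fun k => g.t k = s), (x k) ^ 2)
        ≤ 4 * (4 * c.Y * M ^ 2) * T2 := by gcongr
      _ = 16 * c.Y * M ^ 2 * T2 := by ring
      _ ≤ 1 := hT2n
  · have h8 : ∑ k, (x k) ^ 2 = ∑ k ∈ univ.filter (fun k => s < g.t k), (x k) ^ 2 +
        ∑ k ∈ univ.filter (fun k => g.t k = s), (x k) ^ 2 := by
      rw [sum_filter, sum_filter, ← sum_add_distrib]
      refine sum_congr rfl fun k _ => ?_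
      rcases lt_trichotomy s (g.t k) with hk | hk | hk
      · rw [if_pos hk, if_neg (by omega)]; ring
      · rw [if_neg (by omega), if_pos hk.symm]; ring
      · rw [if_neg (by omega), if_neg (by omega), hx0 k
          (by simp only [mem_filter, mem_univ, true_and]; omega)
          (by simp only [mem_filter, mem_univ, true_and]; omega)]
        ring
    have h9 : 1 ≤ 4 * c.Y * M ^ 2 := by
      have : 1 ≤ M ^ 2 := one_le_pow₀ hM
      nlinarith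
    nlinarith
  · linarith

end P262S
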