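import Vale.Agent.P262S.P1a

/-! P262S, module P1, part b: the rounding. -/

namespace P262S

open Finset

theorem p1_exp5 : Real.exp (-5) ≤ 1 / 80 := by
  rw [Real.exp_neg, one_div]
  apply inv_anti₀ (by norm_num)
  have h1 : Real.exp 5 = Real.exp 1 ^ 5 := by
    rw [← Real.exp_nat_mul]; norm_num
  rw [h1]
  have h2 := Real.exp_one_gt_d9
  calc (80 : ℝ) ≤ 2.7 ^ 5 := by norm_num
    _ ≤ Real.exp 1 ^ 5 := pow_le_pow_left₀ (by norm_num) (by linarith) 5

theorem cnt_injOn {d : ℕ} (g : Stg d) (s : ℕ) :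
    Set.InjOn (g.cnt s) (↑(univ.filter (fun k => s ≤ g.t k)) : Set (Fin d)) := by
  have key : ∀ a b : Fin d, s ≤ g.t b → a < b → g.cnt s a < g.cnt s b := by
    intro a b hb hab
    unfold Stg.cnt
    apply card_lt_card
    rw [ssubset_iff_of_subset]
    · exact ⟨b, by simp [hb], by simp [hab]⟩
    · intro k hk
      simp only [mem_filter, mem_univ, true_and] at hk ⊢
      exact ⟨hk.1, hk.2.trans hab.le⟩
  intro a ha b hb hab
  simp only [coe_filter, mem_univ, true_and, Set.mem_ofPred_eq] at ha hb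
  rcases lt_trichotomy a b with h | h | h
  · exact absurd hab (key a b hb h).ne
  · exact h
  · exact absurd hab (key b a ha h).ne'

theorem p1_sumexp {d : ℕ} (g : Stg d) (s : ℕ) :
    ∑ k ∈ univ.filter (fun k => s ≤ g.t k), Real.exp (-(5 + (g.cnt s k : ℝ))) ≤
      2 * Real.exp (-5) := by
  have h1 : ∀ k ∈ univ.filter (fun k => s ≤ g.t k), Real.exp (-(5 + (g.cnt s k : ℝ))) ≤
      Real.exp (-5) * (1 / 2 : ℝ) ^ (g.cnt s k) := by
    intro k _
    rw [neg_add, Real.exp_add]
    apply mul_le_mul_of_nonneg_left _ (Real.exp_pos _).le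
    have h2 : Real.exp (-(g.cnt s k : ℝ)) = (Real.exp (-1)) ^ (g.cnt s k) := by
      rw [← Real.exp_nat_mul]; ring_nf
    rw [h2]
    apply pow_le_pow_left₀ (Real.exp_pos _).le
    rw [Real.exp_neg, one_div]
    apply inv_anti₀ (by norm_num)
    have := Real.add_one_le_exp (1 : ℝ)
    linarith
  refine (sum_le_sum h1).trans ?_
  rw [← mul_sum, mul_comm]
  apply mul_le_mul_of_nonneg_right _ (Real.exp_pos _).le
  rw [← sum_image (g := g.cnt s) (f := fun n => (1 / 2 : ℝ) ^ n) (cnt_injOn g s)]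
  have h3 : (univ.filter (fun k => s ≤ g.t k)).image (g.cnt s) ⊆ range (d + 1) := by
    intro n hn
    rw [mem_image] at hn
    obtain ⟨k, _, rfl⟩ := hn
    rw [mem_range]
    have : g.cnt s k ≤ d := by
      unfold Stg.cnt
      exact (card_filter_le _ _).trans (by simp)
    omega
  exact (sum_le_sum_of_subset_of_nonneg h3 (fun _ _ _ => by positivity)).trans
    (sum_geometric_two_le _)

theorem p1_round (hr : RoundStatement) {c : Cst} (hc : c.Good) {d : ℕ} {g : Stg d}
    (hg : StgGood c g) (W : WtFacts c g) {ι : Type} [DecidableEq ι] (v : ι → Fin d → ℝ)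
    (hv : ∀ i, ∑ k, (v i k) ^ 2 ≤ 1) (s : ℕ) (hs : 1 ≤ s) (R : ℝ) (hR : 0 < R) (M : Finset ι)
    (hRM : ∀ i ∈ M, ∑ k ∈ univ.filter (fun k => g.t k < s),
      (4 : ℝ) ^ (s - g.t k) * (v i k) ^ 2 ≤ R)
    (x : ι → ℝ) (hx : ∀ i ∈ M, 0 ≤ x i ∧ x i ≤ 1) :
    ∃ y : ι → ℝ, (∀ i ∈ M, y i = 0 ∨ y i = 1) ∧
      (∀ k0, s ≤ g.t k0 → ∑ k ∈ univ.filter (fun k => s ≤ g.t k ∧ k ≤ k0),
        (∑ i ∈ M, (y i - x i) * v i k) ^ 2 ≤ C0 * (24 * g.cnt s k0 + 80)) ∧
      Dif g s (fun k => ∑ i ∈ M, (y i - x i) * v i k) ≤ R * C0 * (8 * g.W s + 80) ∧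
      ∑ k ∈ univ.filter (fun k => s ≤ g.t k), ∑ l ∈ univ.filter (fun k => s ≤ g.t k),
        (∑ i ∈ M, (y i - x i) * (v i k * v i l)) ^ 2 / (c.wt g s k * c.wt g s l) ≤
          (1 / 4) ^ 2 := by
  classical
  have hY := hc.Ybig
  have hY0 : 0 < c.Y := by linarith
  have hC0 : 0 < C0 := by unfold C0; positivity
  set A := univ.filter (fun k => s ≤ g.t k) with hA
  have hwt0 : ∀ k ∈ A, 0 < c.wt g s k := fun k hk =>
    hY0.trans_le (W.wt_ge s k (mem_filter.1 hk).2)
  obtain ⟨y, hy, hyJ⟩ := hr (Fin d ⊕ (Fin d × Fin d)) ι (Fin d ⊕ Bool) M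
    (fun i => Sum.elim
      (fun k => if s ≤ g.t k then v i k / 2 else
        (1 / 2) * Real.sqrt ((4 : ℝ) ^ (s - g.t k) / R) * v i k)
      (fun p => if s ≤ g.t p.1 ∧ s ≤ g.t p.2 then v i p.1 * v i p.2 / 2 else 0)) x
    (A.disjSum univ)
    (Sum.elim
      (fun k0 => Sum.elim (fun k => if s ≤ g.t k ∧ k ≤ k0 then 1 / 4 else 0) (fun _ => 0))
      (fun b => if b = true then
        Sum.elim (fun k => if g.t k < s then (1 / 4) * (1 / 2 : ℝ) ^ (s - g.t k) else 0)
          (fun _ => 0)
        else Sum.elim (fun _ => 0) (fun p => if s ≤ g.t p.1 ∧ s ≤ g.t p.2 then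
          (1 / 4) * (c.Y ^ 2 / (c.wt g s p.1 * c.wt g s p.2)) else 0)))
    (Sum.elim (fun k0 => 5 + (g.cnt s k0 : ℝ)) (fun _ => 5))
    (by
      intro i hi
      rw [Fintype.sum_sum_type, Fintype.sum_prod_type]
      simp only [Sum.elim_inl, Sum.elim_inr]
      have e1 : ∑ k, (if s ≤ g.t k then v i k / 2 else
          (1 / 2) * Real.sqrt ((4 : ℝ) ^ (s - g.t k) / R) * v i k) ^ 2 ≤ 1 / 4 + 1 / 4 := by
        have e2 : ∑ k, (if s ≤ g.t k then v i k / 2 else
            (1 / 2) * Real.sqrt ((4 : ℝ) ^ (s - g.t k) / R) * v i k) ^ 2 ≤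
            (1 / 4) * ∑ k, (v i k) ^ 2 + (1 / 4) * ((∑ k ∈ univ.filter (fun k => g.t k < s),
              (4 : ℝ) ^ (s - g.t k) * (v i k) ^ 2) / R) := by
          rw [sum_filter, sum_div, mul_sum, mul_sum, ← sum_add_distrib]
          refine sum_le_sum fun k _ => ?_
          by_cases hk : s ≤ g.t k
          · rw [if_pos hk, if_neg (by omega)]
            apply le_of_eq
            ring
          · rw [if_neg hk, if_pos (by omega), mul_pow, mul_pow, Real.sq_sqrt (by positivity)]
            have : 0 ≤ (v i k) ^ 2 := sq_nonneg _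
            have e3 : (1 / 2 : ℝ) ^ 2 * (4 ^ (s - g.t k) / R) * v i k ^ 2 =
              1 / 4 * (4 ^ (s - g.t k) * v i k ^ 2 / R) := by ring
            rw [e3]
            linarith
        have e4 : (∑ k ∈ univ.filter (fun k => g.t k < s),
            (4 : ℝ) ^ (s - g.t k) * (v i k) ^ 2) / R ≤ 1 := by
          rw [div_le_one hR]
          exact hRM i hi
        have := hv i
        linarith
      have e5 : ∑ k, ∑ l, (if s ≤ g.t k ∧ s ≤ g.t l then v i k * v i l / 2 else 0) ^ 2 ≤
          1 / 4 := by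
        have e6 : ∑ k, ∑ l, (if s ≤ g.t k ∧ s ≤ g.t l then v i k * v i l / 2 else 0) ^ 2 ≤
            (1 / 4) * ((∑ k, (v i k) ^ 2) * (∑ l, (v i l) ^ 2)) := by
          rw [sum_mul_sum, mul_sum]
          refine sum_le_sum fun k _ => ?_
          rw [mul_sum]
          refine sum_le_sum fun l _ => ?_
          split_ifs
          · apply le_of_eq; ring
          · rw [zero_pow (by norm_num)]
            positivity
        have e7 := hv i
        have e8 : 0 ≤ ∑ k, (v i k) ^ 2 := sum_nonneg fun _ _ => sq_nonneg _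
        nlinarith
      linarith)
    hx
    (by
      intro j hj t
      rcases j with k0 | b
      · rcases t with k | p
        · simp only [Sum.elim_inl]
          split_ifs <;> norm_num
        · simp only [Sum.elim_inl, Sum.elim_inr]; norm_num
      · cases b
        · rcases t with k | p
          · simp
          · simp only [Sum.elim_inr, Bool.false_eq_true, if_false]
            split_ifs with hp
            · have w1 := W.wt_ge s p.1 hp.1
              have w2 := W.wt_ge s p.2 hp.2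
              constructor
              · have := hY0.trans_le w1
                have := hY0.trans_le w2
                positivity
              · have : c.Y ^ 2 / (c.wt g s p.1 * c.wt g s p.2) ≤ 1 := by
                  rw [div_le_one (mul_pos (hY0.trans_le w1) (hY0.trans_le w2)), sq]
                  exact mul_le_mul w1 w2 hY0.le (hY0.le.trans w1)
                linarith
            · norm_num
        · rcases t with k | p
          · simp only [Sum.elim_inr, Sum.elim_inl, if_true]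
            split_ifs
            · constructor
              · positivity
              · have : (1 / 2 : ℝ) ^ (s - g.t k) ≤ 1 :=
                  pow_le_one₀ (by norm_num) (by norm_num)
                linarith
            · norm_num
          · simp)
    (by
      rw [sum_disjSum]
      simp only [Sum.elim_inl, Sum.elim_inr, sum_const, card_univ, Fintype.card_bool]
      have e1 := p1_sumexp g s
      have e2 := p1_exp5
      simp only [nsmul_eq_mul]
      push_cast
      linarith)
  refine ⟨y, hy, ?_, ?_, ?_⟩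
  · intro k0 hk0
    have h := hyJ (Sum.inl k0) (by simp [hA, hk0])
    rw [Fintype.sum_sum_type, Fintype.sum_sum_type] at h
    simp only [Sum.elim_inl, Sum.elim_inr, zero_mul, sum_const_zero, add_zero] at h
    have e1 : ∑ k, (if s ≤ g.t k ∧ k ≤ k0 then (1 / 4 : ℝ) else 0) =
        (1 / 4) * g.cnt s k0 := by
      rw [← sum_filter, sum_const, nsmul_eq_mul]
      unfold Stg.cnt
      ring
    have e2 : ∑ k, (if s ≤ g.t k ∧ k ≤ k0 then (1 / 4 : ℝ) else 0) *
        (∑ i ∈ M, (y i - x i) * (if s ≤ g.t k then v i k / 2 else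
          (1 / 2) * Real.sqrt ((4 : ℝ) ^ (s - g.t k) / R) * v i k)) ^ 2 =
        (1 / 16) * ∑ k ∈ univ.filter (fun k => s ≤ g.t k ∧ k ≤ k0),
          (∑ i ∈ M, (y i - x i) * v i k) ^ 2 := by
      rw [sum_filter, mul_sum]
      refine sum_congr rfl fun k _ => ?_
      by_cases hk : s ≤ g.t k ∧ k ≤ k0
      · rw [if_pos hk, if_pos hk]
        simp only [if_pos hk.1]
        have : ∑ i ∈ M, (y i - x i) * (v i k / 2) = (∑ i ∈ M, (y i - x i) * v i k) / 2 := by
          rw [sum_div]
          exact sum_congr rfl fun i _ => by ring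
        rw [this]
        ring
      · rw [if_neg hk, if_neg hk]; ring
    rw [e1, e2] at h
    nlinarith
  · have h := hyJ (Sum.inr true) (by simp)
    rw [Fintype.sum_sum_type, Fintype.sum_sum_type] at h
    simp only [Sum.elim_inl, Sum.elim_inr, zero_mul, sum_const_zero, add_zero, if_true] at h
    have e1 : ∑ k, (if g.t k < s then (1 / 4) * (1 / 2 : ℝ) ^ (s - g.t k) else 0) =
        (1 / 4) * g.W s := by
      rw [← sum_filter, ← mul_sum]
      rfl
    have e2 : ∑ k, (if g.t k < s then (1 / 4) * (1 / 2 : ℝ) ^ (s - g.t k) else 0) *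
        (∑ i ∈ M, (y i - x i) * (if s ≤ g.t k then v i k / 2 else
          (1 / 2) * Real.sqrt ((4 : ℝ) ^ (s - g.t k) / R) * v i k)) ^ 2 =
        (1 / (16 * R)) * Dif g s (fun k => ∑ i ∈ M, (y i - x i) * v i k) := by
      unfold Dif
      rw [sum_filter, mul_sum]
      refine sum_congr rfl fun k _ => ?_
      by_cases hk : g.t k < s
      · rw [if_pos hk, if_pos hk]
        simp only [if_neg (not_le.2 hk)]
        have : ∑ i ∈ M, (y i - x i) * ((1 / 2) * Real.sqrt ((4 : ℝ) ^ (s - g.t k) / R) * v i k) =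
            (1 / 2) * Real.sqrt ((4 : ℝ) ^ (s - g.t k) / R) * ∑ i ∈ M, (y i - x i) * v i k := by
          rw [mul_sum]
          exact sum_congr rfl fun i _ => by ring
        rw [this, mul_pow, mul_pow, Real.sq_sqrt (by positivity)]
        have e3 : (4 : ℝ) ^ (s - g.t k) = 2 ^ (s - g.t k) * 2 ^ (s - g.t k) := by
          rw [← mul_pow]; norm_num
        have e4 : (1 / 2 : ℝ) ^ (s - g.t k) * 2 ^ (s - g.t k) = 1 := by
          rw [← mul_pow]; norm_num
        rw [e3]
        calc 1 / 4 * (1 / 2 : ℝ) ^ (s - g.t k) * ((1 / 2) ^ 2 *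
              (2 ^ (s - g.t k) * 2 ^ (s - g.t k) / R) * (∑ i ∈ M, (y i - x i) * v i k) ^ 2)
            = ((1 / 2 : ℝ) ^ (s - g.t k) * 2 ^ (s - g.t k)) * (1 / (16 * R) *
              (2 ^ (s - g.t k) * (∑ i ∈ M, (y i - x i) * v i k) ^ 2)) := by
              field_simp; ring
          _ = _ := by rw [e4, one_mul]
      · rw [if_neg hk, if_neg hk]; ring
    rw [e1, e2, one_div_mul_eq_div, div_le_iff₀ (by positivity)] at h
    calc Dif g s (fun k => ∑ i ∈ M, (y i - x i) * v i k) ≤ _ := h
      _ = R * C0 * (8 * g.W s + 80) := by ring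
  · have h := hyJ (Sum.inr false) (by simp)
    rw [Fintype.sum_sum_type, Fintype.sum_sum_type, Fintype.sum_prod_type,
      Fintype.sum_prod_type] at h
    simp only [Sum.elim_inl, Sum.elim_inr, zero_mul, sum_const_zero, zero_add,
      Bool.false_eq_true, if_false] at h
    have e1 : ∑ k, ∑ l, (if s ≤ g.t k ∧ s ≤ g.t l then
        (1 / 4) * (c.Y ^ 2 / (c.wt g s k * c.wt g s l)) else 0) =
        (c.Y ^ 2 / 4) * (∑ k ∈ A, 1 / c.wt g s k) ^ 2 := by
      rw [sq (∑ k ∈ A, 1 / c.wt g s k), sum_mul_sum, mul_sum, hA, sum_filter]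
      refine sum_congr rfl fun k _ => ?_
      by_cases hk : s ≤ g.t k
      · rw [if_pos hk, mul_sum, sum_filter]
        refine sum_congr rfl fun l _ => ?_
        by_cases hl : s ≤ g.t l
        · rw [if_pos ⟨hk, hl⟩, if_pos hl]; ring
        · rw [if_neg (fun h => hl h.2), if_neg hl]
      · rw [if_neg hk]
        exact sum_eq_zero fun l _ => if_neg (fun h => hk h.1)
    have e2 : ∑ k, ∑ l, (if s ≤ g.t k ∧ s ≤ g.t l then
        (1 / 4) * (c.Y ^ 2 / (c.wt g s k * c.wt g s l)) else 0) *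
        (∑ i ∈ M, (y i - x i) * (if s ≤ g.t k ∧ s ≤ g.t l then v i k * v i l / 2 else 0)) ^ 2 =
        (c.Y ^ 2 / 16) * ∑ k ∈ A, ∑ l ∈ A, (∑ i ∈ M, (y i - x i) * (v i k * v i l)) ^ 2 /
          (c.wt g s k * c.wt g s l) := by
      rw [mul_sum, hA, sum_filter]
      refine sum_congr rfl fun k _ => ?_
      by_cases hk : s ≤ g.t k
      · rw [if_pos hk, mul_sum, sum_filter]
        refine sum_congr rfl fun l _ => ?_
        by_cases hl : s ≤ g.t l
        · rw [if_pos ⟨hk, hl⟩, if_pos hl]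
          simp only [if_pos (And.intro hk hl)]
          have : ∑ i ∈ M, (y i - x i) * (v i k * v i l / 2) =
              (∑ i ∈ M, (y i - x i) * (v i k * v i l)) / 2 := by
            rw [sum_div]
            exact sum_congr rfl fun i _ => by ring
          rw [this]
          ring
        · rw [if_neg (fun h => hl h.2), if_neg hl]; ring
      · rw [if_neg hk]
        refine sum_eq_zero fun l _ => ?_
        rw [if_neg (fun h => hk h.1)]; ring
    rw [e1, e2] at h
    have hinv := W.wt_inv s hs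
    have hM := p1_Mpos hg s
    have h1 : ∑ k ∈ A, 1 / c.wt g s k ≤ 3 / c.Y := by
      refine hinv.trans ?_
      apply div_le_div_of_nonneg_left (by norm_num) hY0
      nlinarith
    have h0 : 0 ≤ ∑ k ∈ A, 1 / c.wt g s k :=
      sum_nonneg fun k hk => by
        have := hwt0 k hk
        positivity
    have h2 : (c.Y ^ 2 / 4) * (∑ k ∈ A, 1 / c.wt g s k) ^ 2 ≤ 9 / 4 := by
      calc (c.Y ^ 2 / 4) * (∑ k ∈ A, 1 / c.wt g s k) ^ 2
          ≤ (c.Y ^ 2 / 4) * (3 / c.Y) ^ 2 := by gcongr
        _ = 9 / 4 := by field_simp; ring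
    have h3 : c.Y ^ 2 / 16 * (∑ k ∈ A, ∑ l ∈ A, (∑ i ∈ M, (y i - x i) * (v i k * v i l)) ^ 2 /
          (c.wt g s k * c.wt g s l)) ≤ C0 * (19 / 2) := by
      refine h.trans ?_
      apply mul_le_mul_of_nonneg_left _ hC0.le
      linarith
    have h4 := hc.YC0
    have h5 : 0 < c.Y ^ 2 := by positivity
    by_contra hcon
    push Not at hcon
    have h6 : c.Y ^ 2 / 16 * (1 / 4) ^ 2 < c.Y ^ 2 / 16 * (∑ k ∈ A, ∑ l ∈ A,
        (∑ i ∈ M, (y i - x i) * (v i k * v i l)) ^ 2 / (c.wt g s k * c.wt g s l)) := by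
      apply mul_lt_mul_of_pos_left hcon (by positivity)
    nlinarith

end P262S
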