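import Vale.Agent.P262S.Defs

/-! P262S, module P2, part 1: the splitting with all its tests -/

namespace P262S

open Finset

variable {d : ℕ}

/-- the deviation vector at cut `q` -/
noncomputable def dev {ι : Type} (v : ι → Fin d → ℝ) (S : Finset ι) (p : ι → ℕ) (K q : ℕ) :
    Fin d → ℝ :=
  fun k => ∑ i ∈ S.filter (fun i => p i ≤ q), v i k - ((q : ℝ) / K) * ∑ i ∈ S, v i k

/-- vectors fed to the splitting theorem -/
noncomputable def p2w {ι : Type} [DecidableEq ι] (g : Stg d) (v : ι → Fin d → ℝ) (s : ℕ) (R : ℝ)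
    (Lt Hv : Finset ι) (F : ι → ℝ) (eta : ℝ) (i : ι) :
    ((Fin d ⊕ (Fin d × Fin d)) ⊕ Bool) → ℝ
  | Sum.inl (Sum.inl k) => (if s ≤ g.t k then 1 / 2 else 1 / 2 * Real.sqrt (4 ^ (s - g.t k) / R)) *
      v i k
  | Sum.inl (Sum.inr kl) => if i ∈ Lt then (if s + 1 ≤ g.t kl.1 ∧ s + 1 ≤ g.t kl.2 then
      1 / 2 * (v i kl.1 * v i kl.2) else 0) else 0
  | Sum.inr true => if i ∈ Lt then 1 / (2 * eta) * F i else 0
  | Sum.inr false => if i ∈ Hv then 1 / 2 else 0

/-- test weights -/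
noncomputable def p2a (g : Stg d) (s : ℕ) (wt : Fin d → ℝ) (sg : ℝ) :
    (Fin d ⊕ Fin 4) → ((Fin d ⊕ (Fin d × Fin d)) ⊕ Bool) → ℝ
  | Sum.inl k0, Sum.inl (Sum.inl k) => if s ≤ g.t k ∧ k ≤ k0 then 1 / 4 else 0
  | Sum.inr 0, Sum.inl (Sum.inl k) => if g.t k < s then 1 / 4 * (1 / 2) ^ (s - g.t k) else 0
  | Sum.inr 1, Sum.inl (Sum.inr kl) => if s + 1 ≤ g.t kl.1 ∧ s + 1 ≤ g.t kl.2 then
      1 / 4 * (1 / (wt kl.1 * wt kl.2)) / sg ^ 2 else 0
  | Sum.inr 2, Sum.inr true => 1 / 4
  | Sum.inr 3, Sum.inr false => 1 / 4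
  | _, _ => 0

/-- test levels -/
noncomputable def p2L (g : Stg d) (s : ℕ) (L : ℝ) : (Fin d ⊕ Fin 4) → ℝ
  | Sum.inl k0 => L + g.cnt s k0
  | Sum.inr _ => L

theorem sum_T (f : ((Fin d ⊕ (Fin d × Fin d)) ⊕ Bool) → ℝ) :
    ∑ t, f t = ∑ k, f (Sum.inl (Sum.inl k)) + ∑ kl, f (Sum.inl (Sum.inr kl)) +
      (f (Sum.inr true) + f (Sum.inr false)) := by
  rw [Fintype.sum_sum_type, Fintype.sum_sum_type, Fintype.sum_bool]

theorem sum_filter_mul {ι : Type} (S : Finset ι) (P : ι → Prop) [DecidablePred P] (c r : ℝ)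
    (f : ι → ℝ) : ∑ i ∈ S.filter P, c * f i - r * ∑ i ∈ S, c * f i =
      c * (∑ i ∈ S.filter P, f i - r * ∑ i ∈ S, f i) := by
  rw [← mul_sum, ← mul_sum]
  ring

/-- geometric bound for the tests on initial segments -/
theorem sum_exp_cnt (g : Stg d) (s : ℕ) :
    ∑ k0 ∈ univ.filter (fun k0 => s ≤ g.t k0), Real.exp (-(g.cnt s k0 : ℝ)) ≤ 1 := by
  classical
  -- the counts are distinct positive integers
  have hinj : Set.InjOn (fun k0 => g.cnt s k0) (univ.filter (fun k0 => s ≤ g.t k0)) := by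
    have hlt : ∀ a b : Fin d, s ≤ g.t a → s ≤ g.t b → a < b → g.cnt s a < g.cnt s b := by
      intro a b _ hb hab
      unfold Stg.cnt
      refine card_lt_card ?_
      rw [ssubset_iff_of_subset]
      · refine ⟨b, ?_, ?_⟩
        · simp [hb]
        · simp [hab]
      · intro k hk
        simp only [mem_filter, mem_univ, true_and] at hk ⊢
        exact ⟨hk.1, hk.2.trans hab.le⟩
    intro a ha b hb hab
    simp only [coe_filter, mem_univ, true_and, Set.mem_ofPred_eq] at ha hb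
    rcases lt_trichotomy a b with h | h | h
    · exact absurd hab (hlt a b ha hb h).ne
    · exact h
    · exact absurd hab.symm (hlt b a hb ha h).ne
  have hpos : ∀ k0 ∈ univ.filter (fun k0 => s ≤ g.t k0), 1 ≤ g.cnt s k0 := by
    intro k0 hk0
    rw [mem_filter] at hk0
    unfold Stg.cnt
    rw [Nat.one_le_iff_ne_zero, ← Nat.pos_iff_ne_zero, card_pos]
    exact ⟨k0, by simp [hk0.2]⟩
  have h1 : ∑ k0 ∈ univ.filter (fun k0 => s ≤ g.t k0), Real.exp (-(g.cnt s k0 : ℝ)) =
      ∑ n ∈ (univ.filter (fun k0 => s ≤ g.t k0)).image (fun k0 => g.cnt s k0),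
        Real.exp (-(n : ℝ)) := by
    rw [sum_image hinj]
  rw [h1]
  have h2 : (univ.filter (fun k0 => s ≤ g.t k0)).image (fun k0 => g.cnt s k0) ⊆
      Finset.Icc 1 d := by
    intro n hn
    rw [mem_image] at hn
    obtain ⟨k0, hk0, rfl⟩ := hn
    rw [mem_Icc]
    refine ⟨hpos k0 hk0, ?_⟩
    unfold Stg.cnt
    refine (card_le_univ _).trans ?_
    simp
  refine (sum_le_sum_of_subset_of_nonneg h2 fun n _ _ => (Real.exp_pos _).le).trans ?_
  have h3 : ∀ n : ℕ, 1 ≤ n → Real.exp (-(n : ℝ)) ≤ (1 / 2) ^ n := by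
    intro n _
    have h4 : Real.exp (-(n : ℝ)) = Real.exp (-1) ^ n := by
      rw [← Real.exp_nat_mul]
      congr 1
      ring
    rw [h4]
    refine pow_le_pow_left₀ (Real.exp_pos _).le ?_ n
    rw [Real.exp_neg]
    have h5 : (2 : ℝ) ≤ Real.exp 1 := by
      have := Real.add_one_le_exp (1 : ℝ)
      linarith
    rw [one_div]
    exact inv_anti₀ (by norm_num) h5
  have h6 : ∑ n ∈ Finset.Icc 1 d, Real.exp (-(n : ℝ)) ≤ ∑ n ∈ Finset.Icc 1 d, (1 / 2 : ℝ) ^ n :=
    sum_le_sum fun n hn => h3 n (mem_Icc.1 hn).1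
  refine h6.trans ?_
  have h7 : ∀ n : ℕ, ∑ j ∈ Finset.Icc 1 n, (1 / 2 : ℝ) ^ j = 1 - (1 / 2) ^ n := by
    intro n
    induction n with
    | zero => simp
    | succ n ih =>
      rw [sum_Icc_succ_top (by omega), ih, pow_succ]
      ring
  rw [h7]
  have : (0 : ℝ) < (1 / 2) ^ d := by positivity
  linarith

/-- the splitting with all its tests -/
theorem p2_split (hs : SplitStatement) (g : Stg d) (hmono : Monotone g.t) {ι : Type}
    [DecidableEq ι] (v : ι → Fin d → ℝ) (hv : ∀ i, ∑ k, (v i k) ^ 2 ≤ 1) (s : ℕ) (R : ℝ)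
    (hR : 0 < R) (S Lt Hv : Finset ι) (hdis : Disjoint Lt Hv) (hLS : Lt ⊆ S) (hHS : Hv ⊆ S)
    (hdead : ∀ i ∈ S, ∑ k ∈ univ.filter (fun k => g.t k < s), (4 : ℝ) ^ (s - g.t k) * (v i k) ^ 2
      ≤ R) (F : ι → ℝ) (eta : ℝ) (heta : 0 < eta) (hF0 : ∀ i ∈ Lt, 0 ≤ F i)
    (hF : ∀ i ∈ Lt, F i ≤ eta) (K : ℕ) (hK : 1 ≤ K) (wt : Fin d → ℝ)
    (hwt : ∀ k, s + 1 ≤ g.t k → 0 < wt k) (L : ℝ) (hL : 5 * Real.exp (-L) ≤ 1 / (20 * K)) :
    ∃ p : ι → ℕ, (∀ i ∈ S, 1 ≤ p i ∧ p i ≤ K) ∧ ∀ q ≤ K,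
      (∀ k0, Nst g s k0 (dev v S p K q) ≤ 16 * C0 * (3 / 2 * g.cnt s k0 + L)) ∧
      Dif g s (dev v S p K q) ≤ 16 * R * C0 * (g.W s / 2 + L) ∧
      (∑ kl ∈ univ.filter (fun kl : Fin d × Fin d => s + 1 ≤ g.t kl.1 ∧ s + 1 ≤ g.t kl.2),
        (∑ i ∈ Lt.filter (fun i => p i ≤ q), v i kl.1 * v i kl.2
          - ((q : ℝ) / K) * ∑ i ∈ Lt, v i kl.1 * v i kl.2) ^ 2 / (wt kl.1 * wt kl.2) ≤
        16 * C0 * (1 / 2 + L) *
          (∑ k ∈ univ.filter (fun k => s + 1 ≤ g.t k), 1 / wt k) ^ 2) ∧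
      (∑ i ∈ Lt.filter (fun i => p i ≤ q), F i - ((q : ℝ) / K) * ∑ i ∈ Lt, F i) ^ 2 ≤
        16 * eta ^ 2 * (C0 * (1 / 2 + L)) ∧
      (((Hv.filter (fun i => p i ≤ q)).card : ℝ) - ((q : ℝ) / K) * Hv.card) ^ 2 ≤
        16 * (C0 * (1 / 2 + L)) := by
  classical
  set sg : ℝ := ∑ k ∈ univ.filter (fun k => s + 1 ≤ g.t k), 1 / wt k with hsg
  have hC0 : (0 : ℝ) < C0 := by
    unfold C0
    norm_num
  have hwtsg : ∀ k, s + 1 ≤ g.t k → 1 / wt k ≤ sg := by
    intro k hk
    rw [hsg]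
    refine single_le_sum (f := fun k => 1 / wt k) (fun k' hk' => ?_)
      (mem_filter.2 ⟨mem_univ _, hk⟩)
    rw [mem_filter] at hk'
    exact (one_div_pos.2 (hwt k' hk'.2)).le
  have hsg0 : 0 ≤ sg := by
    rw [hsg]
    refine sum_nonneg fun k hk => ?_
    rw [mem_filter] at hk
    exact (one_div_pos.2 (hwt k hk.2)).le
  -- norms of the vectors
  have hnorm : ∀ i ∈ S, ∑ t, (p2w g v s R Lt Hv F eta i t) ^ 2 ≤ 1 := by
    intro i hi
    rw [sum_T]
    have e1 : ∑ k, (p2w g v s R Lt Hv F eta i (Sum.inl (Sum.inl k))) ^ 2 ≤ 1 / 2 := by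
      have h1 : ∀ k, (p2w g v s R Lt Hv F eta i (Sum.inl (Sum.inl k))) ^ 2 ≤
          1 / 4 * (v i k) ^ 2 +
            if g.t k < s then 1 / (4 * R) * ((4 : ℝ) ^ (s - g.t k) * (v i k) ^ 2) else 0 := by
        intro k
        unfold p2w
        by_cases hk : s ≤ g.t k
        · simp only [hk, if_true, not_lt.2 hk, if_false]
          have : (1 / 2 * v i k) ^ 2 = 1 / 4 * (v i k) ^ 2 := by ring
          linarith
        · simp only [hk, if_false, not_le.1 hk, if_true]
          have h2 : (1 / 2 * Real.sqrt (4 ^ (s - g.t k) / R) * v i k) ^ 2 =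
              1 / 4 * (Real.sqrt (4 ^ (s - g.t k) / R)) ^ 2 * (v i k) ^ 2 := by ring
          rw [h2, Real.sq_sqrt (by positivity)]
          have h3 : 1 / 4 * ((4 : ℝ) ^ (s - g.t k) / R) * (v i k) ^ 2 =
              1 / (4 * R) * ((4 : ℝ) ^ (s - g.t k) * (v i k) ^ 2) := by
            field_simp
          rw [h3]
          have : 0 ≤ 1 / 4 * (v i k) ^ 2 := by positivity
          linarith
      refine (sum_le_sum fun k _ => h1 k).trans ?_
      rw [sum_add_distrib, ← mul_sum, ← sum_filter, ← mul_sum]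
      have h2 := hv i
      have h3 := hdead i hi
      have h4 : 1 / (4 * R) * ∑ k ∈ univ.filter (fun k => g.t k < s),
          (4 : ℝ) ^ (s - g.t k) * (v i k) ^ 2 ≤ 1 / (4 * R) * R :=
        mul_le_mul_of_nonneg_left h3 (by positivity)
      have h5 : 1 / (4 * R) * R = 1 / 4 := by field_simp
      linarith
    have e2 : ∑ kl, (p2w g v s R Lt Hv F eta i (Sum.inl (Sum.inr kl))) ^ 2 ≤
        if i ∈ Lt then 1 / 4 else 0 := by
      by_cases hL : i ∈ Lt
      · simp only [p2w, hL, if_true]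
        have h1 : ∀ kl : Fin d × Fin d, (if s + 1 ≤ g.t kl.1 ∧ s + 1 ≤ g.t kl.2 then
            1 / 2 * (v i kl.1 * v i kl.2) else 0) ^ 2 ≤
            1 / 4 * ((v i kl.1) ^ 2 * (v i kl.2) ^ 2) := by
          intro kl
          by_cases h : s + 1 ≤ g.t kl.1 ∧ s + 1 ≤ g.t kl.2
          · rw [if_pos h]
            exact le_of_eq (by ring)
          · rw [if_neg h]
            have : 0 ≤ 1 / 4 * ((v i kl.1) ^ 2 * (v i kl.2) ^ 2) := by positivity
            simpa using this
        refine (sum_le_sum fun kl _ => h1 kl).trans ?_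
        rw [← mul_sum, Fintype.sum_prod_type]
        simp only
        have h2 : ∑ k, ∑ l, (v i k) ^ 2 * (v i l) ^ 2 = (∑ k, (v i k) ^ 2) * ∑ l, (v i l) ^ 2 := by
          rw [sum_mul_sum]
        rw [h2]
        have h3 := hv i
        have h4 : 0 ≤ ∑ k, (v i k) ^ 2 := sum_nonneg fun k _ => sq_nonneg _
        nlinarith
      · simp only [p2w, hL, if_false]
        simp
    have e3 : (p2w g v s R Lt Hv F eta i (Sum.inr true)) ^ 2 ≤ if i ∈ Lt then 1 / 4 else 0 := by
      by_cases hL : i ∈ Lt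
      · simp only [p2w, hL, if_true]
        have h1 := hF i hL
        have h2 := hF0 i hL
        have h3 : 1 / (2 * eta) * F i ≤ 1 / 2 := by
          rw [one_div_mul_eq_div, div_le_iff₀ (by positivity)]
          linarith
        have h4 : 0 ≤ 1 / (2 * eta) * F i := by positivity
        nlinarith
      · simp only [p2w, hL, if_false]
        simp
    have e4 : (p2w g v s R Lt Hv F eta i (Sum.inr false)) ^ 2 ≤ if i ∈ Hv then 1 / 4 else 0 := by
      by_cases hH : i ∈ Hv
      · simp only [p2w, hH, if_true]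
        norm_num
      · simp only [p2w, hH, if_false]
        simp
    by_cases hL : i ∈ Lt
    · have hH : i ∉ Hv := fun h => (disjoint_left.1 hdis) hL h
      rw [if_pos hL] at e2 e3
      rw [if_neg hH] at e4
      linarith
    · rw [if_neg hL] at e2 e3
      have : (if i ∈ Hv then (1 : ℝ) / 4 else 0) ≤ 1 / 4 := by
        split_ifs <;> norm_num
      linarith
  -- weights of the tests
  have hal : ∀ j ∈ (univ.filter (fun k0 => s ≤ g.t k0)).disjSum (univ : Finset (Fin 4)), ∀ t,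
      0 ≤ p2a g s wt sg j t ∧ p2a g s wt sg j t ≤ 1 / 4 := by
    intro j _ t
    rcases j with k0 | j
    · rcases t with (k | kl) | b
      · simp only [p2a]
        split_ifs <;> norm_num
      · simp only [p2a]; norm_num
      · rcases b with _ | _ <;> (simp only [p2a]; norm_num)
    · have hj : j = 0 ∨ j = 1 ∨ j = 2 ∨ j = 3 := by
        fin_cases j <;> simp
      rcases hj with rfl | rfl | rfl | rfl
      · rcases t with (k | kl) | b
        · simp only [p2a]
          split_ifs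
          · have h1 : ((1 : ℝ) / 2) ^ (s - g.t k) ≤ 1 := pow_le_one₀ (by norm_num) (by norm_num)
            have h2 : (0 : ℝ) ≤ (1 / 2) ^ (s - g.t k) := by positivity
            constructor <;> linarith
          · norm_num
        · simp only [p2a]; norm_num
        · rcases b with _ | _ <;> (simp only [p2a]; norm_num)
      · rcases t with (k | kl) | b
        · simp only [p2a]; norm_num
        · simp only [p2a]
          split_ifs with h
          · have h1 := hwt _ h.1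
            have h2 := hwt _ h.2
            have h3 := hwtsg _ h.1
            have h4 := hwtsg _ h.2
            have h5 : 0 < 1 / wt kl.1 := one_div_pos.2 h1
            have h6 : 0 < 1 / wt kl.2 := one_div_pos.2 h2
            have hsgp : 0 < sg := lt_of_lt_of_le h5 h3
            have h7 : 1 / (wt kl.1 * wt kl.2) = (1 / wt kl.1) * (1 / wt kl.2) := by
              rw [one_div_mul_one_div]
            have h8 : (1 / wt kl.1) * (1 / wt kl.2) ≤ sg * sg :=
              mul_le_mul h3 h4 h6.le hsg0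
            constructor
            · positivity
            · rw [div_le_iff₀ (by positivity), h7]
              nlinarith
          · norm_num
        · rcases b with _ | _ <;> (simp only [p2a]; norm_num)
      · rcases t with (k | kl) | b
        · simp only [p2a]; norm_num
        · simp only [p2a]; norm_num
        · rcases b with _ | _ <;> (simp only [p2a]; norm_num)
      · rcases t with (k | kl) | b
        · simp only [p2a]; norm_num
        · simp only [p2a]; norm_num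
        · rcases b with _ | _ <;> (simp only [p2a]; norm_num)
  -- budget
  have hbud : ∑ j ∈ (univ.filter (fun k0 => s ≤ g.t k0)).disjSum (univ : Finset (Fin 4)),
      Real.exp (-(p2L g s L j)) ≤ 1 / (20 * K) := by
    rw [sum_disjSum]
    have h1 : ∑ k0 ∈ univ.filter (fun k0 => s ≤ g.t k0), Real.exp (-(p2L g s L (Sum.inl k0))) =
        Real.exp (-L) * ∑ k0 ∈ univ.filter (fun k0 => s ≤ g.t k0),
          Real.exp (-(g.cnt s k0 : ℝ)) := by
      rw [mul_sum]
      refine sum_congr rfl fun k0 _ => ?_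
      rw [← Real.exp_add]
      congr 1
      simp only [p2L]
      ring
    have h2 : ∑ j : Fin 4, Real.exp (-(p2L g s L (Sum.inr j : Fin d ⊕ Fin 4))) =
        4 * Real.exp (-L) := by
      simp only [p2L, sum_const, card_univ, Fintype.card_fin, nsmul_eq_mul]
      norm_num
    rw [h1, h2]
    have h3 := sum_exp_cnt g s
    have h4 := Real.exp_pos (-L)
    have h5 : Real.exp (-L) * ∑ k0 ∈ univ.filter (fun k0 => s ≤ g.t k0),
        Real.exp (-(g.cnt s k0 : ℝ)) ≤ Real.exp (-L) * 1 :=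
      mul_le_mul_of_nonneg_left h3 h4.le
    linarith
  obtain ⟨p, hp, hq⟩ := hs _ ι _ S (p2w g v s R Lt Hv F eta) K _ (p2a g s wt sg)
    (p2L g s L) hK hnorm hal hbud
  refine ⟨p, hp, fun q hqK => ⟨?_, ?_, ?_, ?_, ?_⟩⟩
  · -- tests (a)
    intro k0
    by_cases hk0 : s ≤ g.t k0
    · have h1 := hq q hqK (Sum.inl k0) (by simp [hk0])
      rw [sum_T, sum_T] at h1
      simp only [p2a, p2L, zero_mul, sum_const_zero, add_zero] at h1
      have h2 : ∑ k, (if s ≤ g.t k ∧ k ≤ k0 then (1 : ℝ) / 4 else 0) *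
          (∑ i ∈ S.filter (fun i => p i ≤ q), p2w g v s R Lt Hv F eta i (Sum.inl (Sum.inl k))
            - (q : ℝ) / K * ∑ i ∈ S, p2w g v s R Lt Hv F eta i (Sum.inl (Sum.inl k))) ^ 2 =
          1 / 16 * Nst g s k0 (dev v S p K q) := by
        unfold Nst
        rw [mul_sum, sum_filter]
        refine sum_congr rfl fun k _ => ?_
        by_cases hk : s ≤ g.t k ∧ k ≤ k0
        · rw [if_pos hk, if_pos hk]
          simp only [p2w, hk.1, if_true]
          rw [sum_filter_mul]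
          unfold dev
          ring
        · rw [if_neg hk, if_neg hk, zero_mul]
      have h3 : ∑ k, (if s ≤ g.t k ∧ k ≤ k0 then (1 : ℝ) / 4 else 0) = 1 / 4 * g.cnt s k0 := by
        unfold Stg.cnt
        rw [← sum_filter, sum_const, nsmul_eq_mul]
        ring
      rw [h2, h3] at h1
      linarith
    · have h1 : (univ.filter fun k => s ≤ g.t k ∧ k ≤ k0) = ∅ := by
        rw [filter_eq_empty_iff]
        rintro k _ ⟨hk1, hk2⟩
        exact hk0 (hk1.trans (hmono hk2))
      unfold Nst Stg.cnt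
      rw [h1]
      have hL0 : 0 ≤ L := by
        by_contra hcon
        push Not at hcon
        have h2 : 1 ≤ Real.exp (-L) := Real.one_le_exp (by linarith)
        have h3 : (1 : ℝ) / (20 * K) ≤ 1 := by
          have hK1 : (1 : ℝ) ≤ K := by exact_mod_cast hK
          rw [div_le_one (by positivity)]
          linarith
        linarith
      simp only [sum_empty, card_empty, Nat.cast_zero, mul_zero, zero_add]
      positivity
  · -- test (b)
    have h1 := hq q hqK (Sum.inr 0) (by simp)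
    rw [sum_T, sum_T] at h1
    simp only [p2a, p2L, zero_mul, sum_const_zero, add_zero] at h1
    have h2 : ∑ k, (if g.t k < s then (1 : ℝ) / 4 * (1 / 2) ^ (s - g.t k) else 0) *
        (∑ i ∈ S.filter (fun i => p i ≤ q), p2w g v s R Lt Hv F eta i (Sum.inl (Sum.inl k))
          - (q : ℝ) / K * ∑ i ∈ S, p2w g v s R Lt Hv F eta i (Sum.inl (Sum.inl k))) ^ 2 =
        1 / (16 * R) * Dif g s (dev v S p K q) := by
      unfold Dif
      rw [mul_sum, sum_filter]
      refine sum_congr rfl fun k _ => ?_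
      by_cases hk : g.t k < s
      · rw [if_pos hk, if_pos hk]
        simp only [p2w, not_le.2 hk, if_false]
        rw [sum_filter_mul]
        have h3 : (1 / 2 * Real.sqrt (4 ^ (s - g.t k) / R) *
            (∑ i ∈ S.filter (fun i => p i ≤ q), v i k - (q : ℝ) / K * ∑ i ∈ S, v i k)) ^ 2 =
            1 / 4 * (Real.sqrt (4 ^ (s - g.t k) / R)) ^ 2 * (dev v S p K q k) ^ 2 := by
          unfold dev
          ring
        rw [h3, Real.sq_sqrt (by positivity)]
        have h4 : (4 : ℝ) ^ (s - g.t k) = 2 ^ (s - g.t k) * 2 ^ (s - g.t k) := by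
          rw [← mul_pow]; norm_num
        have h5 : ((1 : ℝ) / 2) ^ (s - g.t k) * 2 ^ (s - g.t k) = 1 := by
          rw [← mul_pow]; norm_num
        rw [h4]
        have h6 : 1 / 4 * (1 / 2) ^ (s - g.t k) *
            (1 / 4 * (2 ^ (s - g.t k) * 2 ^ (s - g.t k) / R) * dev v S p K q k ^ 2) =
            ((1 / 2) ^ (s - g.t k) * 2 ^ (s - g.t k)) * (1 / (16 * R) *
              (2 ^ (s - g.t k) * dev v S p K q k ^ 2)) := by
          field_simp
          ring
        rw [h6, h5, one_mul]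
      · rw [if_neg hk, if_neg hk, zero_mul]
    have h3 : ∑ k, (if g.t k < s then (1 : ℝ) / 4 * (1 / 2) ^ (s - g.t k) else 0) =
        1 / 4 * g.W s := by
      unfold Stg.W
      rw [← sum_filter, mul_sum]
    rw [h2, h3] at h1
    have h4 : Dif g s (dev v S p K q) = 16 * R * (1 / (16 * R) * Dif g s (dev v S p K q)) := by
      field_simp
    rw [h4]
    have h5 : 16 * R * (1 / (16 * R) * Dif g s (dev v S p K q)) ≤
        16 * R * (C0 * (2 * (1 / 4 * g.W s) + L)) :=
      mul_le_mul_of_nonneg_left h1 (by positivity)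
    refine h5.trans (le_of_eq ?_)
    ring
  · -- test (c)
    have h1 := hq q hqK (Sum.inr 1) (by simp)
    rw [sum_T, sum_T] at h1
    simp only [p2a, p2L, zero_mul, sum_const_zero, add_zero, zero_add] at h1
    have hmem : ∀ i ∈ S, i ∉ Lt ∨ i ∈ Lt := fun i _ => (em _).symm
    have hfl : ∀ f : ι → ℝ, ∑ i ∈ S.filter (fun i => p i ≤ q), (if i ∈ Lt then f i else 0) =
        ∑ i ∈ Lt.filter (fun i => p i ≤ q), f i := by
      intro f
      rw [← sum_filter]
      refine sum_congr ?_ fun _ _ => rfl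
      ext i
      simp only [mem_filter]
      constructor
      · rintro ⟨⟨_, h2⟩, h3⟩
        exact ⟨h3, h2⟩
      · rintro ⟨h3, h2⟩
        exact ⟨⟨hLS h3, h2⟩, h3⟩
    have hfS : ∀ f : ι → ℝ, ∑ i ∈ S, (if i ∈ Lt then f i else 0) = ∑ i ∈ Lt, f i := by
      intro f
      rw [← sum_filter]
      refine sum_congr ?_ fun _ _ => rfl
      ext i
      simp only [mem_filter]
      exact ⟨fun h => h.2, fun h => ⟨hLS h, h⟩⟩
    have h2 : ∑ kl : Fin d × Fin d, (if s + 1 ≤ g.t kl.1 ∧ s + 1 ≤ g.t kl.2 then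
          1 / 4 * (1 / (wt kl.1 * wt kl.2)) / sg ^ 2 else 0) *
        (∑ i ∈ S.filter (fun i => p i ≤ q), p2w g v s R Lt Hv F eta i (Sum.inl (Sum.inr kl))
          - (q : ℝ) / K * ∑ i ∈ S, p2w g v s R Lt Hv F eta i (Sum.inl (Sum.inr kl))) ^ 2 =
        1 / 16 * (1 / sg ^ 2) *
        ∑ kl ∈ univ.filter (fun kl : Fin d × Fin d => s + 1 ≤ g.t kl.1 ∧ s + 1 ≤ g.t kl.2),
        (∑ i ∈ Lt.filter (fun i => p i ≤ q), v i kl.1 * v i kl.2
          - ((q : ℝ) / K) * ∑ i ∈ Lt, v i kl.1 * v i kl.2) ^ 2 / (wt kl.1 * wt kl.2) := by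
      rw [mul_sum, sum_filter]
      refine sum_congr rfl fun kl _ => ?_
      by_cases hk : s + 1 ≤ g.t kl.1 ∧ s + 1 ≤ g.t kl.2
      · rw [if_pos hk, if_pos hk]
        simp only [p2w, hk, and_self, if_true]
        rw [hfl, hfS, sum_filter_mul]
        ring
      · rw [if_neg hk, if_neg hk, zero_mul]
    have h3 : ∑ kl : Fin d × Fin d, (if s + 1 ≤ g.t kl.1 ∧ s + 1 ≤ g.t kl.2 then
          1 / 4 * (1 / (wt kl.1 * wt kl.2)) / sg ^ 2 else 0) = 1 / 4 * (sg ^ 2 / sg ^ 2) := by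
      have h4 : sg ^ 2 = ∑ kl : Fin d × Fin d, if s + 1 ≤ g.t kl.1 ∧ s + 1 ≤ g.t kl.2 then
          1 / (wt kl.1 * wt kl.2) else 0 := by
        rw [Fintype.sum_prod_type, sq, hsg, sum_filter, sum_mul_sum]
        refine sum_congr rfl fun k _ => sum_congr rfl fun l _ => ?_
        by_cases h5 : s + 1 ≤ g.t k <;> by_cases h6 : s + 1 ≤ g.t l <;>
          simp [h5, h6, mul_comm]
      have h5 : ∑ kl : Fin d × Fin d, (if s + 1 ≤ g.t kl.1 ∧ s + 1 ≤ g.t kl.2 then
          1 / 4 * (1 / (wt kl.1 * wt kl.2)) / sg ^ 2 else 0) =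
          1 / 4 * ((∑ kl : Fin d × Fin d, if s + 1 ≤ g.t kl.1 ∧ s + 1 ≤ g.t kl.2 then
          1 / (wt kl.1 * wt kl.2) else 0) / sg ^ 2) := by
        rw [sum_div, mul_sum]
        refine sum_congr rfl fun kl _ => ?_
        split_ifs <;> ring
      rw [h5, ← h4]
    rw [h2, h3] at h1
    have hL0 : 0 ≤ L := by
      by_contra hcon
      push Not at hcon
      have h2 : 1 ≤ Real.exp (-L) := Real.one_le_exp (by linarith)
      have h3 : (1 : ℝ) / (20 * K) ≤ 1 := by
        have hK1 : (1 : ℝ) ≤ K := by exact_mod_cast hK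
        rw [div_le_one (by positivity)]
        linarith
      linarith
    rcases eq_or_lt_of_le hsg0 with h0 | hpos
    · -- no coordinate survives
      have hemp : (univ.filter (fun kl : Fin d × Fin d => s + 1 ≤ g.t kl.1 ∧ s + 1 ≤ g.t kl.2)) =
          ∅ := by
        rw [filter_eq_empty_iff]
        rintro kl _ ⟨h5, _⟩
        have h6 := hwtsg _ h5
        have h7 : 0 < 1 / wt kl.1 := one_div_pos.2 (hwt _ h5)
        linarith
      rw [hemp, sum_empty]
      positivity
    · have h4 : sg ^ 2 / sg ^ 2 = 1 := div_self (by positivity)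
      rw [h4] at h1
      set Z := ∑ kl ∈ univ.filter (fun kl : Fin d × Fin d => s + 1 ≤ g.t kl.1 ∧
        s + 1 ≤ g.t kl.2), (∑ i ∈ Lt.filter (fun i => p i ≤ q), v i kl.1 * v i kl.2
          - ((q : ℝ) / K) * ∑ i ∈ Lt, v i kl.1 * v i kl.2) ^ 2 / (wt kl.1 * wt kl.2) with hZ
      have h5 : Z = 16 * sg ^ 2 * (1 / 16 * (1 / sg ^ 2) * Z) := by
        field_simp
      rw [h5]
      have h6 : 16 * sg ^ 2 * (1 / 16 * (1 / sg ^ 2) * Z) ≤
          16 * sg ^ 2 * (C0 * (2 * (1 / 4 * 1) + L)) :=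
        mul_le_mul_of_nonneg_left h1 (by positivity)
      refine h6.trans (le_of_eq ?_)
      ring
  · -- test (d)
    have h1 := hq q hqK (Sum.inr 2) (by simp)
    rw [sum_T, sum_T] at h1
    simp only [p2a, p2L, zero_mul, sum_const_zero, add_zero, zero_add] at h1
    have hfl : ∀ f : ι → ℝ, ∑ i ∈ S.filter (fun i => p i ≤ q), (if i ∈ Lt then f i else 0) =
        ∑ i ∈ Lt.filter (fun i => p i ≤ q), f i := by
      intro f
      rw [← sum_filter]
      refine sum_congr ?_ fun _ _ => rfl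
      ext i
      simp only [mem_filter]
      constructor
      · rintro ⟨⟨_, h2⟩, h3⟩
        exact ⟨h3, h2⟩
      · rintro ⟨h3, h2⟩
        exact ⟨⟨hLS h3, h2⟩, h3⟩
    have hfS : ∀ f : ι → ℝ, ∑ i ∈ S, (if i ∈ Lt then f i else 0) = ∑ i ∈ Lt, f i := by
      intro f
      rw [← sum_filter]
      refine sum_congr ?_ fun _ _ => rfl
      ext i
      simp only [mem_filter]
      exact ⟨fun h => h.2, fun h => ⟨hLS h, h⟩⟩
    have h2 : ∑ i ∈ S.filter (fun i => p i ≤ q), p2w g v s R Lt Hv F eta i (Sum.inr true)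
          - (q : ℝ) / K * ∑ i ∈ S, p2w g v s R Lt Hv F eta i (Sum.inr true) =
        1 / (2 * eta) * (∑ i ∈ Lt.filter (fun i => p i ≤ q), F i -
          ((q : ℝ) / K) * ∑ i ∈ Lt, F i) := by
      simp only [p2w]
      rw [hfl, hfS, sum_filter_mul]
    rw [h2] at h1
    set Z := ∑ i ∈ Lt.filter (fun i => p i ≤ q), F i - ((q : ℝ) / K) * ∑ i ∈ Lt, F i with hZ
    have h3 : Z ^ 2 = 16 * eta ^ 2 * (1 / 4 * (1 / (2 * eta) * Z) ^ 2) := by
      field_simp
      ring
    rw [h3]
    refine mul_le_mul_of_nonneg_left ?_ (by positivity)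
    refine h1.trans (le_of_eq ?_)
    ring
  · -- test (e)
    have h1 := hq q hqK (Sum.inr 3) (by simp)
    rw [sum_T, sum_T] at h1
    simp only [p2a, p2L, zero_mul, sum_const_zero, add_zero, zero_add] at h1
    have h2 : ∑ i ∈ S.filter (fun i => p i ≤ q), p2w g v s R Lt Hv F eta i (Sum.inr false)
          - (q : ℝ) / K * ∑ i ∈ S, p2w g v s R Lt Hv F eta i (Sum.inr false) =
        1 / 2 * (((Hv.filter (fun i => p i ≤ q)).card : ℝ) - ((q : ℝ) / K) * Hv.card) := by
      simp only [p2w]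
      rw [← sum_filter, ← sum_filter, sum_const, sum_const, nsmul_eq_mul, nsmul_eq_mul]
      have e1 : (S.filter (fun i => p i ≤ q)).filter (fun i => i ∈ Hv) =
          Hv.filter (fun i => p i ≤ q) := by
        ext i
        simp only [mem_filter]
        constructor
        · rintro ⟨⟨_, h2⟩, h3⟩
          exact ⟨h3, h2⟩
        · rintro ⟨h3, h2⟩
          exact ⟨⟨hHS h3, h2⟩, h3⟩
      have e2 : S.filter (fun i => i ∈ Hv) = Hv := by
        ext i
        simp only [mem_filter]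
        exact ⟨fun h => h.2, fun h => ⟨hHS h, h⟩⟩
      rw [e1, e2]
      ring
    rw [h2] at h1
    have h3 : (((Hv.filter (fun i => p i ≤ q)).card : ℝ) - ((q : ℝ) / K) * Hv.card) ^ 2 =
        16 * (1 / 4 * (1 / 2 * (((Hv.filter (fun i => p i ≤ q)).card : ℝ) -
          ((q : ℝ) / K) * Hv.card)) ^ 2) := by
      ring
    rw [h3]
    refine mul_le_mul_of_nonneg_left ?_ (by norm_num)
    refine h1.trans (le_of_eq ?_)
    ring

end P262S
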