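import Vale.Agent.P262S.P2a

/-! P262S, module P2, part 2: elementary estimates -/

namespace P262S

open Finset

variable {d : ℕ}

/-- weighted square sum of a difference of two sums of few vectors -/
theorem few_bound {ι : Type} [DecidableEq ι] (U : Finset (Fin d)) (c : Fin d → ℝ)
    (hc : ∀ k ∈ U, 0 ≤ c k) (v : ι → Fin d → ℝ) (r : ℝ) (D : Finset ι)
    (hD : ∀ i ∈ D, ∑ k ∈ U, c k * (v i k) ^ 2 ≤ r) :
    ∑ k ∈ U, c k * (∑ i ∈ D, v i k) ^ 2 ≤ (D.card : ℝ) ^ 2 * r := by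
  have h1 : ∀ k ∈ U, c k * (∑ i ∈ D, v i k) ^ 2 ≤ c k * (D.card * ∑ i ∈ D, (v i k) ^ 2) := by
    intro k hk
    exact mul_le_mul_of_nonneg_left sq_sum_le_card_mul_sum_sq (hc k hk)
  refine (sum_le_sum h1).trans ?_
  have h2 : ∑ k ∈ U, c k * (D.card * ∑ i ∈ D, (v i k) ^ 2) =
      D.card * ∑ i ∈ D, ∑ k ∈ U, c k * (v i k) ^ 2 := by
    rw [sum_comm, mul_sum]
    refine sum_congr rfl fun k _ => ?_
    rw [← mul_sum]
    ring
  rw [h2]
  have h3 : ∑ i ∈ D, ∑ k ∈ U, c k * (v i k) ^ 2 ≤ D.card * r := by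
    refine (sum_le_sum hD).trans (le_of_eq ?_)
    rw [sum_const, nsmul_eq_mul]
  have h4 : (0 : ℝ) ≤ D.card := Nat.cast_nonneg _
  calc (D.card : ℝ) * ∑ i ∈ D, ∑ k ∈ U, c k * (v i k) ^ 2 ≤ D.card * (D.card * r) :=
        mul_le_mul_of_nonneg_left h3 h4
    _ = _ := by ring

theorem add_sq_bound (U : Finset (Fin d)) (c : Fin d → ℝ) (hc : ∀ k ∈ U, 0 ≤ c k)
    (a x y : Fin d → ℝ) :
    ∑ k ∈ U, c k * (a k + (x k - y k)) ^ 2 ≤
      2 * ∑ k ∈ U, c k * (a k) ^ 2 + 4 * ∑ k ∈ U, c k * (x k) ^ 2 +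
        4 * ∑ k ∈ U, c k * (y k) ^ 2 := by
  rw [mul_sum, mul_sum, mul_sum, ← sum_add_distrib, ← sum_add_distrib]
  refine sum_le_sum fun k hk => ?_
  have h1 := hc k hk
  have h2 : (a k + (x k - y k)) ^ 2 ≤ 2 * (a k) ^ 2 + 4 * (x k) ^ 2 + 4 * (y k) ^ 2 := by
    nlinarith [sq_nonneg (a k - (x k - y k)), sq_nonneg (x k + y k)]
  have h3 := mul_le_mul_of_nonneg_left h2 h1
  linarith

/-- the combination used for both `Nst` and `Dif` -/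
theorem comb_bound {ι : Type} [DecidableEq ι] (U : Finset (Fin d)) (c : Fin d → ℝ)
    (hc : ∀ k ∈ U, 0 ≤ c k) (v : ι → Fin d → ℝ) (r : ℝ) (hr : 0 ≤ r) (A B : Finset ι)
    (hAB : ∀ i ∈ A ∪ B, ∑ k ∈ U, c k * (v i k) ^ 2 ≤ r) (J : ℝ)
    (hA : ((A \ B).card : ℝ) ≤ J) (hB : ((B \ A).card : ℝ) ≤ J) (a : Fin d → ℝ) :
    ∑ k ∈ U, c k * (a k + (∑ i ∈ A, v i k - ∑ i ∈ B, v i k)) ^ 2 ≤
      2 * ∑ k ∈ U, c k * (a k) ^ 2 + 8 * J ^ 2 * r := by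
  have h0 : ∀ k, ∑ i ∈ A, v i k - ∑ i ∈ B, v i k =
      ∑ i ∈ A \ B, v i k - ∑ i ∈ B \ A, v i k := by
    intro k
    have h1 := sum_sdiff (f := fun i => v i k) (inter_subset_left (s₁ := A) (s₂ := B))
    have h2 := sum_sdiff (f := fun i => v i k) (inter_subset_right (s₁ := A) (s₂ := B))
    rw [sdiff_inter_self_left] at h1
    rw [sdiff_inter_self_right] at h2
    linarith
  have h1 : ∑ k ∈ U, c k * (a k + (∑ i ∈ A, v i k - ∑ i ∈ B, v i k)) ^ 2 =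
      ∑ k ∈ U, c k * (a k + (∑ i ∈ A \ B, v i k - ∑ i ∈ B \ A, v i k)) ^ 2 :=
    sum_congr rfl fun k _ => by rw [h0 k]
  rw [h1]
  refine (add_sq_bound U c hc a (fun k => ∑ i ∈ A \ B, v i k) (fun k => ∑ i ∈ B \ A, v i k)).trans ?_
  have h2 := few_bound U c hc v r (A \ B)
    (fun i hi => hAB i (mem_union_left _ (mem_sdiff.1 hi).1))
  have h3 := few_bound U c hc v r (B \ A)
    (fun i hi => hAB i (mem_union_right _ (mem_sdiff.1 hi).1))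
  have h4 : ((A \ B).card : ℝ) ^ 2 * r ≤ J ^ 2 * r := by
    refine mul_le_mul_of_nonneg_right ?_ hr
    exact pow_le_pow_left₀ (Nat.cast_nonneg _) hA 2
  have h5 : ((B \ A).card : ℝ) ^ 2 * r ≤ J ^ 2 * r := by
    refine mul_le_mul_of_nonneg_right ?_ hr
    exact pow_le_pow_left₀ (Nat.cast_nonneg _) hB 2
  linarith

/-- quadratic forms with small weighted Hilbert-Schmidt norm -/
theorem quad_bound (P : Fin d → Prop) [DecidablePred P] (X : Fin d × Fin d → ℝ)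
    (wt : Fin d → ℝ) (hwt : ∀ k, P k → 0 < wt k) (δ : ℝ) (hδ : 0 ≤ δ)
    (hX : ∑ kl ∈ univ.filter (fun kl : Fin d × Fin d => P kl.1 ∧ P kl.2),
      (X kl) ^ 2 / (wt kl.1 * wt kl.2) ≤ δ ^ 2) (w : Fin d → ℝ) (hw : ∀ k, ¬ P k → w k = 0) :
    |∑ kl : Fin d × Fin d, X kl * (w kl.1 * w kl.2)| ≤ δ * ∑ k, wt k * (w k) ^ 2 := by
  classical
  set A := univ.filter (fun kl : Fin d × Fin d => P kl.1 ∧ P kl.2) with hA
  have h1 : ∑ kl : Fin d × Fin d, X kl * (w kl.1 * w kl.2) =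
      ∑ kl ∈ A, X kl * (w kl.1 * w kl.2) := by
    rw [hA, sum_filter]
    refine sum_congr rfl fun kl _ => ?_
    by_cases h : P kl.1 ∧ P kl.2
    · rw [if_pos h]
    · rw [if_neg h]
      rcases not_and_or.1 h with h' | h'
      · rw [hw _ h']; ring
      · rw [hw _ h']; ring
  have hS : 0 ≤ ∑ k, wt k * (w k) ^ 2 := by
    refine sum_nonneg fun k _ => ?_
    by_cases h : P k
    · exact mul_nonneg (hwt k h).le (sq_nonneg _)
    · rw [hw k h]; simp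
  rw [h1]
  refine abs_le_of_sq_le_sq ?_ (mul_nonneg hδ hS)
  have h2 : ∑ kl ∈ A, X kl * (w kl.1 * w kl.2) =
      ∑ kl ∈ A, (X kl / Real.sqrt (wt kl.1 * wt kl.2)) *
        (Real.sqrt (wt kl.1 * wt kl.2) * (w kl.1 * w kl.2)) := by
    refine sum_congr rfl fun kl hkl => ?_
    rw [hA, mem_filter] at hkl
    have h3 : 0 < Real.sqrt (wt kl.1 * wt kl.2) :=
      Real.sqrt_pos.2 (mul_pos (hwt _ hkl.2.1) (hwt _ hkl.2.2))
    field_simp
  rw [h2]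
  refine (sum_mul_sq_le_sq_mul_sq _ _ _).trans ?_
  have h3 : ∑ kl ∈ A, (X kl / Real.sqrt (wt kl.1 * wt kl.2)) ^ 2 ≤ δ ^ 2 := by
    refine le_trans (le_of_eq ?_) hX
    refine sum_congr rfl fun kl hkl => ?_
    rw [hA, mem_filter] at hkl
    rw [div_pow, Real.sq_sqrt (mul_pos (hwt _ hkl.2.1) (hwt _ hkl.2.2)).le]
  have h4 : ∑ kl ∈ A, (Real.sqrt (wt kl.1 * wt kl.2) * (w kl.1 * w kl.2)) ^ 2 =
      (∑ k, wt k * (w k) ^ 2) ^ 2 := by
    rw [sq (∑ k, wt k * (w k) ^ 2), sum_mul_sum, ← Fintype.sum_prod_type', hA, sum_filter]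
    refine sum_congr rfl fun kl _ => ?_
    by_cases h : P kl.1 ∧ P kl.2
    · rw [if_pos h, mul_pow, Real.sq_sqrt (mul_pos (hwt _ h.1) (hwt _ h.2)).le]
      ring
    · rw [if_neg h]
      rcases not_and_or.1 h with h' | h'
      · rw [hw _ h']; ring
      · rw [hw _ h']; ring
  rw [h4, mul_pow]
  exact mul_le_mul_of_nonneg_right h3 (sq_nonneg _)

/-! ### numbers -/

theorem cst_basic {c : Cst} (hc : c.Good) :
    8 ≤ c.La ∧ 0 < C0 ∧ 10000 * C0 * c.La ≤ c.Y ∧ 80000 * C0 ≤ c.Y ∧ 1 ≤ C0 ∧ 1 ≤ c.Y ∧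
      c.Y ≤ c.Th ∧ 1 ≤ c.Th ∧ 2 ^ 40 * c.Th * c.Y ^ 2 ≤ c.Ks := by
  have h0 : C0 = 2 ^ 24 := rfl
  have h1 := hc.hLa8
  have h2 := hc.hY
  have h3 : 80000 * C0 ≤ c.Y := by
    rw [h0] at h2 ⊢
    nlinarith
  have h4 : 1 ≤ c.Y := by
    rw [h0] at h3
    linarith
  have h5 : c.Y ≤ c.Th := by
    refine le_trans ?_ hc.hTh
    have h6 : (1 : ℝ) ≤ (400 * c.Y) ^ 3 := one_le_pow₀ (by linarith)
    have h7 : (400 * c.Y) ^ 4 = (400 * c.Y) * (400 * c.Y) ^ 3 := by ring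
    rw [h7]
    nlinarith
  refine ⟨h1, by rw [h0]; norm_num, h2, h3, by rw [h0]; norm_num, h4, h5, by linarith, hc.hK⟩

theorem cst_exp {c : Cst} (hc : c.Good) (m : ℕ) (hm : 1 ≤ m) :
    5 * Real.exp (-(c.La * m)) ≤ 1 / (20 * ((c.Ks * m ^ 8 : ℕ) : ℝ)) := by
  obtain ⟨h1, _, _, _, _, hY1, _, hTh1, hKs⟩ := cst_basic hc
  have hm' : (1 : ℝ) ≤ m := by exact_mod_cast hm
  have hKs1 : (1 : ℝ) ≤ c.Ks := by
    refine le_trans ?_ hKs
    have : (1 : ℝ) ≤ c.Y ^ 2 := one_le_pow₀ hY1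
    nlinarith
  have hL : Real.log (120 * c.Ks) + 8 * m ≤ c.La * m := by
    have h2 := hc.hLa
    nlinarith
  have h3 : 120 * c.Ks * Real.exp (8 * m) ≤ Real.exp (c.La * m) := by
    have h4 : Real.exp (Real.log (120 * c.Ks) + 8 * m) = 120 * c.Ks * Real.exp (8 * m) := by
      rw [Real.exp_add, Real.exp_log (by positivity)]
    rw [← h4]
    exact Real.exp_le_exp.2 hL
  have h5 : (m : ℝ) ^ 8 ≤ Real.exp (8 * m) := by
    have h6 : Real.exp (8 * m) = Real.exp m ^ 8 := by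
      rw [← Real.exp_nat_mul]
      norm_num
    rw [h6]
    refine pow_le_pow_left₀ (by positivity) ?_ 8
    have := Real.add_one_le_exp (m : ℝ)
    linarith
  have h7 : 120 * (c.Ks * (m : ℝ) ^ 8) ≤ Real.exp (c.La * m) := by
    refine le_trans ?_ h3
    have : 120 * (c.Ks : ℝ) * (m : ℝ) ^ 8 ≤ 120 * (c.Ks : ℝ) * Real.exp (8 * m) :=
      mul_le_mul_of_nonneg_left h5 (by positivity)
    linarith
  have hK0 : (0 : ℝ) < c.Ks * (m : ℝ) ^ 8 := by positivity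
  rw [Real.exp_neg, le_div_iff₀ (by push_cast; positivity)]
  have h8 : 0 < Real.exp (c.La * m) := Real.exp_pos _
  push_cast
  have h9 : 5 * (Real.exp (c.La * ↑m))⁻¹ * (20 * (c.Ks * (m : ℝ) ^ 8)) =
      (100 * (c.Ks * (m : ℝ) ^ 8)) / Real.exp (c.La * m) := by
    field_simp
    ring
  rw [h9, div_le_one h8]
  linarith

end P262S
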