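import Vale.Agent.P262S.P2b

/-! P262S, module P2, part 3: numbers and the total weight of the dead coordinates -/

namespace P262S

open Finset

variable {d : ℕ}

/-- deviation of the number of heavy vectors -/
noncomputable def p2J (c : Cst) (m : ℕ) : ℝ := 4 * Real.sqrt (C0 * (1 / 2 + c.La * m))

theorem p2J_facts {c : Cst} (hc : c.Good) (m : ℕ) (hm : 1 ≤ m) :
    0 ≤ p2J c m ∧ (p2J c m) ^ 2 = 16 * (C0 * (1 / 2 + c.La * m)) ∧ p2J c m ≤ c.Y * m ∧
    (∀ x : ℝ, 0 ≤ x → 2 * (16 * C0 * (3 / 2 * x + c.La * m)) + 8 * (p2J c m + 3) ^ 2 * 1 ≤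
      c.Y / 10 * (x + m)) ∧
    (∀ x R : ℝ, 0 ≤ x → 0 ≤ R → 2 * (16 * R * C0 * (x / 2 + c.La * m)) +
      8 * (p2J c m + 3) ^ 2 * R ≤ c.Y * R * (x + m)) ∧
    16 * C0 * (1 / 2 + c.La * m) * (3 / (c.Y * m)) ^ 2 ≤ (1 / 8) ^ 2 := by
  obtain ⟨h1, h2, h3, h4, h5, h6, h7, h8, h9⟩ := cst_basic hc
  have hm' : (1 : ℝ) ≤ m := by exact_mod_cast hm
  set A : ℝ := C0 * c.La * m with hA
  have hLam : 8 ≤ c.La * m := by nlinarith
  have hA8 : 8 * C0 ≤ A := by
    rw [hA]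
    have : 8 * C0 * 1 ≤ C0 * c.La * m := by
      have h10 : 8 * C0 ≤ C0 * c.La := by nlinarith
      exact mul_le_mul h10 hm' (by norm_num) (by positivity)
    linarith
  have hA144 : 144 ≤ A := by
    refine le_trans ?_ hA8
    unfold C0
    norm_num
  have hYA : 10000 * A ≤ c.Y * m := by
    rw [hA]
    have : 10000 * C0 * c.La * m ≤ c.Y * m := mul_le_mul_of_nonneg_right h3 (by positivity)
    linarith
  have hJ0 : 0 ≤ p2J c m := by
    unfold p2J
    positivity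
  have hJ2 : (p2J c m) ^ 2 = 16 * (C0 * (1 / 2 + c.La * m)) := by
    unfold p2J
    rw [mul_pow, Real.sq_sqrt (by positivity)]
    ring
  have hJA : (p2J c m) ^ 2 ≤ 17 * A := by
    rw [hJ2, hA]
    have : 16 * (C0 * (1 / 2 + c.La * ↑m)) = 8 * C0 + 16 * (C0 * c.La * m) := by ring
    rw [this]
    rw [hA] at hA8
    linarith
  have hJ3 : (p2J c m + 3) ^ 2 ≤ 2 * (p2J c m) ^ 2 + 18 := by
    nlinarith [sq_nonneg (p2J c m - 3)]
  have hYm : 1 ≤ c.Y * m := by nlinarith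
  refine ⟨hJ0, hJ2, ?_, ?_, ?_, ?_⟩
  · by_contra hcon
    push Not at hcon
    have h10 : (c.Y * m) ^ 2 < (p2J c m) ^ 2 := pow_lt_pow_left₀ hcon (by positivity) (by norm_num)
    have h11 : c.Y * m ≤ (c.Y * m) ^ 2 := by nlinarith
    linarith
  · intro x hx
    have h10 : C0 * x ≤ c.Y / 10 / 48 * x := by
      refine mul_le_mul_of_nonneg_right ?_ hx
      linarith
    have h11 : 2 * (16 * C0 * (3 / 2 * x + c.La * m)) = 48 * (C0 * x) + 32 * A := by
      rw [hA]; ring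
    rw [h11]
    have h12 : c.Y / 10 * (x + m) = 48 * (c.Y / 10 / 48 * x) + c.Y * m / 10 := by ring
    rw [h12]
    linarith
  · intro x R hx hR
    have h10 : 16 * C0 * x ≤ c.Y * x := mul_le_mul_of_nonneg_right (by linarith) hx
    have h11 : 2 * (16 * R * C0 * (x / 2 + c.La * m)) + 8 * (p2J c m + 3) ^ 2 * R =
        R * (16 * C0 * x + 32 * A + 8 * (p2J c m + 3) ^ 2) := by
      rw [hA]; ring
    rw [h11]
    have h12 : c.Y * R * (x + m) = R * (c.Y * x + c.Y * m) := by ring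
    rw [h12]
    refine mul_le_mul_of_nonneg_left ?_ hR
    linarith
  · have h10 : 16 * C0 * (1 / 2 + c.La * m) ≤ 17 * A := by
      have : 16 * C0 * (1 / 2 + c.La * ↑m) = 8 * C0 + 16 * A := by rw [hA]; ring
      linarith
    have h11 : 16 * C0 * (1 / 2 + c.La * m) * (3 / (c.Y * m)) ^ 2 ≤
        17 * A * (3 / (c.Y * m)) ^ 2 := mul_le_mul_of_nonneg_right h10 (sq_nonneg _)
    refine h11.trans ?_
    have h12 : 17 * A * (3 / (c.Y * m)) ^ 2 = 153 * A / (c.Y * m) ^ 2 := by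
      field_simp
      ring
    rw [h12, div_le_iff₀ (by positivity)]
    have h13 : c.Y * m ≤ (c.Y * m) ^ 2 := by nlinarith
    nlinarith

/-- the part size -/
theorem p2K_facts {c : Cst} (hc : c.Good) (m : ℕ) (hm : 1 ≤ m) :
    16 ≤ c.Ks * m ^ 8 ∧ (∀ R : ℝ, 0 ≤ R → ∀ z : ℝ, (z = 0 ∨ z = 1) →
      (4 * R + 2 ^ 9 * c.Th * m ^ 6 * z) / ((c.Ks * m ^ 8 : ℕ) : ℝ) * (1 + 32 * p2J c m) ≤
        R / 64 + z) := by
  obtain ⟨h1, h2, h3, h4, h5, h6, h7, h8, h9⟩ := cst_basic hc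
  have hm' : (1 : ℝ) ≤ m := by exact_mod_cast hm
  have hY2 : c.Y ≤ c.Y ^ 2 := by nlinarith
  have hKbig : 2 ^ 40 * c.Th * c.Y * m ^ 7 ≤ c.Ks * (m : ℝ) ^ 8 := by
    have h10 : 2 ^ 40 * c.Th * c.Y ≤ c.Ks := by
      refine le_trans ?_ h9
      exact mul_le_mul_of_nonneg_left hY2 (by positivity)
    have h11 : (m : ℝ) ^ 7 ≤ (m : ℝ) ^ 8 := pow_le_pow_right₀ hm' (by norm_num)
    calc 2 ^ 40 * c.Th * c.Y * (m : ℝ) ^ 7 ≤ c.Ks * (m : ℝ) ^ 7 :=
          mul_le_mul_of_nonneg_right h10 (by positivity)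
      _ ≤ _ := mul_le_mul_of_nonneg_left h11 (by positivity)
  have hm7 : (1 : ℝ) ≤ (m : ℝ) ^ 7 := one_le_pow₀ hm'
  have hK1 : 2 ^ 40 * c.Y * m ≤ c.Ks * (m : ℝ) ^ 8 := by
    refine le_trans ?_ hKbig
    have h10 : (m : ℝ) ≤ (m : ℝ) ^ 7 := by
      calc (m : ℝ) = (m : ℝ) ^ 1 := (pow_one _).symm
        _ ≤ _ := pow_le_pow_right₀ hm' (by norm_num)
    have h11 : 2 ^ 40 * c.Y ≤ 2 ^ 40 * c.Th * c.Y := by nlinarith
    calc 2 ^ 40 * c.Y * (m : ℝ) ≤ 2 ^ 40 * c.Th * c.Y * m :=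
          mul_le_mul_of_nonneg_right h11 (by positivity)
      _ ≤ _ := mul_le_mul_of_nonneg_left h10 (by positivity)
  have hK0 : (0 : ℝ) < c.Ks * (m : ℝ) ^ 8 := lt_of_lt_of_le (by positivity) hK1
  constructor
  · have h10 : (16 : ℝ) ≤ c.Ks * (m : ℝ) ^ 8 := by
      refine le_trans ?_ hK1
      nlinarith
    exact_mod_cast h10
  · intro R hR z hz
    have hJ := (p2J_facts hc m hm).2.2.1
    have hJ0 := (p2J_facts hc m hm).1
    have hYm : 1 ≤ c.Y * m := by nlinarith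
    have h33 : 1 + 32 * p2J c m ≤ 33 * (c.Y * m) := by linarith
    have hz0 : 0 ≤ z := by rcases hz with h | h <;> rw [h] <;> norm_num
    push_cast
    rw [div_mul_eq_mul_div, div_le_iff₀ hK0]
    have h10 : (4 * R + 2 ^ 9 * c.Th * (m : ℝ) ^ 6 * z) * (1 + 32 * p2J c m) ≤
        (4 * R + 2 ^ 9 * c.Th * (m : ℝ) ^ 6 * z) * (33 * (c.Y * m)) :=
      mul_le_mul_of_nonneg_left h33 (by positivity)
    refine h10.trans ?_
    have h11 : (4 * R + 2 ^ 9 * c.Th * (m : ℝ) ^ 6 * z) * (33 * (c.Y * m)) =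
        R / 64 * (8448 * c.Y * m) + z * (16896 * c.Th * c.Y * (m : ℝ) ^ 7) := by ring
    rw [h11, add_mul]
    refine add_le_add ?_ ?_
    · refine mul_le_mul_of_nonneg_left ?_ (by positivity)
      refine le_trans ?_ hK1
      nlinarith
    · refine mul_le_mul_of_nonneg_left ?_ hz0
      refine le_trans ?_ hKbig
      have : 0 ≤ c.Th * c.Y * (m : ℝ) ^ 7 := by positivity
      linarith

/-- the weight of a vector on the coordinates that are dead at `s + 1` -/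
noncomputable def p2F (g : Stg d) {ι : Type} (v : ι → Fin d → ℝ) (s : ℕ) (i : ι) : ℝ :=
  ∑ k ∈ univ.filter (fun k => g.t k < s + 1), (4 : ℝ) ^ (s + 1 - g.t k) * (v i k) ^ 2

theorem p2F_nonneg (g : Stg d) {ι : Type} (v : ι → Fin d → ℝ) (s : ℕ) (i : ι) :
    0 ≤ p2F g v s i :=
  sum_nonneg fun k _ => by positivity

theorem p2F_eq (g : Stg d) {ι : Type} (v : ι → Fin d → ℝ) (s : ℕ) (i : ι) :
    p2F g v s i = 4 * ∑ k ∈ univ.filter (fun k => g.t k < s), (4 : ℝ) ^ (s - g.t k) * (v i k) ^ 2 +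
      4 * ∑ k ∈ univ.filter (fun k => g.t k = s), (v i k) ^ 2 := by
  classical
  unfold p2F
  have h1 : univ.filter (fun k => g.t k < s + 1) =
      univ.filter (fun k => g.t k < s) ∪ univ.filter (fun k => g.t k = s) := by
    ext k
    simp only [mem_filter, mem_univ, true_and, mem_union]
    omega
  have h2 : Disjoint (univ.filter (fun k => g.t k < s)) (univ.filter (fun k => g.t k = s)) := by
    rw [disjoint_left]
    intro k hk hk'
    rw [mem_filter] at hk hk'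
    omega
  rw [h1, sum_union h2, mul_sum, mul_sum]
  congr 1
  · refine sum_congr rfl fun k hk => ?_
    rw [mem_filter] at hk
    have h3 : s + 1 - g.t k = (s - g.t k) + 1 := by omega
    rw [h3, pow_succ]
    ring
  · refine sum_congr rfl fun k hk => ?_
    rw [mem_filter] at hk
    have h3 : s + 1 - g.t k = 1 := by omega
    rw [h3, pow_one]

theorem p2F_total {c : Cst} (hc : c.Good) {g : Stg d} (hg : StgGood c g) (W : WtFacts c g)
    {ι : Type} (v : ι → Fin d → ℝ) (s : ℕ) (R : ℝ) (S : Finset ι)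
    (hclose : Close c g v s 3 S) (hRs : Rs g v s S ≤ R) :
    ∑ i ∈ S, p2F g v s i ≤ 4 * R + 2 ^ 9 * c.Th * (g.m s : ℝ) ^ 6 * g.ind s := by
  classical
  obtain ⟨h1, h2, h3, h4, h5, h6, h7, h8, h9⟩ := cst_basic hc
  have hm' : (1 : ℝ) ≤ g.m s := by exact_mod_cast hg.m_pos s
  have e1 : ∑ i ∈ S, p2F g v s i = 4 * Rs g v s S +
      4 * ∑ k ∈ univ.filter (fun k => g.t k = s), ∑ i ∈ S, (v i k) ^ 2 := by
    rw [sum_comm]
    unfold Rs
    rw [mul_sum, mul_sum, ← sum_add_distrib]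
    exact sum_congr rfl fun i _ => p2F_eq g v s i
  have hen : ∀ k, g.t k = s → ∑ i ∈ S, (v i k) ^ 2 ≤ c.lm g s k + 3 * c.wt g s k := by
    intro k hk
    have h10 := hclose (Pi.single k 1) (by
      intro k' hk'
      rw [Pi.single_apply, if_neg]
      rintro rfl
      omega)
    have h11 : ∀ i, ∑ k', v i k' * (Pi.single k (1 : ℝ) : Fin d → ℝ) k' = v i k := by
      intro i
      simp [Pi.single_apply]
    have h12 : ∀ f : Fin d → ℝ, ∑ k', f k' * ((Pi.single k (1 : ℝ) : Fin d → ℝ) k') ^ 2 = f k := by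
      intro f
      simp [Pi.single_apply]
    simp only [h11, h12] at h10
    have h13 := (abs_le.1 h10).2
    linarith
  have hM : (g.M s : ℝ) ≤ 2 * g.m s := by
    unfold Stg.M
    split_ifs with h
    · push_cast
      linarith
    · have h10 := hg.m_step (s - 1)
      have h11 : s - 1 + 1 = s := by omega
      rw [h11] at h10
      exact_mod_cast h10
  have hk : ∀ k ∈ univ.filter (fun k => g.t k = s), ∑ i ∈ S, (v i k) ^ 2 ≤
      82 * c.Th * (g.m s : ℝ) ^ 5 := by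
    intro k hk
    rw [mem_filter] at hk
    refine (hen k hk.2).trans ?_
    have h10 := W.lm_trans k
    rw [hk.2] at h10
    have h11 : c.wt g s k = c.lm g s k / 32 + c.Y * (g.M s : ℝ) ^ 2 := by
      unfold Cst.wt
      rw [if_neg (by omega)]
    rw [h11]
    have h12 : (g.M s : ℝ) ^ 2 ≤ (2 * g.m s) ^ 2 :=
      pow_le_pow_left₀ (Nat.cast_nonneg _) hM 2
    have h13 : c.Y * (g.M s : ℝ) ^ 2 ≤ c.Y * (2 * g.m s) ^ 2 :=
      mul_le_mul_of_nonneg_left h12 (by linarith)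
    have h14 : (g.m s : ℝ) ^ 2 ≤ (g.m s : ℝ) ^ 5 := pow_le_pow_right₀ hm' (by norm_num)
    have h15 : c.Y * (g.m s : ℝ) ^ 2 ≤ c.Th * (g.m s : ℝ) ^ 5 :=
      mul_le_mul h7 h14 (by positivity) (by linarith)
    have h16 : c.Y * (2 * (g.m s : ℝ)) ^ 2 = 4 * (c.Y * (g.m s : ℝ) ^ 2) := by ring
    nlinarith
  rw [e1]
  have e2 : ∑ k ∈ univ.filter (fun k => g.t k = s), ∑ i ∈ S, (v i k) ^ 2 ≤
      82 * c.Th * (g.m s : ℝ) ^ 6 * g.ind s := by
    by_cases hex : ∃ k, g.t k = s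
    · have hi : g.ind s = 1 := by
        unfold Stg.ind
        rw [if_pos hex]
      rw [hi, mul_one]
      refine (sum_le_card_nsmul _ _ _ hk).trans ?_
      rw [nsmul_eq_mul]
      have h10 : ((univ.filter (fun k => g.t k = s)).card : ℝ) ≤ g.m s := by
        exact_mod_cast hg.u_le s
      calc ((univ.filter (fun k => g.t k = s)).card : ℝ) * (82 * c.Th * (g.m s : ℝ) ^ 5) ≤
            g.m s * (82 * c.Th * (g.m s : ℝ) ^ 5) :=
            mul_le_mul_of_nonneg_right h10 (by positivity)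
        _ = _ := by ring
    · have h10 : univ.filter (fun k => g.t k = s) = ∅ := by
        rw [filter_eq_empty_iff]
        intro k _ hk
        exact hex ⟨k, hk⟩
      rw [h10, sum_empty]
      unfold Stg.ind
      rw [if_neg hex, mul_zero]
  have hi0 : 0 ≤ g.ind s := by
    unfold Stg.ind
    split_ifs <;> norm_num
  have h10 : 0 ≤ c.Th * (g.m s : ℝ) ^ 6 * g.ind s := by positivity
  nlinarith

end P262S
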