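import Vale.Agent.P262S.P2c

/-! P262S, module P2, part 4: closeness of the parts -/

namespace P262S

open Finset

variable {d : ℕ}

/-- quadratic form of a sum of squares -/
theorem p2_quad {ι : Type} (v : ι → Fin d → ℝ) (w : Fin d → ℝ) (A B : Finset ι) (r : ℝ) :
    ∑ kl : Fin d × Fin d, (∑ i ∈ A, v i kl.1 * v i kl.2 - r * ∑ i ∈ B, v i kl.1 * v i kl.2) *
      (w kl.1 * w kl.2) =
    ∑ i ∈ A, (∑ k, v i k * w k) ^ 2 - r * ∑ i ∈ B, (∑ k, v i k * w k) ^ 2 := by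
  have h1 : ∀ C : Finset ι, ∑ kl : Fin d × Fin d, (∑ i ∈ C, v i kl.1 * v i kl.2) *
      (w kl.1 * w kl.2) = ∑ i ∈ C, (∑ k, v i k * w k) ^ 2 := by
    intro C
    simp only [sum_mul]
    rw [sum_comm]
    refine sum_congr rfl fun i _ => ?_
    rw [sq, sum_mul_sum, Fintype.sum_prod_type]
    refine sum_congr rfl fun k _ => sum_congr rfl fun l _ => ?_
    ring
  rw [← h1 A, ← h1 B, mul_sum, ← sum_sub_distrib]
  refine sum_congr rfl fun kl _ => ?_
  ring

/-- difference of two consecutive light sums -/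
theorem p2_consec {ι : Type} [DecidableEq ι] (Lt : Finset ι) (p : ι → ℕ) (r : ℕ) (f : ι → ℝ) :
    ∑ i ∈ Lt.filter (fun i => p i = r + 1), f i =
      ∑ i ∈ Lt.filter (fun i => p i ≤ r + 1), f i - ∑ i ∈ Lt.filter (fun i => p i ≤ r), f i := by
  have h1 : Lt.filter (fun i => p i ≤ r + 1) =
      Lt.filter (fun i => p i = r + 1) ∪ Lt.filter (fun i => p i ≤ r) := by
    ext i
    simp only [mem_filter, mem_union]
    constructor
    · rintro ⟨h, h'⟩
      rcases Nat.lt_or_ge r (p i) with h2 | h2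
      · exact Or.inl ⟨h, by omega⟩
      · exact Or.inr ⟨h, h2⟩
    · rintro (⟨h, h'⟩ | ⟨h, h'⟩)
      · exact ⟨h, by omega⟩
      · exact ⟨h, by omega⟩
  have h2 : Disjoint (Lt.filter (fun i => p i = r + 1)) (Lt.filter (fun i => p i ≤ r)) := by
    rw [disjoint_left]
    intro i hi hi'
    rw [mem_filter] at hi hi'
    omega
  rw [h1, sum_union h2]
  ring

/-- closeness of the parts -/
theorem p2_close {c : Cst} (hc : c.Good) {g : Stg d} (hg : StgGood c g) (W : WtFacts c g)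
    {ι : Type} [DecidableEq ι] (v : ι → Fin d → ℝ) (hv : ∀ i, ∑ k, (v i k) ^ 2 ≤ 1) (s : ℕ)
    (S Lt Hv : Finset ι) (hdis : Disjoint Lt Hv) (hS : Lt ∪ Hv = S) (hclose : Close c g v s 3 S)
    (hcard : 16 * Hv.card ≤ c.K g s) (p : ι → ℕ) (r : ℕ)
    (hX : ∀ q : ℕ, (q = r ∨ q = r + 1) →
      ∑ kl ∈ univ.filter (fun kl : Fin d × Fin d => s + 1 ≤ g.t kl.1 ∧ s + 1 ≤ g.t kl.2),
        (∑ i ∈ Lt.filter (fun i => p i ≤ q), v i kl.1 * v i kl.2
          - ((q : ℝ) / (c.K g s : ℝ)) * ∑ i ∈ Lt, v i kl.1 * v i kl.2) ^ 2 /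
            (c.wt g (s + 1) kl.1 * c.wt g (s + 1) kl.2) ≤ (1 / 8) ^ 2) :
    Close c g v (s + 1) 1 (Lt.filter (fun i => p i = r + 1)) := by
  classical
  intro w hw
  obtain ⟨h1, h2, h3, h4, h5, h6, h7, h8, h9⟩ := cst_basic hc
  set K : ℝ := (c.K g s : ℝ) with hK
  have hK16 : 16 ≤ c.K g s := (p2K_facts hc (g.m s) (hg.m_pos s)).1
  have hK0 : 0 < K := by
    rw [hK]
    have : 0 < c.K g s := by omega
    exact_mod_cast this
  have hwtp : ∀ k, s + 1 ≤ g.t k → 0 < c.wt g (s + 1) k := by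
    intro k hk
    have := W.wt_ge (s + 1) k hk
    linarith
  set T : ℝ := ∑ k, c.wt g (s + 1) k * (w k) ^ 2 with hT
  have hquad : ∀ q : ℕ, (q = r ∨ q = r + 1) →
      |∑ i ∈ Lt.filter (fun i => p i ≤ q), (∑ k, v i k * w k) ^ 2 -
        ((q : ℝ) / K) * ∑ i ∈ Lt, (∑ k, v i k * w k) ^ 2| ≤ 1 / 8 * T := by
    intro q hq
    have h10 := quad_bound (fun k => s + 1 ≤ g.t k)
      (fun kl => ∑ i ∈ Lt.filter (fun i => p i ≤ q), v i kl.1 * v i kl.2
          - ((q : ℝ) / K) * ∑ i ∈ Lt, v i kl.1 * v i kl.2) (c.wt g (s + 1)) hwtp (1 / 8)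
      (by norm_num) (hX q hq) w (fun k hk => hw k (by omega))
    rw [p2_quad] at h10
    exact h10
  have hA := hquad r (Or.inl rfl)
  have hB := hquad (r + 1) (Or.inr rfl)
  -- the whole part
  have hC : |∑ i ∈ S, (∑ k, v i k * w k) ^ 2 - ∑ k, c.lm g s k * (w k) ^ 2| ≤
      3 * ∑ k, c.wt g s k * (w k) ^ 2 := hclose w (fun k hk => hw k (by omega))
  have hD : 3 * ∑ k, c.wt g s k * (w k) ^ 2 ≤ K / 4 * T := by
    rw [hT, mul_sum, mul_sum]
    refine sum_le_sum fun k _ => ?_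
    by_cases hk : s + 1 ≤ g.t k
    · have h10 := W.wt_step s k hk
      have h11 : 3 * c.wt g s k ≤ K / 4 * c.wt g (s + 1) k := by
        rw [← hK] at h10
        have h12 := mul_le_mul_of_nonneg_left h10 hK0.le
        have h13 : K * (3 / K * c.wt g s k) = 3 * c.wt g s k := by field_simp
        rw [h13] at h12
        linarith
      have h12 := mul_le_mul_of_nonneg_right h11 (sq_nonneg (w k))
      linarith
    · rw [hw k (by omega)]
      simp
  have hlm : ∑ k, c.lm g (s + 1) k * (w k) ^ 2 = 1 / K * ∑ k, c.lm g s k * (w k) ^ 2 := by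
    rw [mul_sum]
    refine sum_congr rfl fun k _ => ?_
    rw [W.lm_step s k, ← hK]
    ring
  -- the heavy vectors
  have hT1 : ∑ k, (w k) ^ 2 ≤ T := by
    rw [hT]
    refine sum_le_sum fun k _ => ?_
    by_cases hk : s + 1 ≤ g.t k
    · have h10 := W.wt_ge (s + 1) k hk
      have h11 : 1 ≤ c.wt g (s + 1) k := by linarith
      have h12 := mul_le_mul_of_nonneg_right h11 (sq_nonneg (w k))
      linarith
    · rw [hw k (by omega)]
      simp
  have hT0 : 0 ≤ T := le_trans (sum_nonneg fun k _ => sq_nonneg _) hT1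
  have hHv : ∑ i ∈ Hv, (∑ k, v i k * w k) ^ 2 ≤ K / 16 * T := by
    have h10 : ∀ i ∈ Hv, (∑ k, v i k * w k) ^ 2 ≤ T := by
      intro i _
      refine (sum_mul_sq_le_sq_mul_sq _ _ _).trans ?_
      have h11 := hv i
      have h12 : 0 ≤ ∑ k, (w k) ^ 2 := sum_nonneg fun k _ => sq_nonneg _
      have h13 := mul_le_mul_of_nonneg_right h11 h12
      linarith
    refine (sum_le_card_nsmul _ _ _ h10).trans ?_
    rw [nsmul_eq_mul]
    refine mul_le_mul_of_nonneg_right ?_ hT0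
    have h11 : (16 : ℝ) * Hv.card ≤ K := by
      rw [hK]
      exact_mod_cast hcard
    linarith
  have hHv0 : 0 ≤ ∑ i ∈ Hv, (∑ k, v i k * w k) ^ 2 := sum_nonneg fun i _ => sq_nonneg _
  have hSum : ∑ i ∈ S, (∑ k, v i k * w k) ^ 2 = ∑ i ∈ Lt, (∑ k, v i k * w k) ^ 2 +
      ∑ i ∈ Hv, (∑ k, v i k * w k) ^ 2 := by
    rw [← hS, sum_union hdis]
  rw [p2_consec Lt p r, hlm, one_mul]
  set a := ∑ i ∈ Lt.filter (fun i => p i ≤ r), (∑ k, v i k * w k) ^ 2
  set b := ∑ i ∈ Lt.filter (fun i => p i ≤ r + 1), (∑ k, v i k * w k) ^ 2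
  set l := ∑ i ∈ Lt, (∑ k, v i k * w k) ^ 2
  set hh := ∑ i ∈ Hv, (∑ k, v i k * w k) ^ 2
  set mm := ∑ k, c.lm g s k * (w k) ^ 2
  rw [hSum] at hC
  have hC' : |1 / K * (l + hh) - 1 / K * mm| ≤ 1 / 4 * T := by
    rw [← mul_sub, abs_mul, abs_of_pos (by positivity : (0 : ℝ) < 1 / K)]
    have h10 : |l + hh - mm| ≤ K / 4 * T := hC.trans hD
    have h11 := mul_le_mul_of_nonneg_left h10 (by positivity : (0 : ℝ) ≤ 1 / K)
    have h12 : 1 / K * (K / 4 * T) = 1 / 4 * T := by field_simp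
    linarith
  have hH' : 1 / K * hh ≤ 1 / 16 * T := by
    have h11 := mul_le_mul_of_nonneg_left hHv (by positivity : (0 : ℝ) ≤ 1 / K)
    have h12 : 1 / K * (K / 16 * T) = 1 / 16 * T := by field_simp
    linarith
  have hH0' : 0 ≤ 1 / K * hh := by positivity
  push_cast at hB
  have hB' : ((r : ℝ) + 1) / K * l = (r : ℝ) / K * l + 1 / K * l := by ring
  rw [hB'] at hB
  rw [mul_add] at hC'
  rw [abs_le] at hA hB hC' ⊢
  constructor
  · linarith [hA.1, hA.2, hB.1, hB.2, hC'.1, hC'.2]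
  · linarith [hA.1, hA.2, hB.1, hB.2, hC'.1, hC'.2]

end P262S
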