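import Vale.Agent.P262S.ThetaDefs

/-! The lower bound `√d / 3 ≤ S_2(d)`, and the order of growth given the upper bound. -/

namespace P262S

open Finset

theorem beta_le {d N : ℕ} (v : Fin N → EuclideanSpace ℝ (Fin d)) {b : ℝ}
    (h : ∃ π : Equiv.Perm (Fin N), ∀ k : ℕ, ‖prefixSum v π k‖ ≤ b) : beta v ≤ b := by
  obtain ⟨π, hπ⟩ := h
  unfold beta
  refine (ciInf_le (Set.finite_range _).bddBelow π).trans ?_
  exact ciSup_le fun k => hπ k

theorem le_beta {d N : ℕ} (v : Fin N → EuclideanSpace ℝ (Fin d)) {b : ℝ}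
    (h : ∀ π : Equiv.Perm (Fin N), ∃ k : ℕ, k ≤ N ∧ b ≤ ‖prefixSum v π k‖) : b ≤ beta v := by
  unfold beta
  refine le_ciInf fun π => ?_
  obtain ⟨k, hk, hb⟩ := h π
  refine hb.trans ?_
  exact le_ciSup (f := fun k : Fin (N + 1) => ‖prefixSum v π k‖) (Set.finite_range _).bddAbove
    ⟨k, by omega⟩

/-- the extremal family: the standard basis, and `d` copies of `-(1/d) (1, …, 1)` -/
noncomputable def fam (d : ℕ) (i : Fin (d + d)) : EuclideanSpace ℝ (Fin d) :=
  WithLp.toLp 2 fun j => if (i : ℕ) < d then (if (i : ℕ) = j then 1 else 0) else -(1 / (d : ℝ))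

theorem fam_norm (d : ℕ) (i : Fin (d + d)) : ‖fam d i‖ ≤ 1 := by
  have hd : 0 < d := by have := i.2; omega
  have hd' : (0 : ℝ) < d := by exact_mod_cast hd
  have h2 : ‖fam d i‖ ^ 2 ≤ 1 := by
    rw [EuclideanSpace.norm_sq_eq]
    by_cases h : (i : ℕ) < d
    · have : ∀ j : Fin d, ‖(fam d i) j‖ ^ 2 = if j = ⟨i, h⟩ then 1 else 0 := by
        intro j
        simp only [fam, h, if_true]
        by_cases hj : j = ⟨i, h⟩
        · subst hj; simp
        · have : ¬ ((i : ℕ) = j) := fun e => hj (Fin.ext e.symm)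
          simp [this, hj]
      rw [sum_congr rfl fun j _ => this j]
      simp
    · have : ∀ j : Fin d, ‖(fam d i) j‖ ^ 2 = (1 / (d : ℝ)) ^ 2 := by
        intro j
        simp [fam, h]
      rw [sum_congr rfl fun j _ => this j, sum_const, card_univ, Fintype.card_fin, nsmul_eq_mul]
      have h1 : (1 : ℝ) ≤ d := by exact_mod_cast hd
      have : (d : ℝ) * (1 / (d : ℝ)) ^ 2 = 1 / d := by field_simp
      rw [this, div_le_one hd']
      exact h1
  nlinarith [norm_nonneg (fam d i)]

theorem fam_sum (d : ℕ) : ∑ i, fam d i = 0 := by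
  ext j
  have hd : 0 < d := by have := j.2; omega
  have hd' : (d : ℝ) ≠ 0 := by exact_mod_cast hd.ne'
  have e : (∑ i, fam d i) j = ∑ i, fam d i j := by
    simp
  rw [e, Fin.sum_univ_add]
  have e1 : ∀ i : Fin d, fam d (Fin.castAdd d i) j = if i = j then 1 else 0 := by
    intro i
    simp [fam, Fin.ext_iff]
  have e2 : ∀ i : Fin d, fam d (Fin.natAdd d i) j = -(1 / (d : ℝ)) := by
    intro i
    simp [fam]
  rw [sum_congr rfl fun i _ => e1 i, sum_congr rfl fun i _ => e2 i]
  simp
  field_simp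
  ring

/-- number of basis vectors among the first `k` -/
def cnt (d : ℕ) (π : Equiv.Perm (Fin (d + d))) (k : ℕ) : ℕ :=
  (univ.filter fun i : Fin (d + d) => (i : ℕ) < k ∧ (π i : ℕ) < d).card

theorem cnt_zero (d : ℕ) (π : Equiv.Perm (Fin (d + d))) : cnt d π 0 = 0 := by
  simp [cnt]

theorem cnt_full (d : ℕ) (π : Equiv.Perm (Fin (d + d))) : cnt d π (d + d) = d := by
  unfold cnt
  have h1 : (univ.filter fun i : Fin (d + d) => (i : ℕ) < d + d ∧ (π i : ℕ) < d).card =
      (univ.filter fun i : Fin (d + d) => (i : ℕ) < d).card := by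
    refine card_bij (fun i _ => π i) ?_ ?_ ?_
    · intro i hi
      simp only [mem_filter, mem_univ, true_and] at hi ⊢
      exact hi.2
    · intro a _ b _ h
      exact π.injective h
    · intro b hb
      simp only [mem_filter, mem_univ, true_and] at hb ⊢
      exact ⟨π.symm b, ⟨by omega, by simpa using hb⟩, by simp⟩
  rw [h1]
  have h2 : (univ.filter fun i : Fin (d + d) => (i : ℕ) < d) =
      (univ : Finset (Fin d)).map (Fin.castAddEmb d) := by
    ext i
    simp only [mem_filter, mem_univ, true_and, mem_map, Fin.castAddEmb_apply]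
    constructor
    · intro h
      exact ⟨⟨i, h⟩, by ext; simp⟩
    · rintro ⟨a, rfl⟩
      simp
  rw [h2, card_map, card_univ, Fintype.card_fin]

theorem cnt_succ (d : ℕ) (π : Equiv.Perm (Fin (d + d))) (k : ℕ) :
    cnt d π (k + 1) ≤ cnt d π k + 1 := by
  unfold cnt
  by_cases hk : k < d + d
  · have : (univ.filter fun i : Fin (d + d) => (i : ℕ) < k + 1 ∧ (π i : ℕ) < d) ⊆
        insert ⟨k, hk⟩ (univ.filter fun i : Fin (d + d) => (i : ℕ) < k ∧ (π i : ℕ) < d) := by
      intro i hi
      simp only [mem_filter, mem_univ, true_and, mem_insert] at hi ⊢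
      by_cases h : (i : ℕ) = k
      · left; exact Fin.ext h
      · right; exact ⟨by omega, hi.2⟩
    exact (card_le_card this).trans (card_insert_le _ _)
  · have : (univ.filter fun i : Fin (d + d) => (i : ℕ) < k + 1 ∧ (π i : ℕ) < d) ⊆
        (univ.filter fun i : Fin (d + d) => (i : ℕ) < k ∧ (π i : ℕ) < d) := by
      intro i hi
      simp only [mem_filter, mem_univ, true_and] at hi ⊢
      exact ⟨by omega, hi.2⟩
    have := card_le_card this
    omega

theorem exists_cnt (d : ℕ) (π : Equiv.Perm (Fin (d + d))) {m : ℕ} (hm : m ≤ d) :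
    ∃ k, k ≤ d + d ∧ cnt d π k = m := by
  have hex : ∃ k, m ≤ cnt d π k := ⟨d + d, by rw [cnt_full]; exact hm⟩
  classical
  have h1 := Nat.find_spec hex
  have h2 : Nat.find hex ≤ d + d := Nat.find_min' hex (by rw [cnt_full]; exact hm)
  refine ⟨Nat.find hex, h2, ?_⟩
  rcases Nat.eq_zero_or_pos (Nat.find hex) with h0 | h0
  · rw [h0, cnt_zero] at h1 ⊢
    omega
  · obtain ⟨j, hj⟩ : ∃ j, Nat.find hex = j + 1 := ⟨Nat.find hex - 1, by omega⟩
    have h3 : ¬ m ≤ cnt d π j := Nat.find_min hex (by omega)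
    have h4 := cnt_succ d π j
    rw [hj] at h1 ⊢
    omega

theorem prefix_norm (d : ℕ) (π : Equiv.Perm (Fin (d + d))) (k : ℕ) :
    ∃ s : ℝ, ‖prefixSum (fam d) π k‖ ^ 2 = cnt d π k - 2 * s * cnt d π k + d * s ^ 2 ∧
      s * d = ((univ.filter fun i : Fin (d + d) => (i : ℕ) < k ∧ ¬ (π i : ℕ) < d).card : ℝ) := by
  rcases Nat.eq_zero_or_pos d with rfl | hd
  · refine ⟨0, ?_, ?_⟩
    · rw [EuclideanSpace.norm_sq_eq]
      have : cnt 0 π k = 0 := by
        unfold cnt
        simp
      simp [this]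
    · simp
  have hd' : (d : ℝ) ≠ 0 := by exact_mod_cast hd.ne'
  set q : ℕ := (univ.filter fun i : Fin (d + d) => (i : ℕ) < k ∧ ¬ (π i : ℕ) < d).card with hq
  refine ⟨q / d, ?_, by field_simp⟩
  set a : Fin d → ℝ := fun j => if ((π.symm (Fin.castAdd d j) : Fin (d + d)) : ℕ) < k then 1 else 0
    with ha
  have hcoord : ∀ j : Fin d, prefixSum (fam d) π k j = a j - q / d := by
    intro j
    have e : prefixSum (fam d) π k j =
        ∑ i ∈ univ.filter (fun i : Fin (d + d) => (i : ℕ) < k), fam d (π i) j := by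
      simp [prefixSum]
    rw [e]
    have e2 : ∀ i : Fin (d + d), fam d (π i) j =
        (if i = π.symm (Fin.castAdd d j) then (1 : ℝ) else 0) +
          (if ¬ (π i : ℕ) < d then -(1 / (d : ℝ)) else 0) := by
      intro i
      by_cases h : (π i : ℕ) < d
      · simp only [fam, h, if_true, not_true, if_false, add_zero]
        by_cases h1 : (π i : ℕ) = j
        · have : i = π.symm (Fin.castAdd d j) := by
            rw [Equiv.eq_symm_apply]; ext; simpa using h1
          rw [if_pos h1, if_pos this]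
        · have : ¬ i = π.symm (Fin.castAdd d j) := by
            rw [Equiv.eq_symm_apply]; intro h2; exact h1 (by rw [h2]; simp)
          rw [if_neg h1, if_neg this]
      · have : ¬ i = π.symm (Fin.castAdd d j) := by
          rw [Equiv.eq_symm_apply]; intro h2; exact h (by rw [h2]; simp)
        simp [fam, h, this]
    rw [sum_congr rfl fun i _ => e2 i, sum_add_distrib]
    congr 1
    · rw [sum_ite_eq' (univ.filter fun i : Fin (d + d) => (i : ℕ) < k)]
      simp [ha]
    · rw [← sum_filter, filter_filter, sum_const, ← hq, nsmul_eq_mul]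
      field_simp
  have hsq : ∀ j, a j ^ 2 = a j := by
    intro j
    simp only [ha]
    split_ifs <;> norm_num
  have hsum : ∑ j, a j = cnt d π k := by
    simp only [ha]
    rw [sum_boole]
    congr 1
    unfold cnt
    refine card_bij (fun j _ => π.symm (Fin.castAdd d j)) ?_ ?_ ?_
    · intro j hj
      simp only [mem_filter, mem_univ, true_and] at hj ⊢
      exact ⟨hj, by simp⟩
    · intro x _ y _ h
      have := π.symm.injective h
      exact Fin.castAdd_injective d d this
    · intro b hb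
      simp only [mem_filter, mem_univ, true_and] at hb ⊢
      refine ⟨⟨π b, hb.2⟩, ?_, ?_⟩
      · have : Fin.castAdd d (⟨π b, hb.2⟩ : Fin d) = π b := by ext; simp
        rw [this]; simpa using hb.1
      · have : Fin.castAdd d (⟨π b, hb.2⟩ : Fin d) = π b := by ext; simp
        rw [this]; simp
  rw [EuclideanSpace.norm_sq_eq]
  have e3 : ∀ j : Fin d, ‖prefixSum (fam d) π k j‖ ^ 2 =
      a j - 2 * (q / d) * a j + (q / d : ℝ) ^ 2 := by
    intro j
    rw [hcoord, Real.norm_eq_abs, sq_abs]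
    have := hsq j
    linear_combination this
  rw [sum_congr rfl fun j _ => e3 j, sum_add_distrib, sum_sub_distrib, ← mul_sum, hsum, sum_const,
    card_univ, Fintype.card_fin, nsmul_eq_mul]

theorem lower (d : ℕ) (hd : 1 ≤ d) : Real.sqrt d / 3 ≤ beta (fam d) := by
  have hd' : (0 : ℝ) < d := by exact_mod_cast hd
  apply le_beta
  intro π
  have key : ∀ x : ℝ, 0 ≤ x → (d : ℝ) / 9 ≤ x ^ 2 → Real.sqrt d / 3 ≤ x := by
    intro x hx h
    have h1 : Real.sqrt d ≤ 3 * x := by
      rw [Real.sqrt_le_left (by positivity)]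
      nlinarith
    linarith
  rcases Nat.lt_or_ge d 2 with h2 | h2
  · have h1 : d = 1 := by omega
    subst h1
    refine ⟨1, by norm_num, key _ (norm_nonneg _) ?_⟩
    obtain ⟨s, hs, hs2⟩ := prefix_norm 1 π 1
    have hc : cnt 1 π 1 +
        (univ.filter fun i : Fin (1 + 1) => (i : ℕ) < 1 ∧ ¬ (π i : ℕ) < 1).card = 1 := by
      unfold cnt
      rw [← card_union_of_disjoint]
      · have : (univ.filter fun i : Fin (1 + 1) => (i : ℕ) < 1 ∧ (π i : ℕ) < 1) ∪
          (univ.filter fun i : Fin (1 + 1) => (i : ℕ) < 1 ∧ ¬ (π i : ℕ) < 1) = {0} := by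
          ext i
          simp only [mem_union, mem_filter, mem_univ, true_and, mem_singleton, Fin.ext_iff]
          constructor
          · rintro (h | h)
            · have := h.1; simp; omega
            · have := h.1; simp; omega
          · intro h
            have h0 : (i : ℕ) < 1 := by simp at h; omega
            by_cases hp : (π i : ℕ) < 1
            · exact Or.inl ⟨h0, hp⟩
            · exact Or.inr ⟨h0, hp⟩
        rw [this, card_singleton]
      · rw [disjoint_filter]
        rintro i _ ⟨_, h⟩ ⟨_, h'⟩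
        exact h' h
    rw [hs]
    generalize hcc : cnt 1 π 1 = c at *
    generalize hqq : (univ.filter fun i : Fin (1 + 1) => (i : ℕ) < 1 ∧ ¬ (π i : ℕ) < 1).card = q at *
    have hs3 : s = q := by simpa using hs2
    rw [hs3]
    rcases (by omega : (c = 0 ∧ q = 1) ∨ (c = 1 ∧ q = 0)) with ⟨h, h'⟩ | ⟨h, h'⟩
    · rw [h, h']; norm_num
    · rw [h, h']; norm_num
  · obtain ⟨k, hk, hck⟩ := exists_cnt d π (m := d / 2) (by omega)
    refine ⟨k, hk, key _ (norm_nonneg _) ?_⟩
    obtain ⟨s, hs, -⟩ := prefix_norm d π k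
    rw [hs, hck]
    set m : ℕ := d / 2 with hm
    have h3 : (d : ℝ) ≤ 3 * m := by
      have : d ≤ 3 * m := by omega
      exact_mod_cast this
    have h4 : 2 * (m : ℝ) ≤ d := by
      have : 2 * m ≤ d := by omega
      exact_mod_cast this
    have h5 : (0 : ℝ) ≤ (d * s - m) ^ 2 := sq_nonneg _
    have h6 : (d : ℝ) * (m - 2 * s * m + d * s ^ 2) = (d * s - m) ^ 2 + m * (d - m) := by ring
    have h7 : (d : ℝ) * (d / 9) ≤ m * (d - m) := by nlinarith
    have h8 : (d : ℝ) * (d / 9) ≤ d * (m - 2 * s * m + d * s ^ 2) := by rw [h6]; linarith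
    exact le_of_mul_le_mul_left h8 hd'

theorem theta {C : ℝ} (hC : ∀ (d N : ℕ)
    (v : Fin N → EuclideanSpace ℝ (Fin d)), (∀ i, ‖v i‖ ≤ 1) → ∑ i, v i = 0 →
    ∃ π : Equiv.Perm (Fin N), ∀ n : ℕ,
      ‖∑ i ∈ Finset.univ.filter (fun i : Fin N => (i : ℕ) < n), v (π i)‖ ≤ C * Real.sqrt d)
    (d : ℕ) (hd : 1 ≤ d) : BddAbove (betaSet d) ∧ Real.sqrt d / 3 ≤ S2 d ∧
      S2 d ≤ C * Real.sqrt d := by
  have hub : ∀ x ∈ betaSet d, x ≤ C * Real.sqrt d := by
    rintro x ⟨N, v, h1, h2, rfl⟩
    exact beta_le v (hC d N v h1 h2)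
  have hb : BddAbove (betaSet d) := ⟨_, hub⟩
  have hmem : beta (fam d) ∈ betaSet d := ⟨d + d, fam d, fam_norm d, fam_sum d, rfl⟩
  exact ⟨hb, (lower d hd).trans (le_csSup hb hmem), csSup_le ⟨_, hmem⟩ hub⟩

end P262S
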