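import Mathlib

/-!
# The Euclidean Steinitz constant

`S2 d` is the supremum, over all finite families `v` (of every length) of vectors of the Euclidean
unit ball of `ℝ^d` with zero sum, of the least possible maximal norm of a prefix sum over all
orderings of `v`.
-/

namespace P262S

open Finset

/-- The sum of the first `k` vectors of the family `v` in the order `π`. -/
noncomputable def prefixSum {d N : ℕ} (v : Fin N → EuclideanSpace ℝ (Fin d))
    (π : Equiv.Perm (Fin N)) (k : ℕ) : EuclideanSpace ℝ (Fin d) :=
  ∑ i ∈ univ.filter (fun i : Fin N => (i : ℕ) < k), v (π i)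

/-- `β(v)`: the minimum over all orderings of the maximal norm of a prefix sum. -/
noncomputable def beta {d N : ℕ} (v : Fin N → EuclideanSpace ℝ (Fin d)) : ℝ :=
  ⨅ π : Equiv.Perm (Fin N), ⨆ k : Fin (N + 1), ‖prefixSum v π k‖

/-- The values `β(v)` of all finite zero-sum families of vectors of the unit ball of `ℝ^d`. -/
def betaSet (d : ℕ) : Set ℝ :=
  {x | ∃ (N : ℕ) (v : Fin N → EuclideanSpace ℝ (Fin d)),
    (∀ i, ‖v i‖ ≤ 1) ∧ ∑ i, v i = 0 ∧ x = beta v}

/-- The Euclidean Steinitz constant. -/
noncomputable def S2 (d : ℕ) : ℝ := sSup (betaSet d)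

end P262S
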